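import Vale.Agent.P211.H844.J3m

set_option linter.all false

/-! P211: a-priori bound for the derivative of the self-dual Weyl curvature. -/

namespace Vale.Agent.P211.S4

open Topology Filter MeasureTheory Set
open scoped ContDiff

variable {M 𝒪 V : Type*} [TopologicalSpace M] [CommRing 𝒪] [Algebra ℝ 𝒪]
    [AddCommGroup V] [Module 𝒪 V] {G : Geo2 M 𝒪 V} {om : V → V → V → V → 𝒪}

theorem alg_bd {w0 w1 w2 : ℝ} (h : w0 + w1 + w2 = 0) (h0 : -2 ≤ w0) (h1 : -2 ≤ w1)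
    (h2 : -2 ≤ w2) : (w0 ^ 2 + w1 ^ 2 + w2 ^ 2) - 8 ≤ w0 * w1 * w2 ∧
      (w0 ^ 2 + w1 ^ 2 + w2 ^ 2) / 6 ≤ 4 := by
  have p1 := mul_nonneg (by linarith only [h0] : (0 : ℝ) ≤ w0 + 2)
    (by linarith only [h1] : (0 : ℝ) ≤ w1 + 2)
  have p2 := mul_nonneg (by linarith only [h0] : (0 : ℝ) ≤ w0 + 2)
    (by linarith only [h2] : (0 : ℝ) ≤ w2 + 2)
  have p3 := mul_nonneg (by linarith only [h1] : (0 : ℝ) ≤ w1 + 2)
    (by linarith only [h2] : (0 : ℝ) ≤ w2 + 2)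
  have p4 := mul_nonneg p1 (by linarith only [h2] : (0 : ℝ) ≤ w2 + 2)
  have e2 : w2 = - w0 - w1 := by linarith
  subst e2
  constructor <;> nlinarith only [p1, p2, p3, p4]

/-- range of `n` and `det W` under nonnegative curvature -/
theorem range_nd (hE : G.Einstein 3) (hK : G.SecGe 0) (ho : Orient G om) {n dl b : 𝒪}
    (hB : Basic G om n dl b) (p : M) :
    0 ≤ G.ev p n ∧ G.ev p n ≤ 4 ∧ 6 * G.ev p n - 8 ≤ G.ev p dl := by
  obtain ⟨F, hF, hd⟩ := exists_diag hE ho p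
  have h01 := hd 0 1 (by decide)
  have h02 := hd 0 2 (by decide)
  have h10 := hd 1 0 (by decide)
  have h12 := hd 1 2 (by decide)
  have h20 := hd 2 0 (by decide)
  have h21 := hd 2 1 (by decide)
  obtain ⟨htr, -⟩ := Ab_tr hE hF.1
  have g0 := Ab_ge hE hK hF.1 0
  have g1 := Ab_ge hE hK hF.1 1
  have g2 := Ab_ge hE hK hF.1 2
  obtain ⟨k1, k2⟩ := alg_bd (w0 := Ab (G.rr p F) 0 0 - 1) (w1 := Ab (G.rr p F) 1 1 - 1)
    (w2 := Ab (G.rr p F) 2 2 - 1) (by linarith only [htr]) (by linarith only [g0])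
    (by linarith only [g1]) (by linarith only [g2])
  have e1 : G.ev p n = ((Ab (G.rr p F) 0 0 - 1) ^ 2 + (Ab (G.rr p F) 1 1 - 1) ^ 2
      + (Ab (G.rr p F) 2 2 - 1) ^ 2) / 6 := by
    rw [hB.n_ev p F hF, nW]
    simp only [Fin.sum_univ_three, h01, h02, h10, h12, h20, h21]
    linear_combination (1 / 3) * htr
  have e2 : G.ev p dl = (Ab (G.rr p F) 0 0 - 1) * (Ab (G.rr p F) 1 1 - 1)
      * (Ab (G.rr p F) 2 2 - 1) := by
    rw [hB.d_ev p F hF, dW]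
    simp only [h01, h02, h10, h12, h20, h21]
    ring
  rw [e1, e2]
  refine ⟨by positivity, k2, ?_⟩
  linarith only [k1]

/-- the Laplacian is nonpositive at a maximum -/
theorem lap_max {f : 𝒪} {p : M} {F : Fin 4 → V} (hS : G.Sync p F)
    (h : ∀ q, G.ev q f ≤ G.ev p f) : G.ev p (G.lap f) ≤ 0 := by
  rw [lap_sync f hS]
  refine Finset.sum_nonpos fun m _ => ?_
  have h1 := (G.min_test p (-f) (Filter.Eventually.of_forall fun q => by
    show G.ev p (-f) ≤ G.ev q (-f)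
    rw [map_neg, map_neg]; exact neg_le_neg (h q)) (F m)).2
  rw [G.D_neg, G.D_neg, map_neg] at h1
  linarith only [h1]

theorem lap_comb3 {f1 f2 f3 : 𝒪} (c2 c3 : ℝ) {p : M} {F : Fin 4 → V} (hS : G.Sync p F) :
    G.ev p (G.lap (f1 + algebraMap ℝ 𝒪 c2 * f2 + algebraMap ℝ 𝒪 c3 * f3)) =
      G.ev p (G.lap f1) + c2 * G.ev p (G.lap f2) + c3 * G.ev p (G.lap f3) := by
  rw [lap_sync _ hS, lap_sync _ hS, lap_sync _ hS, lap_sync _ hS, Finset.mul_sum, Finset.mul_sum,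
    ← Finset.sum_add_distrib, ← Finset.sum_add_distrib]
  refine Finset.sum_congr rfl fun m _ => ?_
  have h : ∀ (c : ℝ) (f : 𝒪) (X : V), G.D X (algebraMap ℝ 𝒪 c * f) =
      algebraMap ℝ 𝒪 c * G.D X f := by
    intro c f X
    rw [G.D_mul, G.D_const]; ring
  simp only [G.D_add, h, map_add, map_mul, ev_al]

/-- **A-priori bound** for the derivative of the self-dual Weyl curvature. -/
theorem apriori [CompactSpace M] (hE : G.Einstein 3) (hK : G.SecGe 0) (ho : Orient G om)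
    {n dl b : 𝒪} (hB : Basic G om n dl b) (p : M) :
    G.ev p b + 2 * G.ev p dl - 9 / 2 * G.ev p n ≤ 442 / 11 := by
  obtain ⟨f, hf⟩ : ∃ f : 𝒪, f = b + algebraMap ℝ 𝒪 2 * dl + algebraMap ℝ 𝒪 (-9 / 2) * n :=
    ⟨_, rfl⟩
  have hev : ∀ q, G.ev q f = G.ev q b + 2 * G.ev q dl - 9 / 2 * G.ev q n := by
    intro q
    rw [hf, map_add, map_add, map_mul, map_mul, ev_al, ev_al]
    ring
  haveI : Nonempty M := ⟨p⟩
  obtain ⟨q, -, hq⟩ := isCompact_univ.exists_isMaxOn univ_nonempty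
    (G.ev_cont f).continuousOn
  have hmax : ∀ x, G.ev x f ≤ G.ev q f := fun x => hq (mem_univ x)
  rw [← hev]
  refine (hmax p).trans ?_
  obtain ⟨F, hS, -⟩ := exists_sync ho q
  have h1 := lap_max hS hmax
  rw [hf, lap_comb3 _ _ hS] at h1
  obtain ⟨N, κ, σ, Q, g, z, t, u, hP⟩ := side hE ho hB q
  rw [hP.lap_b, hP.lap_d, hP.lap_n] at h1
  obtain ⟨r0, r1, r2⟩ := range_nd hE hK ho hB q
  have hd := hP.d_eq
  have hn := hP.n_eq
  rw [hev, hn, hd]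
  rw [hn] at r0 r1 r2
  rw [hd] at r2
  have h2 : 11 * G.ev q b ≤ 36 * N ^ 2 - 90 * κ * N ^ 3 + 54 * N ^ 4 := by
    linarith only [h1, hP.Q0]
  have h3 : N ^ 2 * (4 - N ^ 2) ≥ 0 := mul_nonneg r0 (by linarith only [r1])
  have h4 : N ^ 2 * N ^ 2 = N ^ 4 := by ring
  linarith only [h2, h3, h4, r2, r1, r0]

end Vale.Agent.P211.S4
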