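import Vale.Agent.P272.K.LIN.Patch
import Vale.Agent.P272.K.LIN.DescIn
import Vale.Agent.P272.K.R.Final

/-! P211: solvability of `l h - L h = F` for second order elliptic operators `L` with smooth
coefficients on a closed manifold, smooth right hand side, smooth solution. -/

set_option maxSynthPendingDepth 3
set_option linter.all false

open scoped Manifold ContDiff Topology NNReal
open Filter Set Metric

noncomputable section

namespace Vale.Agent.P211.H844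

open Vale.Agent.P272.K.LIN

section jets

variable {E : Type*} [NormedAddCommGroup E] [NormedSpace ℝ E]

/-- realisation of a two-jet by a polynomial -/
theorem exists_poly (y : E) (c0 : ℝ) (c1 : E →L[ℝ] ℝ) (c2 : E →L[ℝ] E →L[ℝ] ℝ)
    (hs : ∀ u v, c2 u v = c2 v u) : ∃ q : E → ℝ, ContDiff ℝ ∞ q ∧ jet q y = (c0, c1, c2) := by
  refine ⟨fun z => c0 + c1 (z - y) + 1 / 2 * c2 (z - y) (z - y), ?_, ?_⟩
  · fun_prop
  have hd : ∀ z, HasFDerivAt (fun z => c0 + c1 (z - y) + 1 / 2 * c2 (z - y) (z - y))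
      (c1 + c2 (z - y)) z := by
    intro z
    have h0 : HasFDerivAt (fun z : E => z - y) (ContinuousLinearMap.id ℝ E) z :=
      (hasFDerivAt_id z).sub_const y
    have h1 : HasFDerivAt (fun z => c1 (z - y)) c1 z := by
      have := c1.hasFDerivAt.comp z h0
      exact this
    have h2 : HasFDerivAt (fun z => c2 (z - y)) c2 z := by
      have := c2.hasFDerivAt.comp z h0
      exact this
    have h3 := ((h1.const_add c0).add ((h2.clm_apply h0).const_mul (1 / 2)))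
    refine h3.congr_fderiv ?_
    ext u
    simp only [_root_.add_apply, _root_.smul_apply, smul_eq_mul,
      ContinuousLinearMap.comp_apply, ContinuousLinearMap.flip_apply, ContinuousLinearMap.id_apply]
    rw [hs u (z - y)]
    ring
  have h1 : fderiv ℝ (fun z => c0 + c1 (z - y) + 1 / 2 * c2 (z - y) (z - y)) =
      fun z => c1 + c2 (z - y) := funext fun z => (hd z).fderiv
  have h2 : fderiv ℝ (fun z => c1 + c2 (z - y)) y = c2 := by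
    have h0 : HasFDerivAt (fun z : E => z - y) (ContinuousLinearMap.id ℝ E) y :=
      (hasFDerivAt_id y).sub_const y
    have h2 : HasFDerivAt (fun z => c2 (z - y)) c2 y := by
      have := c2.hasFDerivAt.comp y h0
      exact this
    exact (h2.const_add c1).fderiv
  unfold jet
  rw [h1, h2]
  simp

variable [FiniteDimensional ℝ E] {X : Type*} [TopologicalSpace X] [ChartedSpace E X] [T2Space X]
  [RSm E X]

/-- every two-jet of a function is the two-jet of a smooth function -/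
theorem exists_jet_smooth {e : OpenPartialHomeomorph X E} (he : e ∈ atlas E X) {x : X}
    (hx : x ∈ e.source) {v : E → ℝ} (hv : ContDiffAt ℝ 2 v (e x)) :
    ∃ f : X → ℝ, CkFn E ∞ f ∧ jet (fun y => f (e.symm y)) (e x) = jet v (e x) := by
  obtain ⟨q, hq, hqj⟩ := exists_poly (e x) (v (e x)) (fderiv ℝ v (e x))
    (fderiv ℝ (fderiv ℝ v) (e x)) fun u w => (hv.isSymmSndFDerivAt (by simp)).eq u w
  obtain ⟨r, hr, hb⟩ := Metric.isOpen_iff.1 e.open_target _ (e.map_source hx)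
  let β : ContDiffBump (e x) := ⟨r / 4, r / 2, by positivity, by linarith⟩
  have hKt : closedBall (e x) (r / 2) ⊆ e.target :=
    (closedBall_subset_ball (by linarith)).trans hb
  refine ⟨ext0 e fun y => β y * q y, ?_, ?_⟩
  · refine ext0_ck le_rfl he (isCompact_closedBall (e x) (r / 2)) hKt (fun y hy => ?_) fun y _ => ?_
    · have : β y = 0 := by
        apply β.zero_of_le_dist
        simp only [mem_closedBall, not_le] at hy
        exact hy.le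
      rw [this, zero_mul]
    · exact β.contDiffAt.mul hq.contDiffAt
  · rw [← hqj.trans (show _ = jet v (e x) from rfl)]
    refine jet_congr ?_
    filter_upwards [e.open_target.mem_nhds (e.map_source hx),
      closedBall_mem_nhds (e x) (show (0 : ℝ) < r / 4 by positivity)] with y hy hy2
    rw [ext0_of_mem (e.map_target hy), e.right_inv hy, β.one_of_mem_closedBall hy2, one_mul]

end jets

section operator

variable {E : Type*} [NormedAddCommGroup E] [NormedSpace ℝ E] [FiniteDimensional ℝ E]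
  {X : Type*} [TopologicalSpace X] [ChartedSpace E X]

/-- local expression of an operator in a chart -/
def Pop (a : E → (E →L[ℝ] E →L[ℝ] ℝ) →L[ℝ] ℝ) (b : E → (E →L[ℝ] ℝ) →L[ℝ] ℝ) (y : E) :
    Jet E →L[ℝ] ℝ :=
  (a y).comp ((ContinuousLinearMap.snd ℝ (E →L[ℝ] ℝ) (E →L[ℝ] E →L[ℝ] ℝ)).comp
    (ContinuousLinearMap.snd ℝ ℝ ((E →L[ℝ] ℝ) × (E →L[ℝ] E →L[ℝ] ℝ)))) +
  (b y).comp ((ContinuousLinearMap.fst ℝ (E →L[ℝ] ℝ) (E →L[ℝ] E →L[ℝ] ℝ)).comp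
    (ContinuousLinearMap.snd ℝ ℝ ((E →L[ℝ] ℝ) × (E →L[ℝ] E →L[ℝ] ℝ))))

theorem Pop_apply (a : E → (E →L[ℝ] E →L[ℝ] ℝ) →L[ℝ] ℝ) (b : E → (E →L[ℝ] ℝ) →L[ℝ] ℝ) (y : E)
    (j : Jet E) : Pop a b y j = a y j.2.2 + b y j.2.1 := rfl

theorem Pop_smooth {a : E → (E →L[ℝ] E →L[ℝ] ℝ) →L[ℝ] ℝ} {b : E → (E →L[ℝ] ℝ) →L[ℝ] ℝ}
    {U : Set E} (ha : ContDiffOn ℝ ∞ a U) (hb : ContDiffOn ℝ ∞ b U) :
    ContDiffOn ℝ ∞ (Pop a b) U := by
  unfold Pop
  exact (ha.clm_comp contDiffOn_const).add (hb.clm_comp contDiffOn_const)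

/-- An operator with smooth coefficients, elliptic, in the charts of a cover. -/
structure OpData (𝒞 : Cov E X) (Lop : (X → ℝ) → X → ℝ)
    (a : Fin 𝒞.N → E → (E →L[ℝ] E →L[ℝ] ℝ) →L[ℝ] ℝ)
    (b : Fin 𝒞.N → E → (E →L[ℝ] ℝ) →L[ℝ] ℝ) (U : Fin 𝒞.N → Set E) : Prop where
  op : ∀ i, IsOpen (U i)
  sub : ∀ i, U i ⊆ (𝒞.e i).target
  ball : ∀ i, closedBall (𝒞.c i) (3 * 𝒞.r i) ⊆ U i
  sma : ∀ i, ContDiffOn ℝ ∞ (a i) (U i)
  smb : ∀ i, ContDiffOn ℝ ∞ (b i) (U i)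
  pos : ∀ i, ∀ y ∈ U i, ∀ ξ : E →L[ℝ] ℝ, ξ ≠ 0 → 0 < a i y (ξ.smulRight ξ)
  eq : ∀ f : X → ℝ, CkFn E ∞ f → ∀ i, ∀ y ∈ U i, Lop f ((𝒞.e i).symm y) =
    a i y (fderiv ℝ (fderiv ℝ fun y => f ((𝒞.e i).symm y)) y) +
      b i y (fderiv ℝ (fun y => f ((𝒞.e i).symm y)) y)

namespace OpData

variable {𝒞 : Cov E X} {Lop : (X → ℝ) → X → ℝ}
  {a : Fin 𝒞.N → E → (E →L[ℝ] E →L[ℝ] ℝ) →L[ℝ] ℝ} {b : Fin 𝒞.N → E → (E →L[ℝ] ℝ) →L[ℝ] ℝ}
  {U : Fin 𝒞.N → Set E} (D : OpData 𝒞 Lop a b U)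
include D

theorem ball2 (i : Fin 𝒞.N) : closedBall (𝒞.c i) (2 * 𝒞.r i) ⊆ U i :=
  (closedBall_subset_closedBall (by have := 𝒞.r_pos i; linarith)).trans (D.ball i)

theorem ball2' (i : Fin 𝒞.N) : Metric.ball (𝒞.c i) (2 * 𝒞.r i) ⊆ U i :=
  ball_subset_closedBall.trans (D.ball2 i)

/-- the operator on `C²` functions does not depend on the chart -/
theorem inv [T2Space X] [RSm E X] {v : X → ℝ} (hv : CkFn E 2 v) {i j : Fin 𝒞.N} {x : X}
    (hxi : x ∈ (𝒞.e i).source) (hxj : x ∈ (𝒞.e j).source) (hi : 𝒞.e i x ∈ U i)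
    (hj : 𝒞.e j x ∈ U j) :
    Pop (a i) (b i) (𝒞.e i x) (jet (fun y => v ((𝒞.e i).symm y)) (𝒞.e i x)) =
      Pop (a j) (b j) (𝒞.e j x) (jet (fun y => v ((𝒞.e j).symm y)) (𝒞.e j x)) := by
  obtain ⟨f, hf, hj1⟩ := exists_jet_smooth (𝒞.mem i) hxi (hv _ (𝒞.mem i) x hxi)
  have hf2 : CkFn E 2 f := hf.of_le two_le_inf
  have hj2 : jet (fun y => f ((𝒞.e j).symm y)) (𝒞.e j x) =
      jet (fun y => v ((𝒞.e j).symm y)) (𝒞.e j x) := by
    rw [jet_change hf2 (𝒞.mem i) (𝒞.mem j) hxi hxj, jet_change hv (𝒞.mem i) (𝒞.mem j) hxi hxj,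
      hj1]
  rw [← hj1, ← hj2, Pop_apply, Pop_apply]
  have e1 := D.eq f hf i _ hi
  have e2 := D.eq f hf j _ hj
  rw [(𝒞.e i).left_inv hxi] at e1
  rw [(𝒞.e j).left_inv hxj] at e2
  show a i (𝒞.e i x) (fderiv ℝ (fderiv ℝ fun y => f ((𝒞.e i).symm y)) (𝒞.e i x)) +
      b i (𝒞.e i x) (fderiv ℝ (fun y => f ((𝒞.e i).symm y)) (𝒞.e i x)) =
    a j (𝒞.e j x) (fderiv ℝ (fderiv ℝ fun y => f ((𝒞.e j).symm y)) (𝒞.e j x)) +
      b j (𝒞.e j x) (fderiv ℝ (fun y => f ((𝒞.e j).symm y)) (𝒞.e j x))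
  rw [← e1, ← e2]

end OpData

variable (𝒞 : Cov E X)

/-- bump functions of the cover -/
def bet (i : Fin 𝒞.N) : ContDiffBump (𝒞.c i) where
  rIn := 𝒞.r i
  rOut := 2 * 𝒞.r i
  rIn_pos := 𝒞.r_pos i
  rIn_lt_rOut := by have := 𝒞.r_pos i; linarith

/-- the bump functions on the manifold -/
def chi (i : Fin 𝒞.N) : X → ℝ := ext0 (𝒞.e i) (bet 𝒞 i)

theorem bet_zero {i : Fin 𝒞.N} {y : E} (hy : y ∉ Metric.ball (𝒞.c i) (2 * 𝒞.r i)) :
    bet 𝒞 i y = 0 := by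
  apply (bet 𝒞 i).zero_of_le_dist
  simpa [bet] using hy

theorem chi_nonneg (i : Fin 𝒞.N) (x : X) : 0 ≤ chi 𝒞 i x := by
  unfold chi ext0
  exact indicator_nonneg (fun x _ => (bet 𝒞 i).nonneg) x

theorem chi_ck [T2Space X] [RSm E X] (i : Fin 𝒞.N) : CkFn E ∞ (chi 𝒞 i) :=
  ext0_ck le_rfl (𝒞.mem i) (K := closedBall (𝒞.c i) (3 * 𝒞.r i)) (isCompact_closedBall _ _)
    (𝒞.sub i) (fun y hy => bet_zero 𝒞 fun h => hy (ball_subset_closedBall
      (ball_subset_ball (by have := 𝒞.r_pos i; linarith) h))) fun y _ => (bet 𝒞 i).contDiffAt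

/-- sum of the bump functions -/
def Psi (x : X) : ℝ := ∑ i, chi 𝒞 i x

theorem Psi_pos (x : X) : 0 < Psi 𝒞 x := by
  obtain ⟨i, hx, hb⟩ := 𝒞.cover x
  have h1 : chi 𝒞 i x = 1 := by
    unfold chi
    rw [ext0_of_mem hx]
    exact (bet 𝒞 i).one_of_mem_closedBall (ball_subset_closedBall hb)
  have h2 : chi 𝒞 i x ≤ Psi 𝒞 x :=
    Finset.single_le_sum (fun j _ => chi_nonneg 𝒞 j x) (Finset.mem_univ i)
  linarith

theorem Psi_ck [T2Space X] [RSm E X] : CkFn E ∞ (Psi 𝒞) := CkFn.sum fun i _ => chi_ck 𝒞 i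

variable {𝒞} {Lop : (X → ℝ) → X → ℝ}
  {a : Fin 𝒞.N → E → (E →L[ℝ] E →L[ℝ] ℝ) →L[ℝ] ℝ} {b : Fin 𝒞.N → E → (E →L[ℝ] ℝ) →L[ℝ] ℝ}
  {U : Fin 𝒞.N → Set E}

/-- the coefficients of the global operator -/
def Acoef (𝒞 : Cov E X) (a : Fin 𝒞.N → E → (E →L[ℝ] E →L[ℝ] ℝ) →L[ℝ] ℝ)
    (b : Fin 𝒞.N → E → (E →L[ℝ] ℝ) →L[ℝ] ℝ) (i : Fin 𝒞.N) (x : X) : Jet E →L[ℝ] ℝ :=
  (1 / Psi 𝒞 x) • ext0 (𝒞.e i) (fun y => bet 𝒞 i y • Pop (a i) (b i) y) x

theorem OpData.Acoef_ck [T2Space X] [RSm E X] (D : OpData 𝒞 Lop a b U) (i : Fin 𝒞.N) :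
    CkFn E ∞ (Acoef 𝒞 a b i) := by
  refine ((ckFn_const (1 : ℝ)).div (Psi_ck 𝒞) fun x => (Psi_pos 𝒞 x).ne').smul ?_
  refine ext0_ck le_rfl (𝒞.mem i) (K := closedBall (𝒞.c i) (2 * 𝒞.r i)) (isCompact_closedBall _ _)
    ((D.ball2 i).trans (D.sub i)) (fun y hy => ?_) fun y _ => ?_
  · rw [bet_zero 𝒞 fun h => hy (ball_subset_closedBall h), zero_smul]
  · by_cases hy : y ∈ U i
    · exact ((bet 𝒞 i).contDiffAt).smul
        ((Pop_smooth (D.sma i) (D.smb i)).contDiffAt ((D.op i).mem_nhds hy))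
    · have h1 : (closedBall (𝒞.c i) (2 * 𝒞.r i))ᶜ ∈ 𝓝 y :=
        isClosed_closedBall.isOpen_compl.mem_nhds fun h => hy (D.ball2 i h)
      refine (contDiffAt_const (c := (0 : Jet E →L[ℝ] ℝ))).congr_of_eventuallyEq ?_
      filter_upwards [h1] with z hz
      rw [bet_zero 𝒞 fun h => hz (ball_subset_closedBall h), zero_smul]

/-- the operator `C^{2,α} → C^α` -/
def OpData.L [T2Space X] [CompactSpace X] [RSm E X] (D : OpData 𝒞 Lop a b U) {α : ℝ}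
    (h0 : 0 < α) (h1 : α ≤ 1) : 𝒞.C2 α →L[ℝ] Hol (𝒞.w α) ℝ :=
  ∑ i, (Hol.bilL (ContinuousLinearMap.id ℝ (Jet E →L[ℝ] ℝ))
    (𝒞.ofCk h0 h1 (Acoef 𝒞 a b i) ((D.Acoef_ck i).of_le (by simp)))).comp (𝒞.J α i)

theorem OpData.L_apply [T2Space X] [CompactSpace X] [RSm E X] (D : OpData 𝒞 Lop a b U) {α : ℝ}
    (h0 : 0 < α) (h1 : α ≤ 1) (v : 𝒞.C2 α) {i : Fin 𝒞.N} {x : X} (hx : x ∈ (𝒞.e i).source)
    (hxb : 𝒞.e i x ∈ Metric.ball (𝒞.c i) (2 * 𝒞.r i)) :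
    D.L h0 h1 v x =
      Pop (a i) (b i) (𝒞.e i x) (jet (fun y => 𝒞.fn v ((𝒞.e i).symm y)) (𝒞.e i x)) := by
  have e1 : D.L h0 h1 v x = ∑ j, Acoef 𝒞 a b j x (𝒞.Jf j (𝒞.fn v) x) := by
    have : D.L h0 h1 v = ∑ j, (Hol.bilL (ContinuousLinearMap.id ℝ (Jet E →L[ℝ] ℝ))
        (𝒞.ofCk h0 h1 (Acoef 𝒞 a b j) ((D.Acoef_ck j).of_le (by simp)))) (𝒞.J α j v) := by
      unfold OpData.L
      rw [_root_.sum_apply]
      rfl
    rw [this, Hol.sum_apply]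
    refine Finset.sum_congr rfl fun j _ => ?_
    rw [Hol.bilL_apply, 𝒞.J_apply]
    rfl
  have e2 : ∀ j, Acoef 𝒞 a b j x (𝒞.Jf j (𝒞.fn v) x) = 1 / Psi 𝒞 x * chi 𝒞 j x *
      Pop (a i) (b i) (𝒞.e i x) (jet (fun y => 𝒞.fn v ((𝒞.e i).symm y)) (𝒞.e i x)) := by
    intro j
    unfold Acoef chi
    by_cases hj : x ∈ (𝒞.e j).source
    · rw [ext0_of_mem hj, ext0_of_mem hj]
      by_cases hb : 𝒞.e j x ∈ Metric.ball (𝒞.c j) (2 * 𝒞.r j)
      · rw [𝒞.Jf_of_ball hj hb, _root_.smul_apply, _root_.smul_apply,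
          ← D.inv (𝒞.fn_ck v) hj hx (D.ball2' j hb) (D.ball2' i hxb)]
        simp only [smul_eq_mul]
        ring
      · rw [bet_zero 𝒞 hb]
        simp
    · rw [ext0_of_notMem hj, ext0_of_notMem hj]
      simp
  rw [e1]
  simp only [e2]
  rw [← Finset.sum_mul, ← Finset.mul_sum]
  have h3 : ∑ j, chi 𝒞 j x = Psi 𝒞 x := rfl
  rw [h3, one_div, inv_mul_cancel₀ (Psi_pos 𝒞 x).ne', one_mul]

/-- smooth functions on a neighbourhood of a closed ball are Hölder on the ball -/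
theorem hol_ball {V : Type*} [NormedAddCommGroup V] [NormedSpace ℝ V] {α : ℝ} (h0 : 0 < α)
    (h1 : α ≤ 1) {c : E} {r : ℝ} {U : Set E} (hU : IsOpen U) (hb : closedBall c r ⊆ U) {f : E → V}
    (hf : ContDiffOn ℝ ∞ f U) : ∃ K, ∀ y ∈ Metric.ball c r, ∀ y' ∈ Metric.ball c r,
      ‖f y - f y'‖ ≤ K * ‖y - y'‖ ^ α := by
  have hd : ContinuousOn (fderiv ℝ f) (closedBall c r) :=
    ((hf.fderiv_of_isOpen (m := 0) hU (by simp)).continuousOn).mono hb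
  obtain ⟨A, hA⟩ := (isCompact_closedBall c r).exists_bound_of_continuousOn hd
  obtain ⟨B, hB⟩ := (isCompact_closedBall c r).exists_bound_of_continuousOn (hf.continuousOn.mono hb)
  refine ⟨|A| + (|B| + |B|), fun y hy y' hy' => ?_⟩
  refine hol_of_lip h0 h1 (abs_nonneg A) (by positivity) (norm_nonneg _) ?_ ?_
  · have := (convex_closedBall c r).norm_image_sub_le_of_norm_fderiv_le (𝕜 := ℝ) (f := f)
      (C := |A|) (fun z hz => (hf.contDiffAt (hU.mem_nhds (hb hz))).differentiableAt (by simp))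
      (fun z hz => (hA z hz).trans (le_abs_self A)) (ball_subset_closedBall hy')
      (ball_subset_closedBall hy)
    exact this
  · exact (norm_sub_le _ _).trans (add_le_add ((hB y (ball_subset_closedBall hy)).trans
      (le_abs_self _)) ((hB y' (ball_subset_closedBall hy')).trans (le_abs_self _)))

theorem OpData.ell [T2Space X] [CompactSpace X] [RSm E X] (D : OpData 𝒞 Lop a b U) {α : ℝ}
    (h0 : 0 < α) (h1 : α ≤ 1) : Cov.Ell 𝒞 α (D.L h0 h1) a b where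
  hola i := hol_ball h0 h1 (D.op i) (D.ball2 i) (D.sma i)
  holb i := hol_ball h0 h1 (D.op i) (D.ball2 i) (D.smb i)
  pos i y hy ξ hξ := D.pos i y (D.ball2' i hy) ξ hξ
  eq v i x hx hxb := by
    rw [D.L_apply h0 h1 v hx hxb, Pop_apply]
    rfl

/-- solvability in `C^{2,α}` -/
theorem OpData.solve2 [T2Space X] [CompactSpace X] [RSm E X] (D : OpData 𝒞 Lop a b U) {α : ℝ}
    (h0 : 0 < α) (h1 : α < 1) {l : ℝ} (hl : 0 < l) {F : X → ℝ} (hF : CkFn E ∞ F) :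
    ∃ v : 𝒞.C2 α, ∀ x, l * 𝒞.fn v x - D.L h0 h1.le v x = F x := by
  have hell := D.ell h0 h1.le
  obtain ⟨Λ, hΛ, hs⟩ := 𝒞.surj_large h0 h1 hell
  have hb := (hell.bijective h0 h1 Λ (by linarith) (hs Λ le_rfl) l hl).2
  obtain ⟨v, hv⟩ := hb (𝒞.ofCk h0 h1.le F (hF.of_le (by simp)))
  refine ⟨v, fun x => ?_⟩
  have := congrArg (fun g : Hol (𝒞.w α) ℝ => g x) hv
  exact this

end operator

section reg

open Vale.Agent.P272.K

variable {E : Type} [NormedAddCommGroup E] [NormedSpace ℝ E] [FiniteDimensional ℝ E]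

/-- local regularity for linear equations with a first order term -/
theorem lin_reg {α : ℝ} (hα : 0 < α) (hα1 : α < 1) {U : Set E} (hU : IsOpen U)
    {a : E → (E →L[ℝ] E →L[ℝ] ℝ) →L[ℝ] ℝ} {b : E → (E →L[ℝ] ℝ) →L[ℝ] ℝ} {F z : E → ℝ} {l : ℝ}
    (ha : ContDiffOn ℝ ∞ a U) (hb : ContDiffOn ℝ ∞ b U) (hF : ContDiffOn ℝ ∞ F U)
    (hpos : ∀ y ∈ U, ∀ ξ : E →L[ℝ] ℝ, ξ ≠ 0 → 0 < a y (ξ.smulRight ξ))
    (hz : R.HC α U 2 z)
    (heq : ∀ y ∈ U, l * z y - (a y (fderiv ℝ (fderiv ℝ z) y) + b y (fderiv ℝ z y)) = F y) :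
    ContDiffOn ℝ ∞ z U := by
  have hsm : ∀ (k : ℕ) {V : Type} [NormedAddCommGroup V] [NormedSpace ℝ V] {f : E → V},
      ContDiffOn ℝ ∞ f U → R.HC α U k f := fun k V _ _ f hf =>
    R.HC.of_contDiff hα hα1.le hU fun x hx =>
      (hf.contDiffAt (hU.mem_nhds hx)).of_le (by exact_mod_cast le_top)
  have key : ∀ k : ℕ, R.HC α U (k + 2) z := by
    intro k
    induction k with
    | zero => exact hz
    | succ k ih =>
      have h1 : R.HC α U (k + 1) (fun y => b y (fderiv ℝ z y)) := by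
        have := (hsm (k + 1) hb).bilin hα hα1.le hU (ContinuousLinearMap.id ℝ ((E →L[ℝ] ℝ) →L[ℝ] ℝ))
          ih.2
        exact this
      have h2 : R.HC α U (k + 1) (fun y => b y (fderiv ℝ z y) + F y) :=
        h1.add hU (hsm (k + 1) hF)
      refine R.linear_reg hα hα1.le (R.allCCE E hα hα1) hU (k + 1) (hsm _ ha)
        (R.hc_const (-l) hU) h2 hpos hz fun y hy => ?_
      have := heq y hy
      show a y (fderiv ℝ (fderiv ℝ z) y) + -l * z y + (b y (fderiv ℝ z y) + F y) = 0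
      rw [← this]
      ring
  rw [contDiffOn_infty]
  intro n
  exact ((key n).contDiffOn hα hU).of_le (by norm_cast; omega)

variable {X : Type*} [TopologicalSpace X] [ChartedSpace E X] [T2Space X] [CompactSpace X]
  [RSm E X] {𝒞 : Cov E X} {Lop : (X → ℝ) → X → ℝ}
  {a : Fin 𝒞.N → E → (E →L[ℝ] E →L[ℝ] ℝ) →L[ℝ] ℝ} {b : Fin 𝒞.N → E → (E →L[ℝ] ℝ) →L[ℝ] ℝ}
  {U : Fin 𝒞.N → Set E}

/-- elements of `C^{2,α}` in the charts of the cover -/
theorem hc_C2 {α : ℝ} (h0 : 0 < α) (h1 : α ≤ 1) (v : 𝒞.C2 α) (i : Fin 𝒞.N) :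
    R.HC α (Metric.ball (𝒞.c i) (2 * 𝒞.r i)) 2 (fun y => 𝒞.fn v ((𝒞.e i).symm y)) := by
  have hr := 𝒞.r_pos i
  have hsub : closedBall (𝒞.c i) (2 * 𝒞.r i) ⊆ (𝒞.e i).target :=
    (closedBall_subset_closedBall (by linarith)).trans (𝒞.sub i)
  have hck : ∀ y ∈ Metric.ball (𝒞.c i) (2 * 𝒞.r i),
      ContDiffAt ℝ 2 (fun y => 𝒞.fn v ((𝒞.e i).symm y)) y := fun y hy =>
    (𝒞.fn_ck v).at_target (𝒞.mem i) (hsub (ball_subset_closedBall hy))
  obtain ⟨C, hC0, hC⟩ := 𝒞.symm_lip (𝒞.mem i) (isCompact_closedBall (𝒞.c i) (2 * 𝒞.r i)) hsub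
  refine ⟨fun y hy => (hck y hy).differentiableAt (by simp), fun y hy =>
    ((hck y hy).fderiv_right (m := 1) (by norm_num)).differentiableAt (by simp), fun y hy => ?_⟩
  obtain ⟨r, hrr, hrb⟩ := Metric.isOpen_iff.1 (isOpen_ball (x := 𝒞.c i) (ε := 2 * 𝒞.r i)) y hy
  refine ⟨r, hrr, hrb, (𝒞.J α i v).N1 * C ^ α, mul_nonneg (Hol.N1_nonneg _) (by positivity),
    fun z hz z' hz' => ?_⟩
  have e1 : ∀ z ∈ Metric.ball (𝒞.c i) (2 * 𝒞.r i),
      fderiv ℝ (fderiv ℝ (fun y => 𝒞.fn v ((𝒞.e i).symm y))) z =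
        (𝒞.J α i v ((𝒞.e i).symm z)).2.2 := by
    intro z hz
    rw [𝒞.J_apply, 𝒞.Jf_symm hz]
    rfl
  rw [e1 z (hrb hz), e1 z' (hrb hz')]
  have h2 : ‖(𝒞.J α i v ((𝒞.e i).symm z)).2.2 - (𝒞.J α i v ((𝒞.e i).symm z')).2.2‖ ≤
      ‖𝒞.J α i v ((𝒞.e i).symm z) - 𝒞.J α i v ((𝒞.e i).symm z')‖ :=
    (norm_snd_le ((𝒞.J α i v ((𝒞.e i).symm z)).2 - (𝒞.J α i v ((𝒞.e i).symm z')).2)).trans
      (norm_snd_le (𝒞.J α i v ((𝒞.e i).symm z) - 𝒞.J α i v ((𝒞.e i).symm z')))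
  refine h2.trans (((𝒞.J α i v).le_N1 _ _).trans ?_)
  rw [𝒞.coe_w, mul_assoc]
  refine mul_le_mul_of_nonneg_left ?_ (Hol.N1_nonneg _)
  rw [← Real.mul_rpow hC0 (norm_nonneg _)]
  exact Real.rpow_le_rpow (𝒞.d_nonneg _ _)
    (hC z (ball_subset_closedBall (hrb hz)) z' (ball_subset_closedBall (hrb hz'))) h0.le

/-- **Solvability**: smooth solutions of `l h - L h = F`. -/
theorem OpData.solve (D : OpData 𝒞 Lop a b U) {l : ℝ} (hl : 0 < l) {F : X → ℝ}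
    (hF : CkFn E ∞ F) : ∃ h : X → ℝ, CkFn E ∞ h ∧ ∀ x, l * h x - Lop h x = F x := by
  obtain ⟨v, hv⟩ := D.solve2 (α := 1 / 2) (by norm_num) (by norm_num) hl hF
  have hloc : ∀ i, ContDiffOn ℝ ∞ (fun y => 𝒞.fn v ((𝒞.e i).symm y))
      (Metric.ball (𝒞.c i) (2 * 𝒞.r i)) := by
    intro i
    have hsub : ∀ y ∈ Metric.ball (𝒞.c i) (2 * 𝒞.r i), y ∈ (𝒞.e i).target := fun y hy =>
      D.sub i (D.ball2' i hy)
    refine lin_reg (α := 1 / 2) (by norm_num) (by norm_num) isOpen_ball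
      (F := fun y => F ((𝒞.e i).symm y)) (l := l)
      ((D.sma i).mono (D.ball2' i)) ((D.smb i).mono (D.ball2' i)) (fun y hy => ?_)
      (fun y hy => D.pos i y (D.ball2' i hy)) (hc_C2 (by norm_num) (by norm_num) v i)
      fun y hy => ?_
    · exact (hF.at_target (𝒞.mem i) (hsub y hy)).contDiffWithinAt
    · have h1 := hv ((𝒞.e i).symm y)
      rw [D.L_apply (by norm_num) (by norm_num) v ((𝒞.e i).map_target (hsub y hy))
        (by rw [(𝒞.e i).right_inv (hsub y hy)]; exact hy), (𝒞.e i).right_inv (hsub y hy),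
        Pop_apply] at h1
      exact h1
  have hsm : CkFn E ∞ (𝒞.fn v) := by
    refine ckFn_of_local le_rfl fun x => ?_
    obtain ⟨i, hx, hxb⟩ := 𝒞.cover x
    exact ⟨𝒞.e i, 𝒞.mem i, hx, (hloc i).contDiffAt (isOpen_ball.mem_nhds (𝒞.ball_sub hxb))⟩
  refine ⟨𝒞.fn v, hsm, fun x => ?_⟩
  obtain ⟨i, hx, hxb⟩ := 𝒞.cover x
  have h1 := hv x
  rw [D.L_apply (by norm_num) (by norm_num) v hx (𝒞.ball_sub hxb), Pop_apply] at h1
  have h2 := D.eq _ hsm i _ (D.ball2' i (𝒞.ball_sub hxb))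
  rw [(𝒞.e i).left_inv hx] at h2
  rw [h2]
  exact h1

/-- **Solvability**, local form of the hypotheses. -/
theorem solve_of_local {Lop : (X → ℝ) → X → ℝ}
    (h : ∀ x0 : X, ∃ e ∈ atlas E X, x0 ∈ e.source ∧ ∃ U : Set E, IsOpen U ∧ U ⊆ e.target ∧
      e x0 ∈ U ∧ ∃ (a : E → (E →L[ℝ] E →L[ℝ] ℝ) →L[ℝ] ℝ) (b : E → (E →L[ℝ] ℝ) →L[ℝ] ℝ),
        ContDiffOn ℝ ∞ a U ∧ ContDiffOn ℝ ∞ b U ∧
        (∀ y ∈ U, ∀ ξ : E →L[ℝ] ℝ, ξ ≠ 0 → 0 < a y (ξ.smulRight ξ)) ∧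
        ∀ f : X → ℝ, CkFn E ∞ f → ∀ y ∈ U, Lop f (e.symm y) =
          a y (fderiv ℝ (fderiv ℝ fun y => f (e.symm y)) y) + b y (fderiv ℝ (fun y => f (e.symm y)) y))
    {l : ℝ} (hl : 0 < l) {F : X → ℝ} (hF : CkFn E ∞ F) :
    ∃ h : X → ℝ, CkFn E ∞ h ∧ ∀ x, l * h x - Lop h x = F x := by
  choose e he hx U hU hUt hxU a b ha hb hpos heq using h
  have hr : ∀ x : X, ∃ r : ℝ, 0 < r ∧ closedBall (e x x) (3 * r) ⊆ U x := by
    intro x
    obtain ⟨ε, hε, h⟩ := Metric.isOpen_iff.1 (hU x) _ (hxU x)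
    refine ⟨ε / 4, by positivity, (closedBall_subset_ball ?_).trans h⟩
    linarith
  choose r hr hs using hr
  obtain ⟨𝒞, p, hp⟩ := Cov.exists_cov E X e he hx r hr fun x => (hs x).trans (hUt x)
  have D : OpData 𝒞 Lop (fun i => a (p i)) (fun i => b (p i)) (fun i => U (p i)) := by
    refine ⟨fun i => hU _, fun i => ?_, fun i => ?_, fun i => ha _, fun i => hb _, fun i => hpos _,
      fun f hf i y hy => ?_⟩
    · rw [(hp i).1]; exact hUt _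
    · rw [(hp i).2.1, (hp i).2.2]; exact hs _
    · rw [(hp i).1]; exact heq _ f hf y hy
  exact D.solve hl hF

end reg

end Vale.Agent.P211.H844
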