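import Vale.Agent.P211.H844.PB
import Vale.Agent.P211.H844.PC

/-! P211: solvability of `l h - Δ h = F` on a closed Riemannian four-manifold. -/

set_option maxSynthPendingDepth 3
set_option linter.all false

open scoped Manifold ContDiff Topology
open Bundle Filter Set MeasureTheory

noncomputable section

namespace Vale.Agent.P211.S4

open Vale.Agent.P272.K.LIN

variable {E : Type} [NormedAddCommGroup E] [NormedSpace ℝ E] [FiniteDimensional ℝ E]
  {M : Type*} [TopologicalSpace M] [ChartedSpace E M] [IsManifold 𝓘(ℝ, E) ∞ M] [T2Space M]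
  [CompactSpace M] [PreconnectedSpace M]
  [RiemannianBundle (fun x : M => TangentSpace 𝓘(ℝ, E) x)]
  [IsContMDiffRiemannianBundle 𝓘(ℝ, E) ∞ E (fun x : M => TangentSpace 𝓘(ℝ, E) x)]
  {cov : CovariantDerivative 𝓘(ℝ, E) E (TangentSpace 𝓘(ℝ, E) : M → Type _)}

open Classical in
/-- the Laplacian as an operator on functions (junk value zero on nonsmooth functions) -/
def LapFn (hcov : IsLC cov) (hE : Module.finrank ℝ E = 4) (f : M → ℝ) (x : M) : ℝ :=
  if hf : ContMDiff 𝓘(ℝ, E) 𝓘(ℝ) ∞ f then (geo2Of hcov hE).lap (⟨f, hf⟩ : SF E M) x else 0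

/-- **Solvability** of `l h - Δ h = F`. -/
theorem solve_lap (hcov : IsLC cov) (hE : Module.finrank ℝ E = 4) {l : ℝ} (hl : 0 < l)
    (F : SF E M) : ∃ h : SF E M, ∀ q, l * (geo2Of hcov hE).ev q h -
      (geo2Of hcov hE).ev q ((geo2Of hcov hE).lap h) = (geo2Of hcov hE).ev q F := by
  obtain ⟨h, hh, heq⟩ := H844.solve_of_local (E := E) (X := M) (Lop := LapFn hcov hE) (fun x0 => by
    obtain ⟨Fr, hS⟩ := exists_sync0 (G := geo2Of hcov hE) x0
    obtain ⟨W, hW, hWo, hxW⟩ := mem_nhds_iff.1 hS.on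
    have he := chart_mem_atlas E x0
    have hx0 := mem_chart_source E x0
    set e := chartAt E x0 with hedef
    have hU : IsOpen (e.target ∩ e.symm ⁻¹' W) := e.isOpen_inter_preimage_symm hWo
    have hsub : e.target ∩ e.symm ⁻¹' W ⊆ e.target := inter_subset_left
    refine ⟨e, he, hx0, e.target ∩ e.symm ⁻¹' W, hU, hsub, ⟨e.map_source hx0, ?_⟩,
      aop (fun m => vch e (Fr m)),
      bop (fun m => vch e (Fr m)) (vch e (∑ m, nabVF cov hcov.smooth (Fr m) (Fr m))),
      aop_smooth fun m => (vch_smooth he (Fr m)).mono hsub,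
      bop_smooth hU (fun m => (vch_smooth he (Fr m)).mono hsub) ((vch_smooth he _).mono hsub),
      fun y hy ξ hξ => ?_, fun f hf y hy => ?_⟩
    · show e.symm (e x0) ∈ W
      rw [e.left_inv hx0]; exact hxW
    · have hON : (geo2Of hcov hE).ON (e.symm y) Fr := hW hy.2
      have := frame_pos hE he (e.map_target hy.1) (F := Fr) (fun i j => hON i j) hξ
      rwa [e.right_inv hy.1] at this
    · have hON : (geo2Of hcov hE).ON (e.symm y) Fr := hW hy.2
      have hfs : ContMDiff 𝓘(ℝ, E) 𝓘(ℝ) ∞ f := sf_of_ck hf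
      have h1 := lap_chart hcov hE he (e.map_target hy.1) hON (⟨f, hfs⟩ : SF E M)
      rw [e.right_inv hy.1] at h1
      unfold LapFn
      rw [dif_pos hfs]
      exact h1) hl (sf_ck F)
  have hs : ContMDiff 𝓘(ℝ, E) 𝓘(ℝ) ∞ h := sf_of_ck hh
  refine ⟨⟨h, hs⟩, fun q => ?_⟩
  have h1 := heq q
  unfold LapFn at h1
  rw [dif_pos hs] at h1
  exact h1

end Vale.Agent.P211.S4
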