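import Vale.Agent.P211.H844.PA
import Vale.Agent.P211.H844.PD
import Vale.Agent.P211.H958.Osc

/-! P211: the Poincaré inequality with the Lichnerowicz constant on a closed Einstein
four-manifold with Ricci curvature `3`. -/

set_option maxSynthPendingDepth 3
set_option linter.all false

open scoped Manifold ContDiff Topology
open Bundle Filter Set MeasureTheory

noncomputable section

namespace Vale.Agent.P211.S4

variable {E : Type} [NormedAddCommGroup E] [NormedSpace ℝ E] [FiniteDimensional ℝ E]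
  {M : Type*} [TopologicalSpace M] [ChartedSpace E M] [IsManifold 𝓘(ℝ, E) ∞ M] [T2Space M]
  [CompactSpace M] [PreconnectedSpace M] [MeasurableSpace M] [BorelSpace M]
  [RiemannianBundle (fun x : M => TangentSpace 𝓘(ℝ, E) x)]
  [IsContMDiffRiemannianBundle 𝓘(ℝ, E) ∞ E (fun x : M => TangentSpace 𝓘(ℝ, E) x)]
  {cov : CovariantDerivative 𝓘(ℝ, E) E (TangentSpace 𝓘(ℝ, E) : M → Type _)}
  {μ : Measure M} [IsFiniteMeasure μ]

/-- **Poincaré inequality**: `4 ∫ F² ≤ ∫ |∇F|²` if `∫ F = 0`. -/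
theorem poincare (hcov : IsLC cov) (hE : Module.finrank ℝ E = 4)
    (hEin : (geo2Of hcov hE).Einstein 3) (hdiv : DivThm (geo2Of hcov hE) μ) (F : SF E M)
    (hF : ∫ q, (geo2Of hcov hE).ev q F ∂μ = 0) :
    4 * ∫ q, (geo2Of hcov hE).ev q (F * F) ∂μ ≤
      ∫ q, (geo2Of hcov hE).ev q ((geo2Of hcov hE).g ((geo2Of hcov hE).grad F)
        ((geo2Of hcov hE).grad F)) ∂μ := by
  obtain ⟨C, -, hC⟩ := H958.osc_geo2 hcov hE
  exact poincare_of hEin hdiv (fun l hl F => solve_lap hcov hE hl F)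
    ⟨C, fun f K hK hf p q => hC f K hK hf p q⟩ F hF

end Vale.Agent.P211.S4
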