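import Vale.Agent.P211.Bdl.S1

set_option linter.all false

/-! P211, third covariant derivatives of the curvature of an Einstein metric: the formal part. -/

namespace Vale.Agent.P211

namespace LC

variable {𝒪 V : Type*} [CommRing 𝒪] [Algebra ℝ 𝒪] [AddCommGroup V] [Module 𝒪 V] (G : LC 𝒪 V)

/-- Covariant derivative of a 5-tensor. -/
def c1 (T : V → V → V → V → V → 𝒪) (S U X Y Z W : V) : 𝒪 :=
  G.D S (T U X Y Z W) - T (G.nab S U) X Y Z W - T U (G.nab S X) Y Z W
    - T U X (G.nab S Y) Z W - T U X Y (G.nab S Z) W - T U X Y Z (G.nab S W)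

/-- Second covariant derivative of a 5-tensor. -/
def c2 (T : V → V → V → V → V → 𝒪) (P S U X Y Z W : V) : 𝒪 :=
  G.D P (G.c1 T S U X Y Z W) - G.c1 T (G.nab P S) U X Y Z W - G.c1 T S (G.nab P U) X Y Z W
    - G.c1 T S U (G.nab P X) Y Z W
    - G.c1 T S U X (G.nab P Y) Z W - G.c1 T S U X Y (G.nab P Z) W - G.c1 T S U X Y Z (G.nab P W)

theorem c1_d1 (T : V → V → V → V → 𝒪) : G.c1 (G.d1 T) = G.d2 T := rfl

section
variable {T : V → V → V → V → V → 𝒪}

theorem T5_sub0 (h : IsT5 T) (U U' X Y Z W : V) :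
    T (U - U') X Y Z W = T U X Y Z W - T U' X Y Z W := by
  have := h.add0 (U - U') U' X Y Z W
  rw [sub_add_cancel] at this
  rw [this]; ring

theorem T5_sub1 (h : IsT5 T) (U X X' Y Z W : V) :
    T U (X - X') Y Z W = T U X Y Z W - T U X' Y Z W := by
  have := h.add1 U (X - X') X' Y Z W
  rw [sub_add_cancel] at this
  rw [this]; ring

theorem T5_sub2 (h : IsT5 T) (U X Y Y' Z W : V) :
    T U X (Y - Y') Z W = T U X Y Z W - T U X Y' Z W := by
  have := h.add2 U X (Y - Y') Y' Z W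
  rw [sub_add_cancel] at this
  rw [this]; ring

theorem T5_sub3 (h : IsT5 T) (U X Y Z Z' W : V) :
    T U X Y (Z - Z') W = T U X Y Z W - T U X Y Z' W := by
  have := h.add3 U X Y (Z - Z') Z' W
  rw [sub_add_cancel] at this
  rw [this]; ring

theorem T5_sub4 (h : IsT5 T) (U X Y Z W W' : V) :
    T U X Y Z (W - W') = T U X Y Z W - T U X Y Z W' := by
  have := h.add4 U X Y Z (W - W') W'
  rw [sub_add_cancel] at this
  rw [this]; ring

theorem isT6_c1 (h : IsT5 T) : IsT6 (G.c1 T) := by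
  constructor
  · intros
    simp only [c1, G.D_add_left, G.nab_add_left, h.add0, h.add1, h.add2, h.add3, h.add4]; ring
  · intros
    simp only [c1, G.D_smul_left, G.nab_smul_left, h.smul0, h.smul1, h.smul2, h.smul3, h.smul4]
    ring
  · intros; simp only [c1, G.D_add, G.nab_add, h.add0]; ring
  · intros; simp only [c1, G.D_mul, G.nab_smul, h.add0, h.smul0]; ring
  · intros; simp only [c1, G.D_add, G.nab_add, h.add1]; ring
  · intros; simp only [c1, G.D_add, G.nab_add, h.add2]; ring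
  · intros; simp only [c1, G.D_add, G.nab_add, h.add3]; ring
  · intros; simp only [c1, G.D_add, G.nab_add, h.add4]; ring
  · intros; simp only [c1, G.D_mul, G.nab_smul, h.add1, h.smul1]; ring
  · intros; simp only [c1, G.D_mul, G.nab_smul, h.add2, h.smul2]; ring
  · intros; simp only [c1, G.D_mul, G.nab_smul, h.add3, h.smul3]; ring
  · intros; simp only [c1, G.D_mul, G.nab_smul, h.add4, h.smul4]; ring

/-- The Ricci identity for 5-tensors. -/
theorem ricci_identity5 (h : IsT5 T) (P S U X Y Z W : V) :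
    G.c2 T P S U X Y Z W - G.c2 T S P U X Y Z W =
      - T (G.R P S U) X Y Z W - T U (G.R P S X) Y Z W - T U X (G.R P S Y) Z W
        - T U X Y (G.R P S Z) W - T U X Y Z (G.R P S W) := by
  have hc := G.comm P S (T U X Y Z W)
  rw [G.D_sub_left] at hc
  simp only [c2, c1, R, brk, G.D_sub, G.nab_sub_left, T5_sub0 h, T5_sub1 h, T5_sub2 h, T5_sub3 h,
    T5_sub4 h]
  linear_combination (-1 : 𝒪) * hc

end

end LC

namespace Geom

open Topology Filter

variable {M 𝒪 V : Type*} [TopologicalSpace M] [CommRing 𝒪] [Algebra ℝ 𝒪]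
    [AddCommGroup V] [Module 𝒪 V] {G : Geom M 𝒪 V}

section z
variable {p : M} {Z : V} (hZ : G.ev p (G.g Z Z) = 0)
include hZ

theorem z5_0 {T : V → V → V → V → V → 𝒪} (h : IsT5 T) (A B C D : V) :
    G.ev p (T Z A B C D) = 0 :=
  G.ptwise p ⟨⟨fun X => T X A B C D, fun a b => h.add0 a b A B C D⟩,
    fun a b => h.smul0 a b A B C D⟩ Z hZ
theorem z5_1 {T : V → V → V → V → V → 𝒪} (h : IsT5 T) (A B C D : V) :
    G.ev p (T A Z B C D) = 0 :=
  G.ptwise p ⟨⟨fun X => T A X B C D, fun a b => h.add1 A a b B C D⟩,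
    fun a b => h.smul1 a A b B C D⟩ Z hZ
theorem z5_2 {T : V → V → V → V → V → 𝒪} (h : IsT5 T) (A B C D : V) :
    G.ev p (T A B Z C D) = 0 :=
  G.ptwise p ⟨⟨fun X => T A B X C D, fun a b => h.add2 A B a b C D⟩,
    fun a b => h.smul2 a A B b C D⟩ Z hZ
theorem z5_3 {T : V → V → V → V → V → 𝒪} (h : IsT5 T) (A B C D : V) :
    G.ev p (T A B C Z D) = 0 :=
  G.ptwise p ⟨⟨fun X => T A B C X D, fun a b => h.add3 A B C a b D⟩,
    fun a b => h.smul3 a A B C b D⟩ Z hZ
theorem z5_4 {T : V → V → V → V → V → 𝒪} (h : IsT5 T) (A B C D : V) :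
    G.ev p (T A B C D Z) = 0 :=
  G.ptwise p ⟨⟨fun X => T A B C D X, fun a b => h.add4 A B C D a b⟩,
    fun a b => h.smul4 a A B C D b⟩ Z hZ

theorem z6_00 {T : V → V → V → V → V → V → 𝒪} (h : IsT6 T) (A B C D E : V) :
    G.ev p (T Z A B C D E) = 0 :=
  G.ptwise p ⟨⟨fun X => T X A B C D E, fun a b => h.add00 a b A B C D E⟩,
    fun a b => h.smul00 a b A B C D E⟩ Z hZ
theorem z6_0 {T : V → V → V → V → V → V → 𝒪} (h : IsT6 T) (A B C D E : V) :
    G.ev p (T A Z B C D E) = 0 :=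
  G.ptwise p ⟨⟨fun X => T A X B C D E, fun a b => h.add0 A a b B C D E⟩,
    fun a b => h.smul0 a A b B C D E⟩ Z hZ
theorem z6_1 {T : V → V → V → V → V → V → 𝒪} (h : IsT6 T) (A B C D E : V) :
    G.ev p (T A B Z C D E) = 0 :=
  G.ptwise p ⟨⟨fun X => T A B X C D E, fun a b => h.add1 A B a b C D E⟩,
    fun a b => h.smul1 a A B b C D E⟩ Z hZ
theorem z6_2 {T : V → V → V → V → V → V → 𝒪} (h : IsT6 T) (A B C D E : V) :
    G.ev p (T A B C Z D E) = 0 :=
  G.ptwise p ⟨⟨fun X => T A B C X D E, fun a b => h.add2 A B C a b D E⟩,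
    fun a b => h.smul2 a A B C b D E⟩ Z hZ
theorem z6_3 {T : V → V → V → V → V → V → 𝒪} (h : IsT6 T) (A B C D E : V) :
    G.ev p (T A B C D Z E) = 0 :=
  G.ptwise p ⟨⟨fun X => T A B C D X E, fun a b => h.add3 A B C D a b E⟩,
    fun a b => h.smul3 a A B C D b E⟩ Z hZ
theorem z6_4 {T : V → V → V → V → V → V → 𝒪} (h : IsT6 T) (A B C D E : V) :
    G.ev p (T A B C D E Z) = 0 :=
  G.ptwise p ⟨⟨fun X => T A B C D E X, fun a b => h.add4 A B C D E a b⟩,
    fun a b => h.smul4 a A B C D E b⟩ Z hZ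

end z

/-- 6-tensors at equivalent arguments. -/
theorem congr6Full {T : V → V → V → V → V → V → 𝒪} (h : IsT6 T) {p : M}
    {S S' U U' X X' Y Y' Z Z' W W' : V} (e00 : G.Eqv p S S') (e0 : G.Eqv p U U')
    (e1 : G.Eqv p X X') (e2 : G.Eqv p Y Y') (e3 : G.Eqv p Z Z') (e4 : G.Eqv p W W') :
    G.ev p (T S U X Y Z W) = G.ev p (T S' U' X' Y' Z' W') := by
  have s00 : G.ev p (T S U X Y Z W) = G.ev p (T S' U X Y Z W) :=
    e00.lin G ⟨⟨fun X' => T X' U X Y Z W, fun a b => h.add00 a b U X Y Z W⟩,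
      fun a b => h.smul00 a b U X Y Z W⟩
  have s0 : G.ev p (T S' U X Y Z W) = G.ev p (T S' U' X Y Z W) :=
    e0.lin G ⟨⟨fun X' => T S' X' X Y Z W, fun a b => h.add0 S' a b X Y Z W⟩,
      fun a b => h.smul0 a S' b X Y Z W⟩
  rw [s00, s0]
  exact G.congr6All h S' U' e1 e2 e3 e4

/-- third derivatives of the curvature in a frame -/
def ee (G : Geom M 𝒪 V) (p : M) (F : Fin 4 → V) (a n m i j k l : Fin 4) : ℝ :=
  G.ev p (G.c2 (G.d1 G.Rm) (F a) (F n) (F m) (F i) (F j) (F k) (F l))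

theorem isT5_dRm : IsT5 (G.d1 G.Rm) := G.isT5_d1 G.isT4_Rm

theorem isT6_ddRm : IsT6 (G.d2 G.Rm) := G.isT6_d2 G.isT4_Rm

/-- first derivative of the components of the second covariant derivative -/
theorem D_comp6 {p : M} {F : Fin 4 → V} (hS : G.Sync p F) (a n m i j k l : Fin 4) :
    G.ev p (G.D (F a) (G.d2 G.Rm (F n) (F m) (F i) (F j) (F k) (F l))) =
      G.ee p F a n m i j k l := by
  have h := isT6_ddRm (G := G)
  simp only [ee, LC.c2, LC.c1_d1, map_sub]
  rw [z6_00 (hS.nab _ n) h, z6_0 (hS.nab _ m) h, z6_1 (hS.nab _ i) h, z6_2 (hS.nab _ j) h,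
    z6_3 (hS.nab _ k) h, z6_4 (hS.nab _ l) h]
  ring

/-- first derivative of the components of the first covariant derivative -/
theorem D_comp5 {p : M} {F : Fin 4 → V} (hS : G.Sync p F) (n m i j k l : Fin 4) :
    G.ev p (G.D (F n) (G.d1 G.Rm (F m) (F i) (F j) (F k) (F l))) =
      G.ss p F n m i j k l := by
  have h := isT5_dRm (G := G)
  simp only [ss, LC.d2, map_sub]
  rw [z5_0 (hS.nab _ m) h, z5_1 (hS.nab _ i) h, z5_2 (hS.nab _ j) h,
    z5_3 (hS.nab _ k) h, z5_4 (hS.nab _ l) h]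
  ring

/-- the jet of an Einstein metric in a frame which is only orthonormal at the point -/
theorem einsteinJet_on {lam : ℝ} (hE : G.Einstein lam) {p : M} {F : Fin 4 → V} (h : G.ON p F) :
    EinsteinJet lam (G.rr p F) (G.dd p F) (G.ss p F) := by
  obtain ⟨F', h1, h2, h3⟩ := G.sync p F h
  have hS : G.Sync p F' := ⟨h1, h3⟩
  have hr : G.rr p F = G.rr p F' := by
    funext i j k l
    exact (G.congrAll G.isT4_Rm (h2 i) (h2 j) (h2 k) (h2 l)).symm
  have hd : G.dd p F = G.dd p F' := by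
    funext m i j k l
    exact (G.congr5All isT5_dRm (h2 m) (h2 i) (h2 j) (h2 k) (h2 l)).symm
  have hs : G.ss p F = G.ss p F' := by
    funext n m i j k l
    exact (congr6Full isT6_ddRm (h2 n) (h2 m) (h2 i) (h2 j) (h2 k) (h2 l)).symm
  rw [hr, hd, hs]
  exact einsteinJet hE hS

end Geom

/-- polarised Ricci identity commutator term. -/
def ricC2 (r t : Arr4) (n m i j k l : Fin 4) : ℝ :=
  - ∑ a, (r n m i a * t a j k l + r n m j a * t i a k l + r n m k a * t i j a l
      + r n m l a * t i j k a)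

theorem ricC2_self (r : Arr4) : ricC2 r r = ricciComm r := rfl

namespace Geom

open Topology Filter

variable {M 𝒪 V : Type*} [TopologicalSpace M] [CommRing 𝒪] [Algebra ℝ 𝒪]
    [AddCommGroup V] [Module 𝒪 V] {G : Geom M 𝒪 V}

/-- The commutator term as a function. -/
def rcF (G : Geom M 𝒪 V) (F : Fin 4 → V) (n m i j k l : Fin 4) : 𝒪 :=
  - ∑ a, (G.Rm (F n) (F m) (F i) (F a) * G.Rm (F a) (F j) (F k) (F l)
    + G.Rm (F n) (F m) (F j) (F a) * G.Rm (F i) (F a) (F k) (F l)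
    + G.Rm (F n) (F m) (F k) (F a) * G.Rm (F i) (F j) (F a) (F l)
    + G.Rm (F n) (F m) (F l) (F a) * G.Rm (F i) (F j) (F k) (F a))

theorem ev_rcF (p : M) (F : Fin 4 → V) (n m i j k l : Fin 4) :
    G.ev p (rcF G F n m i j k l) = ricciComm (G.rr p F) n m i j k l := by
  simp only [rcF, ricciComm, rr, map_neg, map_sum, map_add, map_mul]

theorem D_rcF {p : M} {F : Fin 4 → V} (hS : G.Sync p F) (b n m i j k l : Fin 4) :
    G.ev p (G.D (F b) (rcF G F n m i j k l)) =
      ricC2 (G.dd p F b) (G.rr p F) n m i j k l + ricC2 (G.rr p F) (G.dd p F b) n m i j k l := by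
  have hdc : ∀ b i j k l, G.ev p (G.D (F b) (G.Rm (F i) (F j) (F k) (F l))) =
      G.dd p F b i j k l := fun b i j k l => D_comp hS (F b) i j k l
  simp only [rcF, Fin.sum_univ_four, G.D_neg, G.D_add, G.D_mul, map_neg, map_add, map_mul, hdc]
  simp only [ricC2, Fin.sum_univ_four, rr]
  ring

/-- derivative of the Ricci identity. -/
theorem hec2 {lam : ℝ} (hE : G.Einstein lam) {p : M} {F : Fin 4 → V} (hS : G.Sync p F)
    (b n m i j k l : Fin 4) :
    G.ee p F b n m i j k l - G.ee p F b m n i j k l =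
      ricC2 (G.dd p F b) (G.rr p F) n m i j k l + ricC2 (G.rr p F) (G.dd p F b) n m i j k l := by
  have h1 := G.D_local p (G.d2 G.Rm (F n) (F m) (F i) (F j) (F k) (F l)
      - G.d2 G.Rm (F m) (F n) (F i) (F j) (F k) (F l)) (rcF G F n m i j k l) (by
    filter_upwards [hS.on] with q hq
    have := (einsteinJet_on hE hq).hsc n m i j k l
    rw [ev_rcF, map_sub]
    exact this) (F b)
  rw [D_rcF hS, G.D_sub, map_sub, D_comp6 hS, D_comp6 hS] at h1
  exact h1

/-- derivative of the formula for the Laplacian of the curvature. -/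
theorem hlap3 {lam : ℝ} (hE : G.Einstein lam) {p : M} {F : Fin 4 → V} (hS : G.Sync p F)
    (b i j k l : Fin 4) :
    ∑ n, G.ee p F b n n i j k l = - ∑ m, ((ricC2 (G.dd p F b) (G.rr p F) m i j m k l
      + ricC2 (G.rr p F) (G.dd p F b) m i j m k l) + (ricC2 (G.dd p F b) (G.rr p F) m j m i k l
      + ricC2 (G.rr p F) (G.dd p F b) m j m i k l)) := by
  have h1 := G.D_local p (∑ n, G.d2 G.Rm (F n) (F n) (F i) (F j) (F k) (F l))
      (- ∑ m, (rcF G F m i j m k l + rcF G F m j m i k l)) (by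
    filter_upwards [hS.on] with q hq
    have := (einsteinJet_on hE hq).lap i j k l
    rw [map_neg, map_sum, map_sum]
    simp only [map_add, ev_rcF]
    exact this) (F b)
  simp only [Fin.sum_univ_four, G.D_neg, G.D_add, map_neg, map_add, D_comp6 hS, D_rcF hS] at h1
  simp only [Fin.sum_univ_four]
  exact h1

/-- Ricci identity for the first covariant derivative. -/
theorem hec1 {p : M} {F : Fin 4 → V} (hF : G.ON p F) (a b m i j k l : Fin 4) :
    G.ee p F a b m i j k l - G.ee p F b a m i j k l =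
      - ∑ x, G.rr p F a b m x * G.dd p F x i j k l
        + ricC2 (G.rr p F) (G.dd p F m) a b i j k l := by
  have h5 := isT5_dRm (G := G)
  have h1 := congrArg (G.ev p) (G.ricci_identity5 h5 (F a) (F b) (F m) (F i) (F j) (F k) (F l))
  simp only [map_sub, map_neg] at h1
  simp only [ee]
  rw [h1, G.exp5_0 h5 hF (G.R (F a) (F b) (F m)), G.exp5_1 h5 hF _ (G.R (F a) (F b) (F i)),
    G.exp5_2 h5 hF _ _ (G.R (F a) (F b) (F j)), G.exp5_3 h5 hF _ _ _ (G.R (F a) (F b) (F k)),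
    G.exp5_4 h5 hF _ _ _ _ (G.R (F a) (F b) (F l))]
  simp only [rr, dd, ricC2, LC.Rm, Finset.sum_add_distrib]
  ring

end Geom

end Vale.Agent.P211
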