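import Vale.Agent.P211.H844.J3a

set_option linter.all false

/-! P211: second derivatives of the components of the covariant derivative of the curvature. -/

namespace Vale.Agent.P211

namespace LC

variable {𝒪 V : Type*} [CommRing 𝒪] [Algebra ℝ 𝒪] [AddCommGroup V] [Module 𝒪 V] (G : LC 𝒪 V)

/-- Expansion of a second derivative of the components of a 5-tensor. -/
theorem DD_expand5 (T : V → V → V → V → V → 𝒪) (U A X Y Z W : V) :
    G.D U (G.D U (T A X Y Z W)) = G.c2 T U U A X Y Z W + G.c1 T (G.nab U U) A X Y Z W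
      + 2 * (G.c1 T U (G.nab U A) X Y Z W + G.c1 T U A (G.nab U X) Y Z W
        + G.c1 T U A X (G.nab U Y) Z W + G.c1 T U A X Y (G.nab U Z) W
        + G.c1 T U A X Y Z (G.nab U W))
      + (T (G.nab U (G.nab U A)) X Y Z W + T A (G.nab U (G.nab U X)) Y Z W
        + T A X (G.nab U (G.nab U Y)) Z W
        + T A X Y (G.nab U (G.nab U Z)) W + T A X Y Z (G.nab U (G.nab U W)))
      + 2 * (T (G.nab U A) (G.nab U X) Y Z W + T (G.nab U A) X (G.nab U Y) Z W
        + T (G.nab U A) X Y (G.nab U Z) W + T (G.nab U A) X Y Z (G.nab U W)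
        + T A (G.nab U X) (G.nab U Y) Z W + T A (G.nab U X) Y (G.nab U Z) W
        + T A (G.nab U X) Y Z (G.nab U W) + T A X (G.nab U Y) (G.nab U Z) W
        + T A X (G.nab U Y) Z (G.nab U W) + T A X Y (G.nab U Z) (G.nab U W)) := by
  simp only [c2, c1, G.D_sub]
  ring

end LC

namespace Geom

open Topology Filter

variable {M 𝒪 V : Type*} [TopologicalSpace M] [CommRing 𝒪] [Algebra ℝ 𝒪]
    [AddCommGroup V] [Module 𝒪 V] {G : Geom M 𝒪 V}

theorem DD_comp5 {p : M} {F : Fin 4 → V} (hS : G.Sync p F) (n m i j k l : Fin 4) :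
    G.ev p (G.D (F n) (G.D (F n) (G.d1 G.Rm (F m) (F i) (F j) (F k) (F l)))) =
      G.ee p F n n m i j k l
      + ∑ x, (G.ev p (G.g (G.nab (F n) (G.nab (F n) (F m))) (F x)) * G.dd p F x i j k l
        + (G.ev p (G.g (G.nab (F n) (G.nab (F n) (F i))) (F x)) * G.dd p F m x j k l
        + G.ev p (G.g (G.nab (F n) (G.nab (F n) (F j))) (F x)) * G.dd p F m i x k l
        + G.ev p (G.g (G.nab (F n) (G.nab (F n) (F k))) (F x)) * G.dd p F m i j x l
        + G.ev p (G.g (G.nab (F n) (G.nab (F n) (F l))) (F x)) * G.dd p F m i j k x)) := by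
  have h5 := isT5_dRm (G := G)
  have h6 := isT6_ddRm (G := G)
  have z := fun i => hS.nab (F n) i
  rw [G.DD_expand5]
  simp only [map_add, map_mul, map_ofNat, LC.c1_d1]
  rw [z6_00 (z n) h6, z6_0 (z m) h6, z6_1 (z i) h6, z6_2 (z j) h6, z6_3 (z k) h6, z6_4 (z l) h6,
    z5_0 (z m) h5, z5_0 (z m) h5, z5_0 (z m) h5, z5_0 (z m) h5, z5_1 (z i) h5, z5_1 (z i) h5,
    z5_1 (z i) h5, z5_2 (z j) h5, z5_2 (z j) h5, z5_3 (z k) h5]
  rw [G.exp5_0 h5 hS.at (G.nab (F n) (G.nab (F n) (F m))),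
    G.exp5_1 h5 hS.at _ (G.nab (F n) (G.nab (F n) (F i))),
    G.exp5_2 h5 hS.at _ _ (G.nab (F n) (G.nab (F n) (F j))),
    G.exp5_3 h5 hS.at _ _ _ (G.nab (F n) (G.nab (F n) (F k))),
    G.exp5_4 h5 hS.at _ _ _ _ (G.nab (F n) (G.nab (F n) (F l)))]
  simp only [ee, dd, Finset.sum_add_distrib]
  ring

/-- rough Laplacian of the components of the covariant derivative of the curvature -/
theorem Lap_comp5 {p : M} {F : Fin 4 → V} (hS : G.Sync p F) (m i j k l : Fin 4) :
    ∑ n, G.ev p (G.D (F n) (G.D (F n) (G.d1 G.Rm (F m) (F i) (F j) (F k) (F l)))) =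
      ∑ n, G.ee p F n n m i j k l
      + ∑ x, G.Th p F m x * G.dd p F x i j k l
      + S4.a67_rot (G.Th p F) (G.dd p F m) i j k l := by
  simp only [DD_comp5 hS, Finset.sum_add_distrib, S4.a67_rot]
  rw [add_assoc (∑ n, G.ee p F n n m i j k l)]
  congr 1
  simp only [Th, Finset.sum_mul]
  congr 1
  · exact Finset.sum_comm
  · congr 1
    · congr 1
      · congr 1
        · exact Finset.sum_comm
        · exact Finset.sum_comm
      · exact Finset.sum_comm
    · exact Finset.sum_comm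

end Geom

/-- the Laplacian of the derivative of the curvature, in terms of the curvature and its first
derivative -/
def lap3 (r : Arr4) (d : Fin 4 → Arr4) (m i j k l : Fin 4) : ℝ :=
  - ∑ n, ((ricC2 (d m) r n i j n k l + ricC2 r (d m) n i j n k l)
      + (ricC2 (d m) r n j n i k l + ricC2 r (d m) n j n i k l))
  + 3 * d m i j k l + 2 * ∑ n, ricC2 r (d n) n m i j k l

theorem ricC2_div {lam : ℝ} {r : Arr4} {d : Fin 4 → Arr4} {s : Fin 4 → Fin 4 → Arr4}
    (h : EinsteinJet lam r d s) (m i j k l : Fin 4) :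
    ∑ n, ricC2 (d n) r n m i j k l = 0 := by
  have h0 : ∀ x y, ∑ n, d n n m x y = 0 := fun x y => (div_free h.hd h.hdt h.hdb m x y).1
  have e : ∑ n, ricC2 (d n) r n m i j k l = - ∑ a, ((∑ n, d n n m i a) * r a j k l
      + (∑ n, d n n m j a) * r i a k l + (∑ n, d n n m k a) * r i j a l
      + (∑ n, d n n m l a) * r i j k a) := by
    simp only [ricC2, Fin.sum_univ_four]; ring
  rw [e]
  simp [h0]

theorem Geom.lap_ee {M 𝒪 V : Type*} [TopologicalSpace M] [CommRing 𝒪] [Algebra ℝ 𝒪]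
    [AddCommGroup V] [Module 𝒪 V] {G : Geom M 𝒪 V} (hE : G.Einstein 3) {p : M} {F : Fin 4 → V}
    (hS : G.Sync p F) (m i j k l : Fin 4) :
    ∑ n, G.ee p F n n m i j k l = lap3 (G.rr p F) (G.dd p F) m i j k l := by
  have hJ := Geom.einsteinJet hE hS
  have h1 : ∀ n, G.ee p F n n m i j k l = G.ee p F m n n i j k l
      - ∑ x, G.rr p F n m n x * G.dd p F x i j k l
      + (ricC2 (G.dd p F n) (G.rr p F) n m i j k l
        + 2 * ricC2 (G.rr p F) (G.dd p F n) n m i j k l) := by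
    intro n
    have a1 := Geom.hec2 hE hS n n m i j k l
    have a2 := Geom.hec1 (G := G) hS.at n m n i j k l
    linarith only [a1, a2]
  rw [Finset.sum_congr rfl fun n _ => h1 n]
  rw [Finset.sum_add_distrib, Finset.sum_sub_distrib, Finset.sum_add_distrib,
    Geom.hlap3 hE hS, ricC2_div hJ, ← Finset.mul_sum]
  have h2 : ∑ n, ∑ x, G.rr p F n m n x * G.dd p F x i j k l = - (3 * G.dd p F m i j k l) := by
    rw [Finset.sum_comm]
    have h3 : ∀ x, ∑ n, G.rr p F n m n x * G.dd p F x i j k l =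
        - ((if m = x then 3 else 0) * G.dd p F x i j k l) := by
      intro x
      rw [← hJ.hrt m x, ← Finset.sum_mul, ← neg_mul, ← Finset.sum_neg_distrib]
      congr 1
      exact Finset.sum_congr rfl fun n _ => hJ.hr.anti34 _ _ _ _
    rw [Finset.sum_congr rfl fun x _ => h3 x]
    fin_cases m <;> simp [Fin.sum_univ_four]
  rw [h2, lap3]
  ring

end Vale.Agent.P211
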