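import Vale.Agent.P211.H844.J3b

set_option linter.all false

/-! P211: the self-dual block of the jets of the curvature of an Einstein metric. -/

namespace Vale.Agent.P211
open S4

/-- bilinear form of the quadratic term in the Laplacian of the curvature -/
def lapB (r t : Arr4) (i j k l : Fin 4) : ℝ :=
  - ∑ n, (ricC2 r t n i j n k l + ricC2 r t n j n i k l)

/-- closed form of the blocks of lapB r r -/
def lapC (c : ℝ) (A : Fin 3 → Fin 3 → ℝ) (i j : Fin 3) : ℝ :=
  6 * c * A i j - 6 * ∑ k, A i k * A k j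
    + if i = j then 2 * (∑ k, ∑ l, A k l ^ 2) - 2 * c ^ 2 else 0

theorem lapB_diag (P S : Fin 3 → Fin 3 → ℝ) (hS : S 2 2 = - S 0 0 - S 1 1) (i j : Fin 3) :
    Ab (lapB (einArr P S) (einArr P S)) i j =
      lapC (P 0 0 + P 1 1 + P 2 2) (Ab (einArr P S)) i j := by
  fin_cases i <;> fin_cases j <;>
  · simp only [a67_Ab, lapC, lapB, ricC2, Fin.sum_univ_four, Fin.sum_univ_three, a67_c, a67_a, a67_b, Matrix.cons_val, Fin.zero_eta, Fin.mk_one, Fin.reduceFinMk, Fin.isValue, Fin.reduceEq, if_true, if_false]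
    simp only [einArr, sk, Matrix.cons_val]
    simp only [Matrix.cons_val, Pi.neg_apply, Pi.zero_apply,
      neg_zero, mul_zero, zero_mul, add_zero, zero_add, neg_neg]
    rw [hS]
    ring

/-- the basic self-dual two-forms -/
def om3 (j : Fin 3) (n m : Fin 4) : ℝ :=
  (![sk 1 0 0 0 0 1, sk 0 1 0 0 (-1) 0, sk 0 0 1 1 0 0] : Fin 3 → Fin 4 → Fin 4 → ℝ) j n m

/-- self-dual part of a curvature operator `R(e_n, e_m)` -/
def cc3 (A : Fin 3 → Fin 3 → ℝ) (n m : Fin 4) (i : Fin 3) : ℝ := - ∑ j, A i j * om3 j n m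

/-- cross product matrix -/
def rho3 (c : Fin 3 → ℝ) : Fin 3 → Fin 3 → ℝ :=
  ![![0, c 2, - c 1], ![- c 2, 0, c 0], ![c 1, - c 0, 0]]

/-- the commutator term on the self-dual block -/
def rotC (A B : Fin 3 → Fin 3 → ℝ) (n m : Fin 4) (i j : Fin 3) : ℝ :=
  - ∑ k, (rho3 (cc3 A n m) i k * B k j + rho3 (cc3 A n m) j k * B i k)

theorem rot_ein (K : Fin 4 → Fin 4 → ℝ) (hK : ∀ i j, K i j = - K j i)
    (P S : Fin 3 → Fin 3 → ℝ) (i j : Fin 3) :
    Ab (a67_rot K (einArr P S)) i j =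
      ∑ k, (rho3 ![K 0 1 + K 2 3, K 0 2 - K 1 3, K 0 3 + K 1 2] i k * Ab (einArr P S) k j +
        rho3 ![K 0 1 + K 2 3, K 0 2 - K 1 3, K 0 3 + K 1 2] j k * Ab (einArr P S) i k) := by
  have h00 : K 0 0 = 0 := by linarith [hK 0 0]
  have h11 : K 1 1 = 0 := by linarith [hK 1 1]
  have h22 : K 2 2 = 0 := by linarith [hK 2 2]
  have h33 : K 3 3 = 0 := by linarith [hK 3 3]
  have h10 := hK 1 0
  have h20 := hK 2 0
  have h30 := hK 3 0
  have h21 := hK 2 1
  have h31 := hK 3 1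
  have h32 := hK 3 2
  fin_cases i <;> fin_cases j <;>
  · simp only [a67_Ab, a67_rot, rho3, Fin.sum_univ_four, Fin.sum_univ_three, a67_c, a67_a, a67_b,
      Matrix.cons_val, Fin.zero_eta, Fin.mk_one, Fin.reduceFinMk, Fin.isValue]
    simp only [einArr, sk, Matrix.cons_val]
    simp only [Matrix.cons_val, Pi.neg_apply, Pi.zero_apply,
      neg_zero, mul_zero, zero_mul, add_zero, zero_add, neg_neg, h00, h11, h22, h33, h10, h20, h30, h21, h31, h32]
    ring

theorem cc3_ein (P S : Fin 3 → Fin 3 → ℝ) (n m : Fin 4) :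
    einArr P S n m 0 1 + einArr P S n m 2 3 = cc3 (Ab (einArr P S)) n m 0 ∧
    einArr P S n m 0 2 - einArr P S n m 1 3 = cc3 (Ab (einArr P S)) n m 1 ∧
    einArr P S n m 0 3 + einArr P S n m 1 2 = cc3 (Ab (einArr P S)) n m 2 := by
  fin_cases n <;> fin_cases m <;>
  · simp only [a67_Ab, cc3, om3, Fin.sum_univ_four, Fin.sum_univ_three, a67_c, a67_a, a67_b,
      Matrix.cons_val, Fin.zero_eta, Fin.mk_one, Fin.reduceFinMk, Fin.isValue]
    simp only [einArr, sk, Matrix.cons_val]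
    simp only [Matrix.cons_val, Pi.neg_apply, Pi.zero_apply,
      neg_zero, mul_zero, zero_mul, add_zero, zero_add, neg_neg]
    refine ⟨?_, ?_, ?_⟩ <;> first | ring | simp

theorem rotC_ein (P S P' S' : Fin 3 → Fin 3 → ℝ) (n m : Fin 4) (i j : Fin 3) :
    Ab (ricC2 (einArr P S) (einArr P' S') n m) i j =
      rotC (Ab (einArr P S)) (Ab (einArr P' S')) n m i j := by
  obtain ⟨h0, h1, h2⟩ := cc3_ein P S n m
  have h := rot_ein (fun i a => einArr P S n m i a)
    (fun i j => (einArr_anti34 P S n m i j)) P' S' i j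
  have e : Ab (ricC2 (einArr P S) (einArr P' S') n m) i j =
      - Ab (a67_rot (fun i a => einArr P S n m i a) (einArr P' S')) i j := by
    simp only [a67_Ab, ricC2, a67_rot]
    ring
  rw [e, h]
  simp only [h0, h1, h2, rotC]
  have e2 : (![cc3 (Ab (einArr P S)) n m 0, cc3 (Ab (einArr P S)) n m 1,
      cc3 (Ab (einArr P S)) n m 2] : Fin 3 → ℝ) = cc3 (Ab (einArr P S)) n m := by
    funext i; fin_cases i <;> rfl
  rw [e2]

/-- derivative of the closed form lapC -/
def dlapC (A T : Fin 3 → Fin 3 → ℝ) (i j : Fin 3) : ℝ :=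
  18 * T i j - 6 * ∑ k, (A i k * T k j + T i k * A k j)
    + if i = j then 4 * (∑ k, ∑ l, A k l * T k l) else 0

theorem lapB_polar (P S P' S' : Fin 3 → Fin 3 → ℝ) (hP : P 2 2 = 3 - P 0 0 - P 1 1)
    (hS : S 2 2 = - S 0 0 - S 1 1)
    (hP' : P' 2 2 = - P' 0 0 - P' 1 1) (hS' : S' 2 2 = - S' 0 0 - S' 1 1) (i j : Fin 3) :
    Ab (lapB (einArr P' S') (einArr P S)) i j + Ab (lapB (einArr P S) (einArr P' S')) i j =
      dlapC (Ab (einArr P S)) (Ab (einArr P' S')) i j := by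
  fin_cases i <;> fin_cases j <;>
  · simp only [a67_Ab, dlapC, lapB, ricC2, Fin.sum_univ_four, Fin.sum_univ_three, a67_c, a67_a, a67_b, Matrix.cons_val, Fin.zero_eta, Fin.mk_one, Fin.reduceFinMk, Fin.isValue, Fin.reduceEq, if_true, if_false]
    simp only [einArr, sk, Matrix.cons_val]
    simp only [Matrix.cons_val, Pi.neg_apply, Pi.zero_apply,
      neg_zero, mul_zero, zero_mul, add_zero, zero_add, neg_neg]
    rw [hS, hP, hP', hS']
    ring

end Vale.Agent.P211
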