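import Vale.Agent.P211.H844.J3c

set_option linter.all false

/-! P211: the self-dual block of the jets of the curvature of an Einstein metric, continued. -/

namespace Vale.Agent.P211
open S4

/-- rows of a family of symmetric 3 x 3 matrices satisfying the divergence equations -/
structure SDFam (T : Fin 4 → Fin 3 → Fin 3 → ℝ) : Prop where
  sym : ∀ m i j, T m i j = T m j i
  row0 : SDRow (fun m => T m 0 0) (fun m => T m 0 1) (fun m => T m 0 2)
  row1 : SDRow (fun m => T m 0 1) (fun m => T m 1 1) (fun m => T m 1 2)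
  row2 : SDRow (fun m => T m 0 2) (fun m => T m 1 2) (fun m => T m 2 2)

/-- The two-jet of the self-dual block of the curvature of an Einstein metric with Einstein
constant 3, in an orthonormal frame. -/
structure SDJet (A : Fin 3 → Fin 3 → ℝ) (T : Fin 4 → Fin 3 → Fin 3 → ℝ)
    (S : Fin 4 → Fin 4 → Fin 3 → Fin 3 → ℝ) : Prop where
  sym : ∀ i j, A i j = A j i
  tr : A 0 0 + A 1 1 + A 2 2 = 3
  hT : SDFam T
  hS : ∀ n, SDFam (S n)
  comm : ∀ n m i j, S n m i j - S m n i j = rotC A A n m i j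
  lap : ∀ i j, ∑ m, S m m i j = lapC 3 A i j

theorem Ab_einArr (P S : Fin 3 → Fin 3 → ℝ) :
    Ab (einArr P S) = ![![P 0 0 + S 0 0, P 0 1 + S 0 1, P 0 2 + S 0 2],
      ![P 0 1 + S 0 1, P 1 1 + S 1 1, P 1 2 + S 1 2],
      ![P 0 2 + S 0 2, P 1 2 + S 1 2, P 2 2 + S 2 2]] := by
  funext i j
  fin_cases i <;> fin_cases j <;>
  · simp only [a67_Ab, a67_c, a67_a, a67_b,
      Matrix.cons_val, Fin.zero_eta, Fin.mk_one, Fin.reduceFinMk, Fin.isValue]
    simp only [einArr, sk, Matrix.cons_val]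
    simp only [Matrix.cons_val, Pi.neg_apply, Pi.zero_apply,
      neg_zero, mul_zero, zero_mul, add_zero, zero_add, neg_neg]

theorem sdFam {d : Fin 4 → Arr4} (hd : ∀ m, IsAlgCurv (d m))
    (hdt : ∀ m j k, ∑ i, d m i j k i = 0)
    (hdb : ∀ m i j k l, d m i j k l + d i j m k l + d j m i k l = 0) :
    SDFam (fun m => Ab (d m)) := by
  have he : ∀ m, d m = einArr (Pm (d m)) (Sm (d m)) := fun m =>
    (eq_einArr (c := 0) (hd m) fun j k => by rw [hdt m j k]; simp).1
  have hs : ∀ m, (∀ a b, Pm (d m) a b = Pm (d m) b a) ∧ (∀ a b, Sm (d m) a b = Sm (d m) b a) :=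
    fun m => by
      obtain ⟨-, h1, h2, -⟩ := eq_einArr (c := 0) (hd m) fun j k => by rw [hdt m j k]; simp
      exact ⟨h1, h2⟩
  obtain ⟨⟨h0, h1, h2⟩, -⟩ := rows hd hdt hdb he
  refine ⟨fun m i j => ?_, h0, h1, h2⟩
  simp only [S4.Ab]
  rw [(hs m).1 i j, (hs m).2 i j]

theorem sdJet {r : Arr4} {d : Fin 4 → Arr4} {s : Fin 4 → Fin 4 → Arr4}
    (h : EinsteinJet 3 r d s) :
    SDJet (Ab r) (fun m => Ab (d m)) (fun n m => Ab (s n m)) := by
  obtain ⟨he, hP, hS, htP, htS⟩ := eq_einArr h.hr h.hrt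
  refine ⟨?_, ?_, sdFam h.hd h.hdt h.hdb, fun n => sdFam (h.hs n) (h.hst n) (h.hsb n), ?_, ?_⟩
  · intro i j
    simp only [S4.Ab]
    rw [hP i j, hS i j]
  · simp only [S4.Ab]
    linarith only [htP, htS]
  · intro n m i j
    have h1 := rotC_ein (Pm r) (Sm r) (Pm r) (Sm r) n m i j
    rw [← he] at h1
    rw [← h1, ricC2_self]
    rw [a67_Ab, a67_Ab, a67_Ab, ← h.hsc, ← h.hsc]
    ring
  · intro i j
    have h1 := lapB_diag (Pm r) (Sm r) (by linarith only [htS]) i j
    rw [← he, htP] at h1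
    rw [← h1]
    simp only [a67_Ab, Finset.sum_add_distrib]
    rw [h.lap, h.lap]
    simp only [lapB, ricC2_self]

/-- the block of the Laplacian of the covariant derivative -/
def lap3C (A : Fin 3 → Fin 3 → ℝ) (T : Fin 4 → Fin 3 → Fin 3 → ℝ) (m : Fin 4) (i j : Fin 3) : ℝ :=
  dlapC A (T m) i j + 3 * T m i j + 2 * ∑ n, rotC A (T n) n m i j

theorem lap3_block {r : Arr4} {d : Fin 4 → Arr4} {s : Fin 4 → Fin 4 → Arr4}
    (h : EinsteinJet 3 r d s) (m : Fin 4) (i j : Fin 3) :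
    Ab (lap3 r d m) i j = lap3C (Ab r) (fun m => Ab (d m)) m i j := by
  obtain ⟨he, hP, hS, htP, htS⟩ := eq_einArr h.hr h.hrt
  have hed : ∀ m, d m = einArr (Pm (d m)) (Sm (d m)) := fun m =>
    (eq_einArr (c := 0) (h.hd m) fun j k => by rw [h.hdt m j k]; simp).1
  obtain ⟨-, -, -, htP', htS'⟩ := eq_einArr (c := 0) (h.hd m) fun j k => by
    rw [h.hdt m j k]; simp
  have h1 := lapB_polar (Pm r) (Sm r) (Pm (d m)) (Sm (d m)) (by linarith only [htP])
    (by linarith only [htS]) (by linarith only [htP']) (by linarith only [htS']) i j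
  rw [← he, ← hed m] at h1
  have h2 : ∀ n, Ab (ricC2 r (d n) n m) i j = rotC (Ab r) (Ab (d n)) n m i j := by
    intro n
    have := rotC_ein (Pm r) (Sm r) (Pm (d n)) (Sm (d n)) n m i j
    rw [← he, ← hed n] at this
    exact this
  have e : Ab (lap3 r d m) i j = (Ab (lapB (d m) r) i j + Ab (lapB r (d m)) i j)
      + 3 * Ab (d m) i j + 2 * ∑ n, Ab (ricC2 r (d n) n m) i j := by
    simp only [a67_Ab, lap3, lapB, Fin.sum_univ_four]
    ring
  rw [e, h1, Finset.sum_congr rfl fun n _ => h2 n]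
  rfl

end Vale.Agent.P211
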