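import Vale.Agent.P211.H844.J3d

set_option linter.all false

/-! P211: the algebra of the Bochner formula for the covariant derivative of the self-dual Weyl
curvature. -/

namespace Vale.Agent.P211
open S4

theorem SDFam.entries {T : Fin 4 → Fin 3 → Fin 3 → ℝ} (h : SDFam T) :
    (T 0 0 0 = T 2 0 2 - T 3 0 1 ∧ T 1 0 0 = - T 2 0 1 - T 3 0 2 ∧
      T 2 0 0 = T 1 0 1 - T 0 0 2 ∧ T 3 0 0 = T 0 0 1 + T 1 0 2) ∧
    (T 0 1 1 = T 3 0 1 - T 1 1 2 ∧ T 1 1 1 = T 0 1 2 + T 2 0 1 ∧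
      T 2 1 1 = - T 1 0 1 - T 3 1 2 ∧ T 3 1 1 = T 2 1 2 - T 0 0 1) ∧
    (T 0 2 2 = T 1 1 2 - T 2 0 2 ∧ T 1 2 2 = T 3 0 2 - T 0 1 2 ∧
      T 2 2 2 = T 0 0 2 + T 3 1 2 ∧ T 3 2 2 = - T 1 0 2 - T 2 1 2) := by
  have a := h.row0
  have b := h.row1
  have c := h.row2
  have a0 := a.e0; have a1 := a.e1; have a2 := a.e2; have a3 := a.e3
  have b0 := b.e0; have b1 := b.e1; have b2 := b.e2; have b3 := b.e3
  have c0 := c.e0; have c1 := c.e1; have c2 := c.e2; have c3 := c.e3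
  refine ⟨⟨?_, ?_, ?_, ?_⟩, ⟨?_, ?_, ?_, ?_⟩, ⟨?_, ?_, ?_, ?_⟩⟩ <;> linarith

theorem SDFam.tr {T : Fin 4 → Fin 3 → Fin 3 → ℝ} (h : SDFam T) (m : Fin 4) :
    T m 0 0 + T m 1 1 + T m 2 2 = 0 := by
  obtain ⟨⟨a0, a1, a2, a3⟩, ⟨b0, b1, b2, b3⟩, ⟨c0, c1, c2, c3⟩⟩ := h.entries
  fin_cases m <;> simp only [Fin.zero_eta, Fin.mk_one, Fin.reduceFinMk]
  · linear_combination a0 + b0 + c0
  · linear_combination a1 + b1 + c1
  · linear_combination a2 + b2 + c2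
  · linear_combination a3 + b3 + c3

/-- the zeroth order terms of the Bochner formula -/
theorem boch_alg {A : Fin 3 → Fin 3 → ℝ} {T : Fin 4 → Fin 3 → Fin 3 → ℝ}
    (hs : ∀ i j, A i j = A j i) (ht : A 0 0 + A 1 1 + A 2 2 = 3) (hT : SDFam T) :
    ∑ m, ∑ i, ∑ j, T m i j * lap3C A T m i j =
      33 * ∑ m, ∑ i, ∑ j, T m i j ^ 2 - 20 * ∑ m, ∑ i, ∑ j, ∑ k, A i j * T m j k * T m k i := by
  obtain ⟨⟨a0, a1, a2, a3⟩, ⟨b0, b1, b2, b3⟩, ⟨c0, c1, c2, c3⟩⟩ := hT.entries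
  have s10 := fun m => hT.sym m 1 0
  have s20 := fun m => hT.sym m 2 0
  have s21 := fun m => hT.sym m 2 1
  have t10 := hs 1 0
  have t20 := hs 2 0
  have t21 := hs 2 1
  have t22 : A 2 2 = 3 - A 0 0 - A 1 1 := by linarith
  simp only [lap3C, dlapC, rotC, rho3, cc3, om3, sk, Fin.sum_univ_four, Fin.sum_univ_three,
    Matrix.cons_val, Fin.isValue, Fin.reduceEq, if_true, if_false]
  simp only [Matrix.cons_val, Pi.neg_apply, Pi.zero_apply, mul_one, mul_neg,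
      neg_zero, mul_zero, zero_mul, add_zero, zero_add, neg_neg, a0, a1, a2, a3, b0, b1, b2, b3, c0, c1, c2, c3, s10, s20, s21, t10, t20, t21, t22]
  ring

theorem comm_norm {A : Fin 3 → Fin 3 → ℝ}
    (hs : ∀ i j, A i j = A j i) (ht : A 0 0 + A 1 1 + A 2 2 = 3) :
    ∑ n, ∑ m, ∑ i, ∑ j, rotC A A n m i j ^ 2 = 2 / 3 * ∑ i, ∑ j, lapC 3 A i j ^ 2 := by
  have t10 := hs 1 0
  have t20 := hs 2 0
  have t21 := hs 2 1
  have t22 : A 2 2 = 3 - A 0 0 - A 1 1 := by linarith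
  simp only [lapC, rotC, rho3, cc3, om3, sk, Fin.sum_univ_four, Fin.sum_univ_three,
    Matrix.cons_val, Fin.isValue, Fin.reduceEq, if_true, if_false]
  simp only [Matrix.cons_val, Pi.neg_apply, Pi.zero_apply, mul_one, mul_neg,
      neg_zero, mul_zero, zero_mul, add_zero, zero_add, neg_neg, t10, t20, t21, t22]
  ring

theorem comm_ip {A : Fin 3 → Fin 3 → ℝ} {T : Fin 4 → Fin 3 → Fin 3 → ℝ}
    (hs : ∀ i j, A i j = A j i) (ht : A 0 0 + A 1 1 + A 2 2 = 3) (hT : SDFam T) (n : Fin 4) :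
    ∑ m, ∑ i, ∑ j, T m i j * rotC A A n m i j = 1 / 3 * ∑ i, ∑ j, T n i j * lapC 3 A i j := by
  obtain ⟨⟨a0, a1, a2, a3⟩, ⟨b0, b1, b2, b3⟩, ⟨c0, c1, c2, c3⟩⟩ := hT.entries
  have s10 := fun m => hT.sym m 1 0
  have s20 := fun m => hT.sym m 2 0
  have s21 := fun m => hT.sym m 2 1
  have t10 := hs 1 0
  have t20 := hs 2 0
  have t21 := hs 2 1
  have t22 : A 2 2 = 3 - A 0 0 - A 1 1 := by linarith
  fin_cases n <;>
  · simp only [lapC, rotC, rho3, cc3, om3, sk, Fin.sum_univ_four, Fin.sum_univ_three,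
      Matrix.cons_val, Fin.isValue, Fin.reduceEq, if_true, if_false, Fin.zero_eta, Fin.mk_one, Fin.reduceFinMk]
    simp only [Matrix.cons_val, Pi.neg_apply, Pi.zero_apply, mul_one, mul_neg,
        neg_zero, mul_zero, zero_mul, add_zero, zero_add, neg_neg, a0, a1, a2, a3, b0, b1, b2, b3, c0, c1, c2, c3, s10, s20, s21, t10, t20, t21, t22]
    ring

/-- `|W|^2 / 6` for `W = A - 1` -/
noncomputable def nW (A : Fin 3 → Fin 3 → ℝ) : ℝ := ((∑ i, ∑ j, A i j ^ 2) - 3) / 6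
/-- determinant of `W = A - 1` -/
def dW (A : Fin 3 → Fin 3 → ℝ) : ℝ :=
  (A 0 0 - 1) * ((A 1 1 - 1) * (A 2 2 - 1) - A 1 2 * A 2 1)
    - A 0 1 * (A 1 0 * (A 2 2 - 1) - A 1 2 * A 2 0)
    + A 0 2 * (A 1 0 * A 2 1 - (A 1 1 - 1) * A 2 0)

theorem lapC_norm {A : Fin 3 → Fin 3 → ℝ}
    (hs : ∀ i j, A i j = A j i) (ht : A 0 0 + A 1 1 + A 2 2 = 3) :
    ∑ i, ∑ j, lapC 3 A i j ^ 2 = 216 * (nW A - dW A + nW A ^ 2) := by
  have t10 := hs 1 0
  have t20 := hs 2 0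
  have t21 := hs 2 1
  have t22 : A 2 2 = 3 - A 0 0 - A 1 1 := by linarith
  simp only [lapC, nW, dW, Fin.sum_univ_three, Fin.isValue, Fin.reduceEq, if_true, if_false,
    t10, t20, t21, t22]
  ring

theorem lapC_ip {A : Fin 3 → Fin 3 → ℝ}
    (hs : ∀ i j, A i j = A j i) (ht : A 0 0 + A 1 1 + A 2 2 = 3) :
    ∑ i, ∑ j, A i j * lapC 3 A i j = 36 * nW A - 18 * dW A := by
  have t10 := hs 1 0
  have t20 := hs 2 0
  have t21 := hs 2 1
  have t22 : A 2 2 = 3 - A 0 0 - A 1 1 := by linarith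
  simp only [lapC, nW, dW, Fin.sum_univ_three, Fin.isValue, Fin.reduceEq, if_true, if_false,
    t10, t20, t21, t22]
  ring

/-- the part of the second derivative which is determined by the curvature -/
noncomputable def XX (A : Fin 3 → Fin 3 → ℝ) (n m : Fin 4) (i j : Fin 3) : ℝ :=
  1 / 2 * rotC A A n m i j + if n = m then lapC 3 A i j / 4 else 0

theorem XX_fam {A : Fin 3 → Fin 3 → ℝ}
    (hs : ∀ i j, A i j = A j i) (ht : A 0 0 + A 1 1 + A 2 2 = 3) (n : Fin 4) :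
    SDFam (XX A n) := by
  have t10 := hs 1 0
  have t20 := hs 2 0
  have t21 := hs 2 1
  have t22 : A 2 2 = 3 - A 0 0 - A 1 1 := by linarith
  constructor
  · intro m i j
    have e1 : rotC A A n m i j = rotC A A n m j i := by
      simp only [rotC]
      congr 1
      refine Finset.sum_congr rfl fun k _ => ?_
      rw [hs k j, hs i k]
      ring
    have e2 : lapC 3 A i j = lapC 3 A j i := by
      simp only [lapC]
      rw [hs i j]
      congr 1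
      · congr 2
        refine Finset.sum_congr rfl fun k _ => ?_
        rw [hs i k, hs k j]
        ring
      · simp only [eq_comm]
    simp only [XX, e1, e2]
  all_goals
    fin_cases n <;> constructor <;>
    · simp only [XX, lapC, rotC, rho3, cc3, om3, sk, Fin.sum_univ_four, Fin.sum_univ_three,
        Matrix.cons_val, Fin.isValue, Fin.reduceEq, if_true, if_false, Fin.zero_eta, Fin.mk_one, Fin.reduceFinMk]
      simp only [Matrix.cons_val, Pi.neg_apply, Pi.zero_apply, mul_one, mul_neg,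
        neg_zero, mul_zero, zero_mul, add_zero, zero_add, neg_neg, t10, t20, t21, t22]
      ring

end Vale.Agent.P211
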