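import Vale.Agent.P211.H844.J3e

set_option linter.all false

/-! P211: the decomposition of the second covariant derivative of the self-dual Weyl curvature. -/

namespace Vale.Agent.P211
open S4

/-- fully symmetric traceless part of the second derivative -/
noncomputable def S0 (A : Fin 3 → Fin 3 → ℝ) (S : Fin 4 → Fin 4 → Fin 3 → Fin 3 → ℝ)
    (n m : Fin 4) (i j : Fin 3) : ℝ := S n m i j - XX A n m i j

theorem SDRow.sub {u v w u' v' w' : Fin 4 → ℝ} (h : SDRow u v w) (h' : SDRow u' v' w') :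
    SDRow (fun m => u m - u' m) (fun m => v m - v' m) (fun m => w m - w' m) := by
  constructor
  · linear_combination h.e0 - h'.e0
  · linear_combination h.e1 - h'.e1
  · linear_combination h.e2 - h'.e2
  · linear_combination h.e3 - h'.e3

theorem SDFam.sub {T T' : Fin 4 → Fin 3 → Fin 3 → ℝ} (h : SDFam T) (h' : SDFam T') :
    SDFam (fun m i j => T m i j - T' m i j) :=
  ⟨fun m i j => by rw [h.sym, h'.sym], h.row0.sub h'.row0, h.row1.sub h'.row1,
    h.row2.sub h'.row2⟩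

variable {A : Fin 3 → Fin 3 → ℝ} {T : Fin 4 → Fin 3 → Fin 3 → ℝ}
  {S : Fin 4 → Fin 4 → Fin 3 → Fin 3 → ℝ}

theorem SDJet.S0_fam (h : SDJet A T S) (n : Fin 4) : SDFam (S0 A S n) :=
  (h.hS n).sub (XX_fam h.sym h.tr n)

theorem SDJet.rot_anti (h : SDJet A T S) (n m : Fin 4) (i j : Fin 3) :
    rotC A A n m i j = - rotC A A m n i j := by
  have h1 := h.comm n m i j
  have h2 := h.comm m n i j
  linarith only [h1, h2]

theorem SDJet.S0_symm (h : SDJet A T S) (n m : Fin 4) (i j : Fin 3) :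
    S0 A S n m i j = S0 A S m n i j := by
  have h1 := h.comm n m i j
  have h2 := h.rot_anti n m i j
  simp only [S0, XX]
  by_cases e : n = m
  · subst e; rfl
  · rw [if_neg e, if_neg (Ne.symm e)]
    linarith only [h1, h2]

theorem scal_dec (s : Fin 4 → Fin 4 → ℝ) (c z : ℝ) (hz : z = ∑ n, s n n) :
    ∑ n, ∑ m, s n m ^ 2 = ∑ n, ∑ m, (s n m - (1 / 2 * (s n m - s m n) +
      if n = m then z / 4 else 0)) ^ 2 + 1 / 4 * ∑ n, ∑ m, (s n m - s m n) ^ 2 + z ^ 2 / 4 := by
  subst hz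
  simp only [Fin.sum_univ_four, Fin.isValue, Fin.reduceEq, if_true, if_false]
  ring

theorem SDJet.norm_dec (h : SDJet A T S) :
    ∑ n, ∑ m, ∑ i, ∑ j, S n m i j ^ 2 = ∑ n, ∑ m, ∑ i, ∑ j, S0 A S n m i j ^ 2
      + 5 / 12 * ∑ i, ∑ j, lapC 3 A i j ^ 2 := by
  have sw : ∀ f : Fin 4 → Fin 4 → Fin 3 → Fin 3 → ℝ, ∑ n, ∑ m, ∑ i, ∑ j, f n m i j =
      ∑ i, ∑ j, ∑ n, ∑ m, f n m i j := by
    intro f
    simp only [Fin.sum_univ_four, Fin.sum_univ_three]
    ring
  have h1 : ∀ i j, ∑ n, ∑ m, S n m i j ^ 2 = ∑ n, ∑ m, S0 A S n m i j ^ 2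
      + 1 / 4 * ∑ n, ∑ m, rotC A A n m i j ^ 2 + lapC 3 A i j ^ 2 / 4 := by
    intro i j
    have := scal_dec (fun n m => S n m i j) 0 (lapC 3 A i j) (h.lap i j).symm
    simp only [h.comm] at this
    rw [this]
    simp only [S0, XX]
  have h2 := comm_norm h.sym h.tr
  rw [sw] at h2
  rw [sw, sw]
  simp only [h1, Finset.sum_add_distrib, ← Finset.mul_sum]
  rw [h2]
  simp only [← Finset.sum_div]
  ring

theorem SDJet.grad_dec (h : SDJet A T S) (n : Fin 4) :
    ∑ m, ∑ i, ∑ j, T m i j * S n m i j = ∑ m, ∑ i, ∑ j, T m i j * S0 A S n m i j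
      + 5 / 12 * ∑ i, ∑ j, T n i j * lapC 3 A i j := by
  have h1 := comm_ip h.sym h.tr h.hT n
  have h2 : ∀ m i j, T m i j * S n m i j = T m i j * S0 A S n m i j
      + (1 / 2 * (T m i j * rotC A A n m i j)
        + (if n = m then 1 / 4 * (T m i j * lapC 3 A i j) else 0)) := by
    intro m i j
    simp only [S0, XX]
    split_ifs <;> ring
  have h3 : ∑ m, ∑ i, ∑ j, (if n = m then 1 / 4 * (T m i j * lapC 3 A i j) else 0) =
      1 / 4 * ∑ i, ∑ j, T n i j * lapC 3 A i j := by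
    have : ∀ m, (∑ i, ∑ j, (if n = m then 1 / 4 * (T m i j * lapC 3 A i j) else 0)) =
        if n = m then 1 / 4 * ∑ i, ∑ j, T m i j * lapC 3 A i j else 0 := by
      intro m
      split_ifs with e
      · simp only [Finset.mul_sum]
      · simp
    simp only [this]
    simp
  simp only [h2, Finset.sum_add_distrib, ← Finset.mul_sum, h1]
  rw [h3]
  ring

end Vale.Agent.P211
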