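import Vale.Agent.P211.H844.J3f

set_option linter.all false

/-! P211: the squared norm of the covariant derivative of the self-dual Weyl curvature is a smooth
function. -/

namespace Vale.Agent.P211.S4

open Topology Filter MeasureTheory Set
open scoped ContDiff

variable {M 𝒪 V : Type*} [TopologicalSpace M] [CommRing 𝒪] [Algebra ℝ 𝒪]
    [AddCommGroup V] [Module 𝒪 V] {G : Geo2 M 𝒪 V} {om : V → V → V → V → 𝒪}

/-- functions whose sum over an orthonormal frame does not depend on the frame -/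
def b3_Q (G : Geo2 M 𝒪 V) (p : M) (Q : V → ℝ) : Prop :=
  ∀ F F' : Fin 4 → V, G.ON p F → G.ON p F' → ∑ i, Q (F i) = ∑ i, Q (F' i)

/-- pointwise linear functions -/
def b3_L (G : Geo2 M 𝒪 V) (p : M) (φ : V → ℝ) : Prop :=
  ∀ F : Fin 4 → V, G.ON p F → ∀ Z, φ Z = ∑ i, G.ev p (G.g Z (F i)) * φ (F i)

theorem b3_mk {p : M} {φ ψ : V → ℝ} (hφ : b3_L G p φ) (hψ : b3_L G p ψ) (c : ℝ) :
    b3_Q G p (fun X => φ X * ψ X * c) := by
  intro F F' hF hF'
  have h1 : ∀ i, φ (F i) * ψ (F i) * c =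
      ∑ j, G.ev p (G.g (F i) (F' j)) * φ (F' j) * ψ (F i) * c := by
    intro i
    conv_lhs => rw [hφ F' hF' (F i)]
    rw [Finset.sum_mul, Finset.sum_mul]
  have h2 : ∀ j, φ (F' j) * ψ (F' j) * c =
      ∑ i, G.ev p (G.g (F i) (F' j)) * φ (F' j) * ψ (F i) * c := by
    intro j
    conv_lhs => rw [hψ F hF (F' j)]
    rw [Finset.mul_sum, Finset.sum_mul]
    refine Finset.sum_congr rfl fun i _ => ?_
    rw [G.g_symm (F' j) (F i)]
    ring
  rw [Finset.sum_congr rfl fun i _ => h1 i, Finset.sum_comm]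
  exact (Finset.sum_congr rfl fun j _ => h2 j).symm

theorem b3_sum {p : M} {g : Fin 4 → V → ℝ} (h : ∀ j, b3_Q G p (g j)) :
    b3_Q G p (fun X => ∑ j, g j X) := by
  intro F F' hF hF'
  rw [Finset.sum_comm, Finset.sum_comm (f := fun i j => g j (F' i))]
  exact Finset.sum_congr rfl fun j _ => h j F F' hF hF'

theorem b3_inv4 {p : M} {f : V → V → V → V → ℝ}
    (h1 : ∀ b c d, b3_Q G p fun X => f X b c d) (h2 : ∀ a c d, b3_Q G p fun X => f a X c d)
    (h3 : ∀ a b d, b3_Q G p fun X => f a b X d) (h4 : ∀ a b c, b3_Q G p fun X => f a b c X)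
    {F F' : Fin 4 → V} (hF : G.ON p F) (hF' : G.ON p F') :
    ∑ i, ∑ j, ∑ k, ∑ l, f (F i) (F j) (F k) (F l) =
      ∑ i, ∑ j, ∑ k, ∑ l, f (F' i) (F' j) (F' k) (F' l) := by
  calc ∑ i, ∑ j, ∑ k, ∑ l, f (F i) (F j) (F k) (F l)
      = ∑ i, ∑ j, ∑ k, ∑ l, f (F' i) (F j) (F k) (F l) :=
        (b3_sum fun j => b3_sum fun k => b3_sum fun l => h1 (F j) (F k) (F l)) F F' hF hF'
    _ = ∑ i, ∑ j, ∑ k, ∑ l, f (F' i) (F' j) (F k) (F l) :=
        Finset.sum_congr rfl fun i _ =>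
          (b3_sum fun k => b3_sum fun l => h2 (F' i) (F k) (F l)) F F' hF hF'
    _ = ∑ i, ∑ j, ∑ k, ∑ l, f (F' i) (F' j) (F' k) (F l) :=
        Finset.sum_congr rfl fun i _ => Finset.sum_congr rfl fun j _ =>
          (b3_sum fun l => h3 (F' i) (F' j) (F l)) F F' hF hF'
    _ = ∑ i, ∑ j, ∑ k, ∑ l, f (F' i) (F' j) (F' k) (F' l) :=
        Finset.sum_congr rfl fun i _ => Finset.sum_congr rfl fun j _ =>
          Finset.sum_congr rfl fun k _ => h4 (F' i) (F' j) (F' k) F F' hF hF'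

theorem b3_inv6 {p : M} {f : V → V → V → V → V → V → ℝ}
    (h1 : ∀ b c d e s, b3_Q G p fun X => f X b c d e s)
    (h2 : ∀ a c d e s, b3_Q G p fun X => f a X c d e s)
    (h3 : ∀ a b d e s, b3_Q G p fun X => f a b X d e s)
    (h4 : ∀ a b c e s, b3_Q G p fun X => f a b c X e s)
    (h5 : ∀ a b c d s, b3_Q G p fun X => f a b c d X s)
    (h6 : ∀ a b c d e, b3_Q G p fun X => f a b c d e X)
    {F F' : Fin 4 → V} (hF : G.ON p F) (hF' : G.ON p F') :
    ∑ i, ∑ j, ∑ k, ∑ l, ∑ m, ∑ n, f (F i) (F j) (F k) (F l) (F m) (F n) =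
      ∑ i, ∑ j, ∑ k, ∑ l, ∑ m, ∑ n, f (F' i) (F' j) (F' k) (F' l) (F' m) (F' n) := by
  calc ∑ i, ∑ j, ∑ k, ∑ l, ∑ m, ∑ n, f (F i) (F j) (F k) (F l) (F m) (F n)
      = ∑ i, ∑ j, ∑ k, ∑ l, ∑ m, ∑ n, f (F' i) (F j) (F k) (F l) (F m) (F n) :=
        (b3_sum fun j => b3_sum fun k => b3_sum fun l => b3_sum fun m => b3_sum fun n =>
          h1 (F j) (F k) (F l) (F m) (F n)) F F' hF hF'
    _ = ∑ i, ∑ j, ∑ k, ∑ l, ∑ m, ∑ n, f (F' i) (F' j) (F k) (F l) (F m) (F n) :=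
        Finset.sum_congr rfl fun i _ =>
          (b3_sum fun k => b3_sum fun l => b3_sum fun m => b3_sum fun n =>
            h2 (F' i) (F k) (F l) (F m) (F n)) F F' hF hF'
    _ = ∑ i, ∑ j, ∑ k, ∑ l, ∑ m, ∑ n, f (F' i) (F' j) (F' k) (F l) (F m) (F n) :=
        Finset.sum_congr rfl fun i _ => Finset.sum_congr rfl fun j _ =>
          (b3_sum fun l => b3_sum fun m => b3_sum fun n =>
            h3 (F' i) (F' j) (F l) (F m) (F n)) F F' hF hF'
    _ = ∑ i, ∑ j, ∑ k, ∑ l, ∑ m, ∑ n, f (F' i) (F' j) (F' k) (F' l) (F m) (F n) :=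
        Finset.sum_congr rfl fun i _ => Finset.sum_congr rfl fun j _ =>
          Finset.sum_congr rfl fun k _ =>
          (b3_sum fun m => b3_sum fun n => h4 (F' i) (F' j) (F' k) (F m) (F n)) F F' hF hF'
    _ = ∑ i, ∑ j, ∑ k, ∑ l, ∑ m, ∑ n, f (F' i) (F' j) (F' k) (F' l) (F' m) (F n) :=
        Finset.sum_congr rfl fun i _ => Finset.sum_congr rfl fun j _ =>
          Finset.sum_congr rfl fun k _ => Finset.sum_congr rfl fun l _ =>
          (b3_sum fun n => h5 (F' i) (F' j) (F' k) (F' l) (F n)) F F' hF hF'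
    _ = ∑ i, ∑ j, ∑ k, ∑ l, ∑ m, ∑ n, f (F' i) (F' j) (F' k) (F' l) (F' m) (F' n) :=
        Finset.sum_congr rfl fun i _ => Finset.sum_congr rfl fun j _ =>
          Finset.sum_congr rfl fun k _ => Finset.sum_congr rfl fun l _ =>
          Finset.sum_congr rfl fun m _ => h6 (F' i) (F' j) (F' k) (F' l) (F' m) F F' hF hF'

/-- contraction with an alternating array -/
theorem b3_alt {w c : Arr4} (w12 : ∀ i j k l, w i j k l = - w j i k l)
    (w23 : ∀ i j k l, w i j k l = - w i k j l) (w34 : ∀ i j k l, w i j k l = - w i j l k)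
    (w0123 : w 0 1 2 3 = 1) (c12 : ∀ i j k l, c i j k l = - c j i k l)
    (c34 : ∀ i j k l, c i j k l = - c i j l k) (cp : ∀ i j k l, c i j k l = c k l i j) :
    ∑ i, ∑ j, ∑ k, ∑ l, w i j k l * c i j k l =
      8 * (c 0 1 2 3 - c 0 2 1 3 + c 0 3 1 2) := by
  have z12 : ∀ a k l, w a a k l = 0 := fun a k l => by
    have := w12 a a k l
    linarith only [this]
  have z23 : ∀ i a l, w i a a l = 0 := fun i a l => by
    have := w23 i a a l
    linarith only [this]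
  have z34 : ∀ i j a, w i j a a = 0 := fun i j a => by
    have := w34 i j a a
    linarith only [this]
  have z13 : ∀ a b l, w a b a l = 0 := fun a b l => by rw [w12, z23, neg_zero]
  have z24 : ∀ i a b, w i a b a = 0 := fun i a b => by rw [w23, z34, neg_zero]
  have z14 : ∀ a b k, w a b k a = 0 := fun a b k => by rw [w12, z24, neg_zero]
  have w1023 : w 1 0 2 3 = -1 := by rw [w12 1 0 2 3, w0123]
  have w0213 : w 0 2 1 3 = -1 := by rw [w23 0 2 1 3, w0123]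
  have w0132 : w 0 1 3 2 = -1 := by rw [w34 0 1 3 2, w0123]
  have w1203 : w 1 2 0 3 = 1 := by rw [w23 1 2 0 3, w1023]; norm_num
  have w1032 : w 1 0 3 2 = 1 := by rw [w34 1 0 3 2, w1023]; norm_num
  have w2013 : w 2 0 1 3 = 1 := by rw [w12 2 0 1 3, w0213]; norm_num
  have w0231 : w 0 2 3 1 = 1 := by rw [w34 0 2 3 1, w0213]; norm_num
  have w0312 : w 0 3 1 2 = 1 := by rw [w23 0 3 1 2, w0132]; norm_num
  have w2103 : w 2 1 0 3 = -1 := by rw [w12 2 1 0 3, w1203]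
  have w1230 : w 1 2 3 0 = -1 := by rw [w34 1 2 3 0, w1203]
  have w1302 : w 1 3 0 2 = -1 := by rw [w23 1 3 0 2, w1032]
  have w2031 : w 2 0 3 1 = -1 := by rw [w34 2 0 3 1, w2013]
  have w0321 : w 0 3 2 1 = -1 := by rw [w23 0 3 2 1, w0231]
  have w3012 : w 3 0 1 2 = -1 := by rw [w12 3 0 1 2, w0312]
  have w2130 : w 2 1 3 0 = 1 := by rw [w34 2 1 3 0, w2103]; norm_num
  have w1320 : w 1 3 2 0 = 1 := by rw [w23 1 3 2 0, w1230]; norm_num
  have w3102 : w 3 1 0 2 = 1 := by rw [w12 3 1 0 2, w1302]; norm_num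
  have w2301 : w 2 3 0 1 = 1 := by rw [w23 2 3 0 1, w2031]; norm_num
  have w3021 : w 3 0 2 1 = 1 := by rw [w12 3 0 2 1, w0321]; norm_num
  have w2310 : w 2 3 1 0 = -1 := by rw [w23 2 3 1 0, w2130]
  have w3120 : w 3 1 2 0 = -1 := by rw [w12 3 1 2 0, w1320]
  have w3201 : w 3 2 0 1 = -1 := by rw [w12 3 2 0 1, w2301]
  have w3210 : w 3 2 1 0 = 1 := by rw [w12 3 2 1 0, w2310]; norm_num
  have k1023 : c 1 0 2 3 = - c 0 1 2 3 := by rw [c12 1 0 2 3]
  have k0132 : c 0 1 3 2 = - c 0 1 2 3 := by rw [c34 0 1 3 2]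
  have k2301 : c 2 3 0 1 = c 0 1 2 3 := by rw [cp 2 3 0 1]
  have k1032 : c 1 0 3 2 = c 0 1 2 3 := by rw [c34 1 0 3 2, k1023]; rw [neg_neg]
  have k2310 : c 2 3 1 0 = - c 0 1 2 3 := by rw [cp 2 3 1 0, k1023]
  have k3201 : c 3 2 0 1 = - c 0 1 2 3 := by rw [cp 3 2 0 1, k0132]
  have k3210 : c 3 2 1 0 = c 0 1 2 3 := by rw [cp 3 2 1 0, k1032]
  have k2013 : c 2 0 1 3 = - c 0 2 1 3 := by rw [c12 2 0 1 3]
  have k0231 : c 0 2 3 1 = - c 0 2 1 3 := by rw [c34 0 2 3 1]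
  have k1302 : c 1 3 0 2 = c 0 2 1 3 := by rw [cp 1 3 0 2]
  have k2031 : c 2 0 3 1 = c 0 2 1 3 := by rw [c34 2 0 3 1, k2013]; rw [neg_neg]
  have k1320 : c 1 3 2 0 = - c 0 2 1 3 := by rw [cp 1 3 2 0, k2013]
  have k3102 : c 3 1 0 2 = - c 0 2 1 3 := by rw [cp 3 1 0 2, k0231]
  have k3120 : c 3 1 2 0 = c 0 2 1 3 := by rw [cp 3 1 2 0, k2031]
  have k3012 : c 3 0 1 2 = - c 0 3 1 2 := by rw [c12 3 0 1 2]
  have k0321 : c 0 3 2 1 = - c 0 3 1 2 := by rw [c34 0 3 2 1]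
  have k1203 : c 1 2 0 3 = c 0 3 1 2 := by rw [cp 1 2 0 3]
  have k3021 : c 3 0 2 1 = c 0 3 1 2 := by rw [c34 3 0 2 1, k3012]; rw [neg_neg]
  have k1230 : c 1 2 3 0 = - c 0 3 1 2 := by rw [cp 1 2 3 0, k3012]
  have k2103 : c 2 1 0 3 = - c 0 3 1 2 := by rw [cp 2 1 0 3, k0321]
  have k2130 : c 2 1 3 0 = c 0 3 1 2 := by rw [cp 2 1 3 0, k3021]
  simp only [Fin.sum_univ_four, z12, z23, z34, z13, z24, z14, zero_mul, add_zero, zero_add,
    w0123, w1023, w0213, w0132, w1203, w1032, w2013, w0231, w0312, w2103, w1230, w1302, w2031, w0321, w3012, w2130, w1320, w3102, w2301, w3021, w2310, w3120, w3201, w3210,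
    one_mul, neg_mul, k1023, k0132, k2301, k1032, k2310, k3201, k3210, k2013, k0231, k1302, k2031, k1320, k3102, k3120, k3012, k0321, k1203, k3021, k1230, k2103, k2130]
  ring

/-- the contraction of an array with itself -/
def b3_cc (r : Arr4) : Arr4 := fun i j k l => ∑ m, ∑ n, r i j m n * r k l m n

theorem b3_eval {r w : Arr4} {c : ℝ} (h : IsAlgCurv r)
    (ht : ∀ j k, ∑ i, r i j k i = if j = k then c else 0)
    (w12 : ∀ i j k l, w i j k l = - w j i k l)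
    (w23 : ∀ i j k l, w i j k l = - w i k j l) (w34 : ∀ i j k l, w i j k l = - w i j l k)
    (w0123 : w 0 1 2 3 = 1) :
    nA r = (∑ i, ∑ j, ∑ k, ∑ l, r i j k l * r i j k l * 1) / 8 +
      (∑ i, ∑ j, ∑ k, ∑ l, ∑ m, ∑ n, w i j k l * r i j m n * r k l m n) / 16 := by
  have c12 : ∀ i j k l, b3_cc r i j k l = - b3_cc r j i k l := by
    intro i j k l
    simp only [b3_cc, ← Finset.sum_neg_distrib]
    refine Finset.sum_congr rfl fun m _ => Finset.sum_congr rfl fun n _ => ?_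
    rw [h.anti12 i j m n]
    ring
  have c34 : ∀ i j k l, b3_cc r i j k l = - b3_cc r i j l k := by
    intro i j k l
    simp only [b3_cc, ← Finset.sum_neg_distrib]
    refine Finset.sum_congr rfl fun m _ => Finset.sum_congr rfl fun n _ => ?_
    rw [h.anti12 k l m n]
    ring
  have cp : ∀ i j k l, b3_cc r i j k l = b3_cc r k l i j := by
    intro i j k l
    simp only [b3_cc]
    exact Finset.sum_congr rfl fun m _ => Finset.sum_congr rfl fun n _ => mul_comm _ _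
  have e1 : ∑ i, ∑ j, ∑ k, ∑ l, ∑ m, ∑ n, w i j k l * r i j m n * r k l m n =
      ∑ i, ∑ j, ∑ k, ∑ l, w i j k l * b3_cc r i j k l := by
    refine Finset.sum_congr rfl fun i _ => Finset.sum_congr rfl fun j _ =>
      Finset.sum_congr rfl fun k _ => Finset.sum_congr rfl fun l _ => ?_
    simp only [b3_cc, Finset.mul_sum, mul_assoc]
  have e2 : ∑ i, ∑ j, ∑ k, ∑ l, r i j k l * r i j k l * 1 = ∑ i, ∑ j, b3_cc r i j i j := by
    simp only [b3_cc, mul_one]
  rw [e1, e2, b3_alt w12 w23 w34 w0123 c12 c34 cp]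
  obtain ⟨h1, h2, h3, -, -⟩ := eq_einArr h ht
  have p10 := h2 1 0
  have p20 := h2 2 0
  have p21 := h2 2 1
  have s10 := h3 1 0
  have s20 := h3 2 0
  have s21 := h3 2 1
  generalize hP : Pm r = P at *
  generalize hS : Sm r = S at *
  have k0 : ∀ i j, b3_cc r i j i j = ∑ m, ∑ n, einArr P S i j m n ^ 2 := by
    intro i j
    rw [h1]
    simp only [b3_cc, pow_two]
  have k1 : b3_cc r 0 1 2 3 = 4 * (P 0 0 * S 0 0 + P 0 1 * S 0 1 + P 0 2 * S 0 2) := by
    rw [h1]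
    simp [b3_cc, einArr, sk, Fin.sum_univ_four]
    ring
  have k2 : b3_cc r 0 2 1 3 = -4 * (P 0 1 * S 0 1 + P 1 1 * S 1 1 + P 1 2 * S 1 2) := by
    rw [h1]
    simp [b3_cc, einArr, sk, Fin.sum_univ_four]
    ring
  have k3 : b3_cc r 0 3 1 2 = 4 * (P 0 2 * S 0 2 + P 1 2 * S 1 2 + P 2 2 * S 2 2) := by
    rw [h1]
    simp [b3_cc, einArr, sk, Fin.sum_univ_four]
    ring
  have k4 : ∑ i, ∑ j, b3_cc r i j i j =
      8 * (P 0 0 ^ 2 + P 1 1 ^ 2 + P 2 2 ^ 2 + 2 * P 0 1 ^ 2 + 2 * P 0 2 ^ 2 + 2 * P 1 2 ^ 2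
        + S 0 0 ^ 2 + S 1 1 ^ 2 + S 2 2 ^ 2 + 2 * S 0 1 ^ 2 + 2 * S 0 2 ^ 2 + 2 * S 1 2 ^ 2) := by
    simp only [k0]
    simp [einArr, sk, Fin.sum_univ_four]
    ring
  have k5 : nA r = ∑ i, ∑ j, (P i j + S i j) ^ 2 := by
    simp only [nA, Ab, hP, hS]
  rw [k4, k1, k2, k3, k5]
  simp only [Fin.sum_univ_three]
  rw [p10, p20, p21, s10, s20, s21]
  ring

/-- components of a four-tensor -/
def cmp4 (G : Geo2 M 𝒪 V) (T : V → V → V → V → 𝒪) (p : M) (F : Fin 4 → V) : Arr4 :=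
  fun i j k l => G.ev p (T (F i) (F j) (F k) (F l))

theorem nA_invT (ho : Orient G om) {T : V → V → V → V → 𝒪} (hR : IsT4 T) {c : ℝ} {p : M}
    (hal : ∀ F : Fin 4 → V, IsAlgCurv (cmp4 G T p F))
    (htr : ∀ F : Fin 4 → V, G.ON p F → ∀ j k, ∑ i, cmp4 G T p F i j k i = if j = k then c else 0)
    {F F' : Fin 4 → V} (h : Pos G om p F)
    (h' : Pos G om p F') : nA (cmp4 G T p F) = nA (cmp4 G T p F') := by
  have hO := ho.t4
  have r1 : ∀ b c d, b3_L G p fun X => G.ev p (T X b c d) := fun b c d F hF X =>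
    G.exp1 hR hF X b c d
  have r2 : ∀ a c d, b3_L G p fun X => G.ev p (T a X c d) := fun a c d F hF X =>
    G.exp2 hR hF a X c d
  have r3 : ∀ a b d, b3_L G p fun X => G.ev p (T a b X d) := fun a b d F hF X =>
    G.exp3 hR hF a b X d
  have r4 : ∀ a b c, b3_L G p fun X => G.ev p (T a b c X) := fun a b c F hF X =>
    G.exp4 hR hF a b c X
  have o1 : ∀ b c d, b3_L G p fun X => G.ev p (om X b c d) := fun b c d F hF X =>
    G.exp1 hO hF X b c d
  have o2 : ∀ a c d, b3_L G p fun X => G.ev p (om a X c d) := fun a c d F hF X =>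
    G.exp2 hO hF a X c d
  have o3 : ∀ a b d, b3_L G p fun X => G.ev p (om a b X d) := fun a b d F hF X =>
    G.exp3 hO hF a b X d
  have o4 : ∀ a b c, b3_L G p fun X => G.ev p (om a b c X) := fun a b c F hF X =>
    G.exp4 hO hF a b c X
  have t1 : ∑ i, ∑ j, ∑ k, ∑ l, cmp4 G T p F i j k l * cmp4 G T p F i j k l * 1 =
      ∑ i, ∑ j, ∑ k, ∑ l, cmp4 G T p F' i j k l * cmp4 G T p F' i j k l * 1 :=
    b3_inv4 (G := G) (p := p)
      (f := fun a b c d => G.ev p (T a b c d) * G.ev p (T a b c d) * 1)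
      (fun b c d => b3_mk (r1 b c d) (r1 b c d) 1) (fun a c d => b3_mk (r2 a c d) (r2 a c d) 1)
      (fun a b d => b3_mk (r3 a b d) (r3 a b d) 1) (fun a b c => b3_mk (r4 a b c) (r4 a b c) 1)
      h.1 h'.1
  have t2 : ∑ i, ∑ j, ∑ k, ∑ l, ∑ m, ∑ n,
      G.ev p (om (F i) (F j) (F k) (F l)) * cmp4 G T p F i j m n * cmp4 G T p F k l m n =
      ∑ i, ∑ j, ∑ k, ∑ l, ∑ m, ∑ n,
      G.ev p (om (F' i) (F' j) (F' k) (F' l)) * cmp4 G T p F' i j m n *
        cmp4 G T p F' k l m n := by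
    refine b3_inv6 (G := G) (p := p)
      (f := fun a b c d e s => G.ev p (om a b c d) * G.ev p (T a b e s) *
        G.ev p (T c d e s)) ?_ ?_ ?_ ?_ ?_ ?_ h.1 h'.1
    · intro b c d e s
      exact b3_mk (o1 b c d) (r1 b e s) _
    · intro a c d e s
      exact b3_mk (o2 a c d) (r2 a e s) _
    · intro a b d e s
      have := b3_mk (o3 a b d) (r1 d e s) (G.ev p (T a b e s))
      refine (congrArg (b3_Q G p) (funext fun X => ?_)).mp this
      ring
    · intro a b c e s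
      have := b3_mk (o4 a b c) (r2 c e s) (G.ev p (T a b e s))
      refine (congrArg (b3_Q G p) (funext fun X => ?_)).mp this
      ring
    · intro a b c d s
      have := b3_mk (r3 a b s) (r3 c d s) (G.ev p (om a b c d))
      refine (congrArg (b3_Q G p) (funext fun X => ?_)).mp this
      ring
    · intro a b c d e
      have := b3_mk (r4 a b e) (r4 c d e) (G.ev p (om a b c d))
      refine (congrArg (b3_Q G p) (funext fun X => ?_)).mp this
      ring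
  have key : ∀ F : Fin 4 → V, Pos G om p F → nA (cmp4 G T p F) =
      (∑ i, ∑ j, ∑ k, ∑ l, cmp4 G T p F i j k l * cmp4 G T p F i j k l * 1) / 8 +
      (∑ i, ∑ j, ∑ k, ∑ l, ∑ m, ∑ n,
        G.ev p (om (F i) (F j) (F k) (F l)) * cmp4 G T p F i j m n * cmp4 G T p F k l m n)
        / 16 := by
    intro F hF
    refine b3_eval (w := fun i j k l => G.ev p (om (F i) (F j) (F k) (F l))) (c := c)
      (hal F) (htr F hF.1) ?_ ?_ ?_ hF.2
    · intro i j k l
      rw [ho.a12, map_neg]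
    · intro i j k l
      rw [ho.a23, map_neg]
    · intro i j k l
      rw [ho.a34, map_neg]
  rw [key F h, key F' h', t1, t2]

/-- the squared norm of the covariant derivative of the self-dual block -/
def nT (d : Fin 4 → Arr4) : ℝ := ∑ m, nA (d m)

theorem d1_isT4 (X : V) : IsT4 (fun Y Z W U => G.d1 G.Rm X Y Z W U) := by
  have h := G.isT5_d1 G.isT4_Rm
  exact ⟨fun a b c d e => h.add1 X a b c d e, fun a b c d e => h.add2 X a b c d e,
    fun a b c d e => h.add3 X a b c d e, fun a b c d e => h.add4 X a b c d e,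
    fun r a b c d => h.smul1 r X a b c d, fun r a b c d => h.smul2 r X a b c d,
    fun r a b c d => h.smul3 r X a b c d, fun r a b c d => h.smul4 r X a b c d⟩

theorem d1_alg (X : V) (p : M) (F : Fin 4 → V) :
    IsAlgCurv (cmp4 G (fun Y Z W U => G.d1 G.Rm X Y Z W U) p F) where
  anti12 i j k l := by simp only [cmp4]; rw [G.d1Rm_anti12]; simp only [map_neg]
  anti34 i j k l := by simp only [cmp4]; rw [G.d1Rm_anti34]; simp only [map_neg]
  pair i j k l := by simp only [cmp4]; rw [G.d1Rm_pair]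
  bianchi i j k l := by
    simp only [cmp4]; rw [← map_add, ← map_add, G.d1Rm_bianchi1, map_zero]

theorem nT_inv (hE : G.Einstein 3) (ho : Orient G om) {p : M} {F F' : Fin 4 → V}
    (h : Pos G om p F) (h' : Pos G om p F') : nT (G.dd p F) = nT (G.dd p F') := by
  have h5 := G.isT5_d1 G.isT4_Rm
  have s1 : ∀ X, nA (cmp4 G (fun Y Z W U => G.d1 G.Rm X Y Z W U) p F) =
      nA (cmp4 G (fun Y Z W U => G.d1 G.Rm X Y Z W U) p F') := by
    intro X
    refine nA_invT ho (d1_isT4 X) (c := 0) (d1_alg X p) ?_ h h'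
    intro F'' hF'' j k
    have h0 : ∀ i, cmp4 G (fun Y Z W U => G.d1 G.Rm X Y Z W U) p F'' i j k i =
        ∑ m, G.ev p (G.g X (F'' m)) * G.dd p F'' m i j k i := fun i =>
      G.exp5_0 h5 hF'' X _ _ _ _
    rw [Finset.sum_congr rfl fun i _ => h0 i, Finset.sum_comm]
    have h1 := (Geom.einsteinJet_on hE hF'').hdt
    simp only [← Finset.mul_sum, h1]
    simp
  have s2 : b3_Q G p (fun X => nA (cmp4 G (fun Y Z W U => G.d1 G.Rm X Y Z W U) p F')) := by
    have hl : ∀ i j : Fin 3, b3_L G p (fun X =>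
        Ab (cmp4 G (fun Y Z W U => G.d1 G.Rm X Y Z W U) p F') i j) := by
      intro i j E hE' X
      simp only [a67_Ab, cmp4]
      rw [G.exp5_0 h5 hE' X, G.exp5_0 h5 hE' X, ← Finset.sum_add_distrib]
      exact Finset.sum_congr rfl fun m _ => by ring
    have : (fun X => nA (cmp4 G (fun Y Z W U => G.d1 G.Rm X Y Z W U) p F')) = fun X =>
        ∑ i, ∑ j, Ab (cmp4 G (fun Y Z W U => G.d1 G.Rm X Y Z W U) p F') i j *
          Ab (cmp4 G (fun Y Z W U => G.d1 G.Rm X Y Z W U) p F') i j * 1 := by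
      funext X
      simp only [nA]
      exact Finset.sum_congr rfl fun i _ => Finset.sum_congr rfl fun j _ => by ring
    rw [this]
    intro E E' hE1 hE2
    rw [Finset.sum_comm, Finset.sum_comm (f := fun i j => ∑ k, Ab (cmp4 G (fun Y Z W U =>
      G.d1 G.Rm (E' i) Y Z W U) p F') j k * Ab (cmp4 G (fun Y Z W U =>
      G.d1 G.Rm (E' i) Y Z W U) p F') j k * 1)]
    refine Finset.sum_congr rfl fun j _ => ?_
    rw [Finset.sum_comm, Finset.sum_comm (f := fun i k => Ab (cmp4 G (fun Y Z W U =>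
      G.d1 G.Rm (E' i) Y Z W U) p F') j k * Ab (cmp4 G (fun Y Z W U =>
      G.d1 G.Rm (E' i) Y Z W U) p F') j k * 1)]
    exact Finset.sum_congr rfl fun k _ => b3_mk (hl j k) (hl j k) 1 E E' hE1 hE2
  have e : nT (G.dd p F) = ∑ m, nA (cmp4 G (fun Y Z W U => G.d1 G.Rm (F m) Y Z W U) p F) := rfl
  have e' : nT (G.dd p F') =
      ∑ m, nA (cmp4 G (fun Y Z W U => G.d1 G.Rm (F' m) Y Z W U) p F') := rfl
  rw [e, e', Finset.sum_congr rfl fun m _ => s1 (F m)]
  exact s2 F F' h.1 h'.1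

/-- entries of the derivative of the self-dual block as functions -/
def y3 (G : Geo2 M 𝒪 V) (F : Fin 4 → V) (m : Fin 4) (i j : Fin 3) : 𝒪 :=
  G.d1 G.Rm (F m) (F 0) (F (a67_c i)) (F (a67_c j)) (F 0) +
    G.d1 G.Rm (F m) (F 0) (F (a67_c i)) (F (a67_a j)) (F (a67_b j))

/-- the squared norm of the derivative of the self-dual block as a function -/
def y3s (G : Geo2 M 𝒪 V) (F : Fin 4 → V) : 𝒪 :=
  ∑ m, ∑ i, ∑ j, y3 G F m i j * y3 G F m i j

theorem ev_y3 (F : Fin 4 → V) (q : M) (m : Fin 4) (i j : Fin 3) :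
    G.ev q (y3 G F m i j) = Ab (G.dd q F m) i j := by
  rw [y3, map_add, a67_Ab]
  rfl

theorem ev_y3s (F : Fin 4 → V) (q : M) : G.ev q (y3s G F) = nT (G.dd q F) := by
  rw [y3s, nT, map_sum]
  refine Finset.sum_congr rfl fun m _ => ?_
  rw [nA, map_sum]
  refine Finset.sum_congr rfl fun i _ => ?_
  rw [map_sum]
  refine Finset.sum_congr rfl fun j _ => ?_
  rw [map_mul, ev_y3, sq]

/-- existence of the smooth function `|∇W+|^2` -/
theorem exists_P (hE : G.Einstein 3) (ho : Orient G om) :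
    ∃ a : 𝒪, ∀ p F, Pos G om p F → G.ev p a = nT (G.dd p F) := by
  choose F₀ hF₀ using exists_pos ho
  obtain ⟨a, ha⟩ := G.glue (fun q => nT (G.dd q (F₀ q))) (fun p => by
    obtain ⟨F, -, -, hF⟩ := pos_sync ho (hF₀ p)
    refine ⟨y3s G F, hF.mono fun q hq => ?_⟩
    rw [ev_y3s F q]
    exact nT_inv hE ho (hF₀ q) hq)
  refine ⟨a, fun p F hF => ?_⟩
  rw [ha p]
  exact nT_inv hE ho (hF₀ p) hF

theorem ev_D_y3 {p : M} {F : Fin 4 → V} (hS : G.Sync p F) (n m : Fin 4) (i j : Fin 3) :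
    G.ev p (G.D (F n) (y3 G F m i j)) = Ab (G.ss p F n m) i j := by
  rw [y3, G.D_add, map_add, Geom.D_comp5 hS, Geom.D_comp5 hS, a67_Ab]

/-- first derivatives of `|∇W+|^2` -/
theorem dP_sync {b : 𝒪} (hb : ∀ p F, Pos G om p F → G.ev p b = nT (G.dd p F)) {p : M}
    {F : Fin 4 → V} (hS : G.Sync p F) (hP : ∀ᶠ q in 𝓝 p, Pos G om q F) (n : Fin 4) :
    G.ev p (G.D (F n) b) = 2 * ∑ m, ∑ i, ∑ j, Ab (G.dd p F m) i j * Ab (G.ss p F n m) i j := by
  have h1 : ∀ᶠ q in 𝓝 p, G.ev q b = G.ev q (y3s G F) := by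
    filter_upwards [hP] with q hq
    rw [hb q F hq, ev_y3s]
  rw [G.D_local p b (y3s G F) h1 (F n), y3s, a67_D_sum, map_sum, Finset.mul_sum]
  refine Finset.sum_congr rfl fun m _ => ?_
  rw [a67_D_sum, map_sum, Finset.mul_sum]
  refine Finset.sum_congr rfl fun i _ => ?_
  rw [a67_D_sum, map_sum, Finset.mul_sum]
  refine Finset.sum_congr rfl fun j _ => ?_
  rw [G.D_mul, map_add, map_mul, map_mul, ev_y3, ev_D_y3 hS]
  ring

theorem ev_lap_y3 (hE : G.Einstein 3) {p : M} {F : Fin 4 → V} (hS : G.Sync p F) (m : Fin 4)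
    (i j : Fin 3) :
    ∑ n, G.ev p (G.D (F n) (G.D (F n) (y3 G F m i j))) =
      Ab (lap3 (G.rr p F) (G.dd p F) m) i j + ∑ x, G.Th p F m x * Ab (G.dd p F x) i j
        + Ab (a67_rot (G.Th p F) (G.dd p F m)) i j := by
  have h1 : ∀ n, G.ev p (G.D (F n) (G.D (F n) (y3 G F m i j))) =
      G.ev p (G.D (F n) (G.D (F n) (G.d1 G.Rm (F m) (F 0) (F (a67_c i)) (F (a67_c j)) (F 0)))) +
      G.ev p (G.D (F n) (G.D (F n)
        (G.d1 G.Rm (F m) (F 0) (F (a67_c i)) (F (a67_a j)) (F (a67_b j))))) := by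
    intro n
    rw [y3, G.D_add, G.D_add, map_add]
  rw [Finset.sum_congr rfl fun n _ => h1 n, Finset.sum_add_distrib, Geom.Lap_comp5 hS,
    Geom.Lap_comp5 hS, Geom.lap_ee hE hS, Geom.lap_ee hE hS, a67_Ab, a67_Ab]
  simp only [a67_Ab, mul_add, Finset.sum_add_distrib]
  ring

/-- the Laplacian of `|∇W+|^2` -/
theorem ddP_sync {b : 𝒪} (hb : ∀ p F, Pos G om p F → G.ev p b = nT (G.dd p F)) {p : M}
    (hE : G.Einstein 3)
    {F : Fin 4 → V} (hS : G.Sync p F) (hP : ∀ᶠ q in 𝓝 p, Pos G om q F) :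
    ∑ n, G.ev p (G.D (F n) (G.D (F n) b)) =
      2 * ∑ n, ∑ m, ∑ i, ∑ j, Ab (G.ss p F n m) i j ^ 2
      + 2 * ∑ m, ∑ i, ∑ j, Ab (G.dd p F m) i j * Ab (lap3 (G.rr p F) (G.dd p F) m) i j := by
  have h1 : ∀ᶠ q in 𝓝 p, G.ev q b = G.ev q (y3s G F) := by
    filter_upwards [hP] with q hq
    rw [hb q F hq, ev_y3s]
  have h2 : ∀ n, ∀ᶠ q in 𝓝 p, G.ev q (G.D (F n) b) = G.ev q (G.D (F n) (y3s G F)) := by
    intro n
    filter_upwards [h1.eventually_nhds] with q hq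
    exact G.D_local q _ _ hq (F n)
  have hD : ∀ U, G.D U (y3s G F) = ∑ m, ∑ i, ∑ j, 2 * (y3 G F m i j * G.D U (y3 G F m i j)) := by
    intro U
    rw [y3s, a67_D_sum]
    refine Finset.sum_congr rfl fun m _ => ?_
    rw [a67_D_sum]
    refine Finset.sum_congr rfl fun i _ => ?_
    rw [a67_D_sum]
    refine Finset.sum_congr rfl fun j _ => ?_
    rw [G.D_mul]; ring
  have hDD : ∀ U, G.D U (G.D U (y3s G F)) = ∑ m, ∑ i, ∑ j,
      2 * (G.D U (y3 G F m i j) * G.D U (y3 G F m i j)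
        + y3 G F m i j * G.D U (G.D U (y3 G F m i j))) := by
    intro U
    rw [hD, a67_D_sum]
    refine Finset.sum_congr rfl fun m _ => ?_
    rw [a67_D_sum]
    refine Finset.sum_congr rfl fun i _ => ?_
    rw [a67_D_sum]
    refine Finset.sum_congr rfl fun j _ => ?_
    have e2 : (2 : 𝒪) = algebraMap ℝ 𝒪 2 := (map_ofNat (algebraMap ℝ 𝒪) 2).symm
    rw [G.D_mul, G.D_mul, e2, G.D_const]; ring
  have h3 : ∀ n, G.ev p (G.D (F n) (G.D (F n) b)) =
      ∑ m, ∑ i, ∑ j, (2 * Ab (G.ss p F n m) i j ^ 2 +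
        2 * (Ab (G.dd p F m) i j * G.ev p (G.D (F n) (G.D (F n) (y3 G F m i j))))) := by
    intro n
    rw [G.D_local p _ _ (h2 n) (F n), hDD, map_sum]
    refine Finset.sum_congr rfl fun m _ => ?_
    rw [map_sum]
    refine Finset.sum_congr rfl fun i _ => ?_
    rw [map_sum]
    refine Finset.sum_congr rfl fun j _ => ?_
    simp only [map_add, map_mul, ev_y3, ev_D_y3 hS, map_ofNat]
    ring
  have hJ := Geom.einsteinJet hE hS
  have hTh := Geom.Th_anti hS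
  have h4 : ∀ m, ∑ i, ∑ j, Ab (G.dd p F m) i j * Ab (a67_rot (G.Th p F) (G.dd p F m)) i j = 0 :=
    fun m => a67_rot_alg (c := 0) (hJ.hd m) (fun j k => by rw [hJ.hdt m j k]; split_ifs <;> rfl) _ hTh
  have h5 : ∑ m, ∑ i, ∑ j, Ab (G.dd p F m) i j * ∑ x, G.Th p F m x * Ab (G.dd p F x) i j = 0 := by
    have e1 : ∑ m, ∑ i, ∑ j, Ab (G.dd p F m) i j * ∑ x, G.Th p F m x * Ab (G.dd p F x) i j =
        ∑ i, ∑ j, ∑ m, ∑ x, Ab (G.dd p F m) i j * (G.Th p F m x * Ab (G.dd p F x) i j) := by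
      simp only [Finset.mul_sum]
      rw [Finset.sum_comm]
      refine Finset.sum_congr rfl fun i _ => ?_
      rw [Finset.sum_comm]
    rw [e1]
    refine Finset.sum_eq_zero fun i _ => Finset.sum_eq_zero fun j _ => ?_
    have t00 : G.Th p F 0 0 = 0 := by linarith [hTh 0 0]
    have t11 : G.Th p F 1 1 = 0 := by linarith [hTh 1 1]
    have t22 : G.Th p F 2 2 = 0 := by linarith [hTh 2 2]
    have t33 : G.Th p F 3 3 = 0 := by linarith [hTh 3 3]
    simp only [Fin.sum_univ_four]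
    rw [t00, t11, t22, t33, hTh 1 0, hTh 2 0, hTh 3 0, hTh 2 1, hTh 3 1, hTh 3 2]
    ring
  rw [Finset.sum_congr rfl fun n _ => h3 n]
  have h6 : ∑ n, ∑ m, ∑ i, ∑ j, (2 * Ab (G.ss p F n m) i j ^ 2 +
        2 * (Ab (G.dd p F m) i j * G.ev p (G.D (F n) (G.D (F n) (y3 G F m i j))))) =
      2 * ∑ n, ∑ m, ∑ i, ∑ j, Ab (G.ss p F n m) i j ^ 2 +
        2 * ∑ m, ∑ i, ∑ j, Ab (G.dd p F m) i j *
          ∑ n, G.ev p (G.D (F n) (G.D (F n) (y3 G F m i j))) := by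
    simp only [Finset.sum_add_distrib, ← Finset.mul_sum]
    congr 2
    rw [Finset.sum_comm]
    refine Finset.sum_congr rfl fun m _ => ?_
    rw [Finset.sum_comm]
    refine Finset.sum_congr rfl fun i _ => ?_
    rw [Finset.sum_comm]
    refine Finset.sum_congr rfl fun j _ => ?_
    rw [Finset.mul_sum]
  rw [h6]
  congr 2
  simp only [ev_lap_y3 hE hS, mul_add, Finset.sum_add_distrib]
  rw [h5, Finset.sum_congr rfl fun m _ => h4 m]
  simp

end Vale.Agent.P211.S4
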