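import Vale.Agent.P211.H844.J3f

set_option linter.all false

/-! P211: the sharp constant in the refined Kato inequality for the covariant derivative of the
self-dual Weyl curvature. -/

namespace Vale.Agent.P211
open S4

theorem gram_e0 {H : Fin 4 → Fin 4 → Fin 3 → Fin 3 → ℝ} (hf : ∀ n, SDFam (H n))
    (hs : ∀ n m i j, H n m i j = H m n i j) :
    ∑ m, ∑ i, ∑ j, H 0 m i j ^ 2 ≤ 7 / 12 * ∑ n, ∑ m, ∑ i, ∑ j, H n m i j ^ 2 := by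
  obtain ⟨⟨a00, a01, a02, a03⟩, ⟨b00, b01, b02, b03⟩, ⟨c00, c01, c02, c03⟩⟩ := (hf 0).entries
  obtain ⟨⟨a10, a11, a12, a13⟩, ⟨b10, b11, b12, b13⟩, ⟨c10, c11, c12, c13⟩⟩ := (hf 1).entries
  obtain ⟨⟨a20, a21, a22, a23⟩, ⟨b20, b21, b22, b23⟩, ⟨c20, c21, c22, c23⟩⟩ := (hf 2).entries
  obtain ⟨⟨a30, a31, a32, a33⟩, ⟨b30, b31, b32, b33⟩, ⟨c30, c31, c32, c33⟩⟩ := (hf 3).entries
  have s01 := fun i j => hs 1 0 i j
  have s02 := fun i j => hs 2 0 i j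
  have s03 := fun i j => hs 3 0 i j
  have s12 := fun i j => hs 2 1 i j
  have s13 := fun i j => hs 3 1 i j
  have s23 := fun i j => hs 3 2 i j
  have t10 := fun n m => (hf n).sym m 1 0
  have t20 := fun n m => (hf n).sym m 2 0
  have t21 := fun n m => (hf n).sym m 2 1
  simp only [s01, s02, s03, s12, s13, s23] at a00 a01 a02 a03 a10 a11 a12 a13 a20 a21 a22 a23 a30 a31 a32 a33 b00 b01 b02 b03 b10 b11 b12 b13 b20 b21 b22 b23 b30 b31 b32 b33 c00 c01 c02 c03 c10 c11 c12 c13 c20 c21 c22 c23 c30 c31 c32 c33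
  have ez33 : H 3 3 1 2 = H 0 2 0 1 - H 1 3 0 1 - H 2 2 1 2 := by linarith only [a00, a01, a02, a03, a10, a11, a12, a13, a20, a21, a22, a23, a30, a31, a32, a33, b00, b01, b02, b03, b10, b11, b12, b13, b20, b21, b22, b23, b30, b31, b32, b33, c00, c01, c02, c03, c10, c11, c12, c13, c20, c21, c22, c23, c30, c31, c32, c33]
  have ez13 : H 1 3 1 2 = - H 1 1 0 1 - H 2 2 0 1 - H 0 2 1 2 := by linarith only [a00, a01, a02, a03, a10, a11, a12, a13, a20, a21, a22, a23, a30, a31, a32, a33, b00, b01, b02, b03, b10, b11, b12, b13, b20, b21, b22, b23, b30, b31, b32, b33, c00, c01, c02, c03, c10, c11, c12, c13, c20, c21, c22, c23, c30, c31, c32, c33]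
  have ez12 : H 1 2 1 2 = H 0 1 0 1 + H 2 3 0 1 + H 0 3 1 2 := by linarith only [a00, a01, a02, a03, a10, a11, a12, a13, a20, a21, a22, a23, a30, a31, a32, a33, b00, b01, b02, b03, b10, b11, b12, b13, b20, b21, b22, b23, b30, b31, b32, b33, c00, c01, c02, c03, c10, c11, c12, c13, c20, c21, c22, c23, c30, c31, c32, c33]
  have ez11 : H 1 1 1 2 = - H 0 2 0 1 + H 1 3 0 1 - H 0 0 1 2 := by linarith only [a00, a01, a02, a03, a10, a11, a12, a13, a20, a21, a22, a23, a30, a31, a32, a33, b00, b01, b02, b03, b10, b11, b12, b13, b20, b21, b22, b23, b30, b31, b32, b33, c00, c01, c02, c03, c10, c11, c12, c13, c20, c21, c22, c23, c30, c31, c32, c33]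
  have ey33 : H 3 3 0 2 = - H 0 1 0 1 - H 2 3 0 1 - H 1 1 0 2 := by linarith only [a00, a01, a02, a03, a10, a11, a12, a13, a20, a21, a22, a23, a30, a31, a32, a33, b00, b01, b02, b03, b10, b11, b12, b13, b20, b21, b22, b23, b30, b31, b32, b33, c00, c01, c02, c03, c10, c11, c12, c13, c20, c21, c22, c23, c30, c31, c32, c33]
  have ey23 : H 2 3 0 2 = - H 1 1 0 1 - H 2 2 0 1 + H 0 1 0 2 := by linarith only [a00, a01, a02, a03, a10, a11, a12, a13, a20, a21, a22, a23, a30, a31, a32, a33, b00, b01, b02, b03, b10, b11, b12, b13, b20, b21, b22, b23, b30, b31, b32, b33, c00, c01, c02, c03, c10, c11, c12, c13, c20, c21, c22, c23, c30, c31, c32, c33]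
  have ey22 : H 2 2 0 2 = H 0 1 0 1 + H 2 3 0 1 - H 0 0 0 2 := by linarith only [a00, a01, a02, a03, a10, a11, a12, a13, a20, a21, a22, a23, a30, a31, a32, a33, b00, b01, b02, b03, b10, b11, b12, b13, b20, b21, b22, b23, b30, b31, b32, b33, c00, c01, c02, c03, c10, c11, c12, c13, c20, c21, c22, c23, c30, c31, c32, c33]
  have ey12 : H 1 2 0 2 = - H 0 2 0 1 + H 1 3 0 1 - H 0 3 0 2 := by linarith only [a00, a01, a02, a03, a10, a11, a12, a13, a20, a21, a22, a23, a30, a31, a32, a33, b00, b01, b02, b03, b10, b11, b12, b13, b20, b21, b22, b23, b30, b31, b32, b33, c00, c01, c02, c03, c10, c11, c12, c13, c20, c21, c22, c23, c30, c31, c32, c33]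
  have ex33 : H 3 3 0 1 = - H 0 0 0 1 - H 1 1 0 1 - H 2 2 0 1 := by linarith only [a00, a01, a02, a03, a10, a11, a12, a13, a20, a21, a22, a23, a30, a31, a32, a33, b00, b01, b02, b03, b10, b11, b12, b13, b20, b21, b22, b23, b30, b31, b32, b33, c00, c01, c02, c03, c10, c11, c12, c13, c20, c21, c22, c23, c30, c31, c32, c33]
  have key : 7 / 12 * (∑ n, ∑ m, ∑ i, ∑ j, H n m i j ^ 2) - ∑ m, ∑ i, ∑ j, H 0 m i j ^ 2 =
      2/3 * (- 2 * H 0 1 0 1 - 7/4 * H 2 3 0 1 + H 0 0 0 2 + 1/4 * H 0 3 1 2) ^ 2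
      + 5 * (H 0 1 0 1 + 7/10 * H 2 3 0 1 + 7/10 * H 1 1 0 2 + 4/5 * H 0 3 1 2) ^ 2
      + 581/120 * (H 2 3 0 1 - 2/83 * H 1 1 0 2 + 37/83 * H 0 3 1 2) ^ 2
      + 735/332 * (H 1 1 0 2 - 5/7 * H 0 3 1 2) ^ 2
      + 2/3 * (2 * H 0 2 0 1 - 7/4 * H 1 3 0 1 - 1/4 * H 0 3 0 2 + H 0 0 1 2) ^ 2
      + 5 * (H 0 2 0 1 - 7/10 * H 1 3 0 1 + 4/5 * H 0 3 0 2 - 7/10 * H 2 2 1 2) ^ 2
      + 581/120 * (H 1 3 0 1 - 37/83 * H 0 3 0 2 - 2/83 * H 2 2 1 2) ^ 2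
      + 375/332 * (H 0 3 0 2 + 7/5 * H 2 2 1 2) ^ 2
      + 2/3 * (H 0 0 0 1 + 7/4 * H 1 1 0 1 + 7/4 * H 2 2 0 1 + 1/4 * H 0 1 0 2 - 1/4 * H 0 2 1 2) ^ 2
      + 175/24 * (H 1 1 0 1 + 17/25 * H 2 2 0 1 - 17/25 * H 0 1 0 2 + 13/25 * H 0 2 1 2) ^ 2
      + 98/25 * (H 2 2 0 1 - 3/28 * H 0 1 0 2 + 17/28 * H 0 2 1 2) ^ 2
      + 15/8 * (H 0 1 0 2 + H 0 2 1 2) ^ 2
      + 2/3 * (H 0 3 0 1 + 5/8 * H 0 2 0 2 + 7/8 * H 1 3 0 2 + 5/8 * H 0 1 1 2 - 7/8 * H 2 3 1 2) ^ 2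
      + 14/3 * (H 1 2 0 1 - 1/8 * H 0 2 0 2 + 1/8 * H 1 3 0 2 + 1/8 * H 0 1 1 2 + 1/8 * H 2 3 1 2) ^ 2
      + 1/3 * (H 0 2 0 2 - 7/8 * H 1 3 0 2 + 11/16 * H 0 1 1 2 + 49/16 * H 2 3 1 2) ^ 2
      + 245/64 * (H 1 3 0 2 - 3/14 * H 0 1 1 2 + 1/2 * H 2 3 1 2) ^ 2 := by
    simp only [Fin.sum_univ_four, Fin.sum_univ_three, s01, s02, s03, s12, s13, s23, t10, t20, t21, a00, a01, a02, a03, a10, a11, a12, a13, a20, a21, a22, a23, a30, a31, a32, a33, b00, b01, b02, b03, b10, b11, b12, b13, b20, b21, b22, b23, b30, b31, b32, b33, c00, c01, c02, c03, c10, c11, c12, c13, c20, c21, c22, c23, c30, c31, c32, c33, ez33, ez13, ez12, ez11, ey33, ey23, ey22, ey12, ex33]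
    ring
  have pos : 0 ≤ 2/3 * (- 2 * H 0 1 0 1 - 7/4 * H 2 3 0 1 + H 0 0 0 2 + 1/4 * H 0 3 1 2) ^ 2
      + 5 * (H 0 1 0 1 + 7/10 * H 2 3 0 1 + 7/10 * H 1 1 0 2 + 4/5 * H 0 3 1 2) ^ 2
      + 581/120 * (H 2 3 0 1 - 2/83 * H 1 1 0 2 + 37/83 * H 0 3 1 2) ^ 2
      + 735/332 * (H 1 1 0 2 - 5/7 * H 0 3 1 2) ^ 2
      + 2/3 * (2 * H 0 2 0 1 - 7/4 * H 1 3 0 1 - 1/4 * H 0 3 0 2 + H 0 0 1 2) ^ 2
      + 5 * (H 0 2 0 1 - 7/10 * H 1 3 0 1 + 4/5 * H 0 3 0 2 - 7/10 * H 2 2 1 2) ^ 2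
      + 581/120 * (H 1 3 0 1 - 37/83 * H 0 3 0 2 - 2/83 * H 2 2 1 2) ^ 2
      + 375/332 * (H 0 3 0 2 + 7/5 * H 2 2 1 2) ^ 2
      + 2/3 * (H 0 0 0 1 + 7/4 * H 1 1 0 1 + 7/4 * H 2 2 0 1 + 1/4 * H 0 1 0 2 - 1/4 * H 0 2 1 2) ^ 2
      + 175/24 * (H 1 1 0 1 + 17/25 * H 2 2 0 1 - 17/25 * H 0 1 0 2 + 13/25 * H 0 2 1 2) ^ 2
      + 98/25 * (H 2 2 0 1 - 3/28 * H 0 1 0 2 + 17/28 * H 0 2 1 2) ^ 2
      + 15/8 * (H 0 1 0 2 + H 0 2 1 2) ^ 2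
      + 2/3 * (H 0 3 0 1 + 5/8 * H 0 2 0 2 + 7/8 * H 1 3 0 2 + 5/8 * H 0 1 1 2 - 7/8 * H 2 3 1 2) ^ 2
      + 14/3 * (H 1 2 0 1 - 1/8 * H 0 2 0 2 + 1/8 * H 1 3 0 2 + 1/8 * H 0 1 1 2 + 1/8 * H 2 3 1 2) ^ 2
      + 1/3 * (H 0 2 0 2 - 7/8 * H 1 3 0 2 + 11/16 * H 0 1 1 2 + 49/16 * H 2 3 1 2) ^ 2
      + 245/64 * (H 1 3 0 2 - 3/14 * H 0 1 1 2 + 1/2 * H 2 3 1 2) ^ 2 := by positivity
  linarith only [key, pos]

/-- right multiplication by a quaternion -/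
def rR (c : Fin 4 → ℝ) : Fin 4 → Fin 4 → ℝ :=
  ![![c 0, -c 1, -c 2, -c 3], ![c 1, c 0, c 3, -c 2], ![c 2, -c 3, c 0, c 1], ![c 3, c 2, -c 1, c 0]]

/-- rotation of the index of a row by a quaternion -/
def rv (c : Fin 4 → ℝ) (u : Fin 4 → ℝ) (a : Fin 4) : ℝ := ∑ m, rR c m a * u m

theorem rv0 (c u : Fin 4 → ℝ) : rv c u 0 = c 0 * u 0 + c 1 * u 1 + c 2 * u 2 + c 3 * u 3 := by
  simp only [rv, rR, Fin.sum_univ_four, Matrix.cons_val]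

theorem rv1 (c u : Fin 4 → ℝ) : rv c u 1 = - c 1 * u 0 + c 0 * u 1 - c 3 * u 2 + c 2 * u 3 := by
  simp only [rv, rR, Fin.sum_univ_four, Matrix.cons_val]; ring

theorem rv2 (c u : Fin 4 → ℝ) : rv c u 2 = - c 2 * u 0 + c 3 * u 1 + c 0 * u 2 - c 1 * u 3 := by
  simp only [rv, rR, Fin.sum_univ_four, Matrix.cons_val]; ring

theorem rv3 (c u : Fin 4 → ℝ) : rv c u 3 = - c 3 * u 0 - c 2 * u 1 + c 1 * u 2 + c 0 * u 3 := by
  simp only [rv, rR, Fin.sum_univ_four, Matrix.cons_val]; ring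

theorem rv_norm (c u : Fin 4 → ℝ) : ∑ a, rv c u a ^ 2 = (∑ n, c n ^ 2) * ∑ a, u a ^ 2 := by
  simp only [Fin.sum_univ_four, rv0, rv1, rv2, rv3]; ring

theorem SDRow.rv {u v w : Fin 4 → ℝ} (h : SDRow u v w) (c : Fin 4 → ℝ) :
    SDRow (rv c u) (rv c v) (rv c w) := by
  constructor
  · simp only [rv0, rv1, rv2, rv3]
    linear_combination c 0 * h.e0 - c 1 * h.e1 - c 2 * h.e2 - c 3 * h.e3
  · simp only [rv0, rv1, rv2, rv3]
    linear_combination c 1 * h.e0 + c 0 * h.e1 - c 3 * h.e2 + c 2 * h.e3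
  · simp only [rv0, rv1, rv2, rv3]
    linear_combination c 2 * h.e0 + c 3 * h.e1 + c 0 * h.e2 - c 1 * h.e3
  · simp only [rv0, rv1, rv2, rv3]
    linear_combination c 3 * h.e0 - c 2 * h.e1 + c 1 * h.e2 + c 0 * h.e3

theorem SDFam.rot {T : Fin 4 → Fin 3 → Fin 3 → ℝ} (h : SDFam T) (c : Fin 4 → ℝ) :
    SDFam (fun a i j => Vale.Agent.P211.rv c (fun m => T m i j) a) :=
  ⟨fun m i j => by simp only [h.sym _ i j], h.row0.rv c, h.row1.rv c, h.row2.rv c⟩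

theorem SDRow.comb {u v w : Fin 4 → Fin 4 → ℝ} (h : ∀ n, SDRow (u n) (v n) (w n))
    (r : Fin 4 → ℝ) : SDRow (fun m => ∑ n, r n * u n m) (fun m => ∑ n, r n * v n m)
      (fun m => ∑ n, r n * w n m) := by
  have h0 := h 0; have h1 := h 1; have h2 := h 2; have h3 := h 3
  constructor
  · simp only [Fin.sum_univ_four]
    linear_combination r 0 * h0.e0 + r 1 * h1.e0 + r 2 * h2.e0 + r 3 * h3.e0
  · simp only [Fin.sum_univ_four]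
    linear_combination r 0 * h0.e1 + r 1 * h1.e1 + r 2 * h2.e1 + r 3 * h3.e1
  · simp only [Fin.sum_univ_four]
    linear_combination r 0 * h0.e2 + r 1 * h1.e2 + r 2 * h2.e2 + r 3 * h3.e2
  · simp only [Fin.sum_univ_four]
    linear_combination r 0 * h0.e3 + r 1 * h1.e3 + r 2 * h2.e3 + r 3 * h3.e3

theorem SDFam.comb {H : Fin 4 → Fin 4 → Fin 3 → Fin 3 → ℝ} (h : ∀ n, SDFam (H n))
    (r : Fin 4 → ℝ) : SDFam (fun m i j => ∑ n, r n * H n m i j) :=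
  ⟨fun m i j => Finset.sum_congr rfl fun n _ => by rw [(h n).sym],
    SDRow.comb (fun n => (h n).row0) r, SDRow.comb (fun n => (h n).row1) r,
    SDRow.comb (fun n => (h n).row2) r⟩

/-- the sharp estimate for the contraction of a tensor in `S^6 ⊗ S^2` with a vector. -/
theorem gram_le {H : Fin 4 → Fin 4 → Fin 3 → Fin 3 → ℝ} (hf : ∀ n, SDFam (H n))
    (hs : ∀ n m i j, H n m i j = H m n i j) (c : Fin 4 → ℝ) :
    ∑ m, ∑ i, ∑ j, (∑ n, c n * H n m i j) ^ 2 ≤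
      7 / 12 * (∑ n, c n ^ 2) * ∑ n, ∑ m, ∑ i, ∑ j, H n m i j ^ 2 := by
  set C : ℝ := ∑ n, c n ^ 2 with hC
  by_cases hC0 : C = 0
  · have hz : ∀ n, c n = 0 := by
      intro n
      have h1 : c n ^ 2 ≤ C := by
        rw [hC]
        exact Finset.single_le_sum (f := fun n => c n ^ 2) (fun i _ => sq_nonneg (c i))
          (Finset.mem_univ n)
      rw [hC0] at h1
      nlinarith [sq_nonneg (c n)]
    simp [hC0, hz]
  have hCpos : 0 < C := lt_of_le_of_ne (Finset.sum_nonneg fun n _ => sq_nonneg (c n)) (Ne.symm hC0)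
  set K : Fin 4 → Fin 4 → Fin 3 → Fin 3 → ℝ := fun a m i j => ∑ n, rR c n a * H n m i j with hK
  set H' : Fin 4 → Fin 4 → Fin 3 → Fin 3 → ℝ := fun a b i j => rv c (fun m => K a m i j) b with hH'
  have hf' : ∀ a, SDFam (H' a) := fun a => (SDFam.comb hf (fun n => rR c n a)).rot c
  have hs' : ∀ a b i j, H' a b i j = H' b a i j := by
    intro a b i j
    simp only [hH', hK, rv, Fin.sum_univ_four]
    rw [hs 1 0, hs 2 0, hs 3 0, hs 2 1, hs 3 1, hs 3 2]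
    ring
  have h0 := gram_e0 hf' hs'
  have n1 : ∀ a i j, ∑ b, H' a b i j ^ 2 = C * ∑ m, K a m i j ^ 2 := fun a i j =>
    rv_norm c (fun m => K a m i j)
  have n2 : ∀ m i j, ∑ a, K a m i j ^ 2 = C * ∑ n, H n m i j ^ 2 := fun m i j =>
    rv_norm c (fun n => H n m i j)
  have sw : ∀ f : Fin 4 → Fin 3 → Fin 3 → ℝ, ∑ m, ∑ i, ∑ j, f m i j =
      ∑ i, ∑ j, ∑ m, f m i j := by
    intro f
    rw [Finset.sum_comm]
    exact Finset.sum_congr rfl fun i _ => Finset.sum_comm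
  have e1 : ∑ m, ∑ i, ∑ j, H' 0 m i j ^ 2 =
      C * ∑ m, ∑ i, ∑ j, (∑ n, c n * H n m i j) ^ 2 := by
    rw [sw, sw]
    simp only [n1, ← Finset.mul_sum]
    congr 1
  have e2 : ∑ n, ∑ m, ∑ i, ∑ j, H' n m i j ^ 2 =
      C ^ 2 * ∑ n, ∑ m, ∑ i, ∑ j, H n m i j ^ 2 := by
    have a1 : ∀ n, ∑ m, ∑ i, ∑ j, H' n m i j ^ 2 = C * ∑ m, ∑ i, ∑ j, K n m i j ^ 2 := by
      intro n
      rw [sw, sw]
      simp only [n1, ← Finset.mul_sum]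
    rw [Finset.sum_congr rfl fun n _ => a1 n, ← Finset.mul_sum, Finset.sum_comm]
    have a2 : ∀ m, ∑ n, ∑ i, ∑ j, K n m i j ^ 2 = C * ∑ n, ∑ i, ∑ j, H n m i j ^ 2 := by
      intro m
      rw [sw, sw]
      simp only [n2, ← Finset.mul_sum]
    rw [Finset.sum_congr rfl fun m _ => a2 m, ← Finset.mul_sum, Finset.sum_comm]
    rw [← mul_assoc, ← sq]
  rw [e1, e2] at h0
  have h1 : C * (∑ m, ∑ i, ∑ j, (∑ n, c n * H n m i j) ^ 2) ≤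
      C * (7 / 12 * C * ∑ n, ∑ m, ∑ i, ∑ j, H n m i j ^ 2) := by
    refine h0.trans (le_of_eq ?_)
    ring
  exact le_of_mul_le_mul_left h1 hCpos

/-- Cauchy-Schwarz for sums over three indices -/
theorem cs3 (f g : Fin 4 → Fin 3 → Fin 3 → ℝ) :
    (∑ m, ∑ i, ∑ j, f m i j * g m i j) ^ 2 ≤
      (∑ m, ∑ i, ∑ j, f m i j ^ 2) * ∑ m, ∑ i, ∑ j, g m i j ^ 2 := by
  have h := Finset.sum_mul_sq_le_sq_mul_sq (Finset.univ : Finset (Fin 4 × Fin 3 × Fin 3))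
    (fun x => f x.1 x.2.1 x.2.2) (fun x => g x.1 x.2.1 x.2.2)
  simp only [Fintype.sum_prod_type] at h
  exact h

/-- the refined Kato inequality -/
theorem kato3 {T : Fin 4 → Fin 3 → Fin 3 → ℝ}
    {H : Fin 4 → Fin 4 → Fin 3 → Fin 3 → ℝ} (hf : ∀ n, SDFam (H n))
    (hs : ∀ n m i j, H n m i j = H m n i j) :
    ∑ n, (∑ m, ∑ i, ∑ j, T m i j * H n m i j) ^ 2 ≤
      7 / 12 * (∑ m, ∑ i, ∑ j, T m i j ^ 2) * ∑ n, ∑ m, ∑ i, ∑ j, H n m i j ^ 2 := by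
  set u : Fin 4 → ℝ := fun n => ∑ m, ∑ i, ∑ j, T m i j * H n m i j with hu
  set U : ℝ := ∑ n, u n ^ 2 with hU
  set TT : ℝ := ∑ m, ∑ i, ∑ j, T m i j ^ 2 with hTT
  set HH : ℝ := ∑ n, ∑ m, ∑ i, ∑ j, H n m i j ^ 2 with hHH
  have h1 : U = ∑ m, ∑ i, ∑ j, T m i j * ∑ n, u n * H n m i j := by
    have e : U = ∑ n, u n * ∑ m, ∑ i, ∑ j, T m i j * H n m i j := by
      rw [hU]; exact Finset.sum_congr rfl fun n _ => by rw [sq]
    rw [e]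
    simp only [Fin.sum_univ_four, Fin.sum_univ_three]
    ring
  have h2 := cs3 T (fun m i j => ∑ n, u n * H n m i j)
  rw [← h1] at h2
  have h3 := gram_le hf hs u
  have hT0 : 0 ≤ TT := Finset.sum_nonneg fun _ _ => Finset.sum_nonneg fun _ _ =>
    Finset.sum_nonneg fun _ _ => sq_nonneg _
  have hH0 : 0 ≤ HH := Finset.sum_nonneg fun _ _ => Finset.sum_nonneg fun _ _ =>
    Finset.sum_nonneg fun _ _ => Finset.sum_nonneg fun _ _ => sq_nonneg _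
  have hU0 : 0 ≤ U := Finset.sum_nonneg fun _ _ => sq_nonneg _
  have h4 : U ^ 2 ≤ TT * (7 / 12 * U * HH) := h2.trans (mul_le_mul_of_nonneg_left h3 hT0)
  clear_value U TT HH
  clear h1 h2 h3
  rcases hU0.eq_or_lt with h0 | h0
  · rw [← h0]
    exact mul_nonneg (mul_nonneg (by norm_num) hT0) hH0
  · have : U * U ≤ U * (7 / 12 * TT * HH) := by
      refine le_trans (le_of_eq (by ring)) (h4.trans (le_of_eq (by ring)))
    exact le_of_mul_le_mul_left this h0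

end Vale.Agent.P211
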