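import Vale.Agent.P211.H844.J3k
set_option linter.all false
namespace Vale.Agent.P211
open S4

theorem tdec_i {a b X Y Z r : ℝ} (ha : a ^ 2 + a * b + b ^ 2 = 3) (hr : r ^ 2 = 3) :
    (Y - X) ^ 2 + (X - Z) ^ 2 + (Z - Y) ^ 2 + 2 * (X ^ 2 + Y ^ 2 + Z ^ 2) =
      10 * (((a * (Y - X) + b * (X - Z) + (-a - b) * (Z - Y)) / 6) ^ 2 + (r * ((b - (-a - b)) * (Y - X) + ((-a - b) - a) * (X - Z) + (a - b) * (Z - Y)) / 18) ^ 2 + (-(r * (X + Y + Z) / 3)) ^ 2 / 5) := by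
  linear_combination (5 / 9 * X * Y * a * b + 5 / 9 * X * Y * b ^ 2 + 5 / 9 * X * Z * a * b + 5 / 9 * X * Z * a ^ 2 - 5 / 9 * X ^ 2 * a * b - 5 / 18 * X ^ 2 * a ^ 2 - 5 / 18 * X ^ 2 * b ^ 2 - 5 / 9 * Y * Z * a * b - 5 / 18 * Y ^ 2 * b ^ 2 - 5 / 18 * Z ^ 2 * a ^ 2 - 4 / 9 * X * Y - 4 / 9 * X * Z - 2 / 9 * X ^ 2 - 4 / 9 * Y * Z - 2 / 9 * Y ^ 2 - 2 / 9 * Z ^ 2) * hr + (10 / 9 * X * Y + 10 / 9 * X * Z - 10 / 9 * X ^ 2 + 10 / 9 * Y * Z - 10 / 9 * Y ^ 2 - 10 / 9 * Z ^ 2) * ha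

theorem tdec_ii {a b X Y Z r : ℝ} (ha : a ^ 2 + a * b + b ^ 2 = 3) (hr : r ^ 2 = 3) :
    a * (Y - X) ^ 2 + b * (X - Z) ^ 2 + (-a - b) * (Z - Y) ^ 2 - (-a - b) * X ^ 2 - b * Y ^ 2 - a * Z ^ 2 =
      8 * (a * b * (-a - b) / 2) * (((a * (Y - X) + b * (X - Z) + (-a - b) * (Z - Y)) / 6) ^ 2 - (r * ((b - (-a - b)) * (Y - X) + ((-a - b) - a) * (X - Z) + (a - b) * (Z - Y)) / 18) ^ 2) + 16 * (r * (a ^ 2 * (b - (-a - b)) + b ^ 2 * ((-a - b) - a) + (-a - b) ^ 2 * (a - b)) / 18) * ((a * (Y - X) + b * (X - Z) + (-a - b) * (Z - Y)) / 6) * (r * ((b - (-a - b)) * (Y - X) + ((-a - b) - a) * (X - Z) + (a - b) * (Z - Y)) / 18) + 4 * (r * ((b - (-a - b)) * (Y - X) + ((-a - b) - a) * (X - Z) + (a - b) * (Z - Y)) / 18) * (-(r * (X + Y + Z) / 3)) := by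
  linear_combination (2 / 81 * X * Y * a * b ^ 4 + 4 / 81 * X * Y * a ^ 2 * b ^ 3 + 10 / 27 * X * Y * a ^ 3 * b ^ 2 + 28 / 81 * X * Y * a ^ 4 * b + 8 / 81 * X * Y * a ^ 5 + 28 / 81 * X * Z * a * b ^ 4 + 10 / 27 * X * Z * a ^ 2 * b ^ 3 + 4 / 81 * X * Z * a ^ 3 * b ^ 2 + 2 / 81 * X * Z * a ^ 4 * b + 8 / 81 * X * Z * b ^ 5 - 5 / 27 * X ^ 2 * a * b ^ 4 - 17 / 81 * X ^ 2 * a ^ 2 * b ^ 3 - 17 / 81 * X ^ 2 * a ^ 3 * b ^ 2 - 5 / 27 * X ^ 2 * a ^ 4 * b - 4 / 81 * X ^ 2 * a ^ 5 - 4 / 81 * X ^ 2 * b ^ 5 - 4 / 27 * Y * Z * a * b ^ 4 + 2 / 81 * Y * Z * a ^ 2 * b ^ 3 + 2 / 81 * Y * Z * a ^ 3 * b ^ 2 - 4 / 27 * Y * Z * a ^ 4 * b - 8 / 81 * Y * Z * a ^ 5 - 8 / 81 * Y * Z * b ^ 5 + 5 / 81 * Y ^ 2 * a * b ^ 4 - 1 / 27 * Y ^ 2 * a ^ 2 * b ^ 3 - 16 / 81 * Y ^ 2 * a ^ 3 * b ^ 2 - 8 / 81 * Y ^ 2 * a ^ 4 *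 b + 4 / 81 * Y ^ 2 * b ^ 5 - 8 / 81 * Z ^ 2 * a * b ^ 4 - 16 / 81 * Z ^ 2 * a ^ 2 * b ^ 3 - 1 / 27 * Z ^ 2 * a ^ 3 * b ^ 2 + 5 / 81 * Z ^ 2 * a ^ 4 * b + 4 / 81 * Z ^ 2 * a ^ 5 - 2 / 9 * X * Y * a - 2 / 9 * X * Z * b - 2 / 9 * X ^ 2 * a - 2 / 9 * X ^ 2 * b + 2 / 9 * Y * Z * a + 2 / 9 * Y * Z * b + 2 / 9 * Y ^ 2 * b + 2 / 9 * Z ^ 2 * a) * hr + (8 / 27 * X * Y * a * b ^ 2 + 8 / 27 * X * Y * a ^ 2 * b + 8 / 27 * X * Y * a ^ 3 + 8 / 27 * X * Z * a * b ^ 2 + 8 / 27 * X * Z * a ^ 2 * b + 8 / 27 * X * Z * b ^ 3 - 8 / 27 * X ^ 2 * a * b ^ 2 - 8 / 27 * X ^ 2 * a ^ 2 * b - 4 / 27 * X ^ 2 * a ^ 3 - 4 / 27 * X ^ 2 * b ^ 3 - 16 / 27 * Y * Z * a * b ^ 2 - 16 / 27 * Y * Z * a ^ 2 * b - 8 / 27 * Y * Z * a ^ 3 - 8 / 27 * Y * Z * b ^ 3 + 4 / 27 * Y ^ 2 * a * b ^ 2 + 4 / 27 * Y ^ 2 * a ^ 2 * b + 4 / 27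 * Y ^ 2 * b ^ 3 + 4 / 27 * Z ^ 2 * a * b ^ 2 + 4 / 27 * Z ^ 2 * a ^ 2 * b + 4 / 27 * Z ^ 2 * a ^ 3 + 8 / 9 * X * Y * a + 8 / 9 * X * Z * b - 4 / 9 * X ^ 2 * a - 4 / 9 * X ^ 2 * b - 8 / 9 * Y * Z * a - 8 / 9 * Y * Z * b + 4 / 9 * Y ^ 2 * b + 4 / 9 * Z ^ 2 * a) * ha

theorem tdec_iii {a b X Y Z r : ℝ} (ha : a ^ 2 + a * b + b ^ 2 = 3) (hr : r ^ 2 = 3) :
    a ^ 2 * (Y - X) + b ^ 2 * (X - Z) + (-a - b) ^ 2 * (Z - Y) = 6 * ((a * b * (-a - b) / 2) * ((a * (Y - X) + b * (X - Z) + (-a - b) * (Z - Y)) / 6) + (r * (a ^ 2 * (b - (-a - b)) + b ^ 2 * ((-a - b) - a) + (-a - b) ^ 2 * (a - b)) / 18) * (r * ((b - (-a - b)) * (Y - X) + ((-a - b) - a) * (X - Z) + (a - b) * (Z - Y)) / 18)) := by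
  linear_combination (-5 / 18 * X * a * b ^ 3 + 5 / 18 * X * a ^ 3 * b + 1 / 9 * X * a ^ 4 - 1 / 9 * X * b ^ 4 + 1 / 6 * Y * a * b ^ 3 - 1 / 6 * Y * a ^ 2 * b ^ 2 - 1 / 9 * Y * a ^ 3 * b + 1 / 9 * Y * b ^ 4 + 1 / 9 * Z * a * b ^ 3 + 1 / 6 * Z * a ^ 2 * b ^ 2 - 1 / 6 * Z * a ^ 3 * b - 1 / 9 * Z * a ^ 4) * hr + (1 / 3 * X * a ^ 2 - 1 / 3 * X * b ^ 2 + 2 / 3 * Y * a * b + 1 / 3 * Y * b ^ 2 - 2 / 3 * Z * a * b - 1 / 3 * Z * a ^ 2) * ha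

theorem tdec_iv {a b X Y Z r : ℝ} (ha : a ^ 2 + a * b + b ^ 2 = 3) (hr : r ^ 2 = 3) :
    (a * b * (-a - b) / 2) ^ 2 + (r * (a ^ 2 * (b - (-a - b)) + b ^ 2 * ((-a - b) - a) + (-a - b) ^ 2 * (a - b)) / 18) ^ 2 = 1 := by
  linear_combination (1 / 27 * a * b ^ 5 - 1 / 108 * a ^ 2 * b ^ 4 - 13 / 162 * a ^ 3 * b ^ 3 - 1 / 108 * a ^ 4 * b ^ 2 + 1 / 27 * a ^ 5 * b + 1 / 81 * a ^ 6 + 1 / 81 * b ^ 6) * hr + (2 / 27 * a * b ^ 3 + 1 / 9 * a ^ 2 * b ^ 2 + 2 / 27 * a ^ 3 * b + 1 / 27 * a ^ 4 + 1 / 27 * b ^ 4 + 1 / 9 * a * b + 1 / 9 * a ^ 2 + 1 / 9 * b ^ 2 + 1 / 3) * ha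

/-- the parameter kappa -/
noncomputable def kapF (a b : ℝ) : ℝ := a * b * (-a - b) / 2
/-- the parameter sigma -/
noncomputable def sigF (a b r : ℝ) : ℝ :=
  r * (a ^ 2 * (b - (-a - b)) + b ^ 2 * ((-a - b) - a) + (-a - b) ^ 2 * (a - b)) / 18

theorem kapF_sigF {a b r : ℝ} (ha : a ^ 2 + a * b + b ^ 2 = 3) (hr : r ^ 2 = 3) :
    kapF a b ^ 2 + sigF a b r ^ 2 = 1 :=
  tdec_iv (X := 0) (Y := 0) (Z := 0) ha hr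

/-- one block of the decomposition -/
theorem block_dec (a b r : ℝ) (ha : a ^ 2 + a * b + b ^ 2 = 3) (hr : r ^ 2 = 3) (X Y Z : ℝ) :
    ∃ g z t : ℝ,
      (Y - X) ^ 2 + (X - Z) ^ 2 + (Z - Y) ^ 2 + 2 * (X ^ 2 + Y ^ 2 + Z ^ 2) =
        10 * (g ^ 2 + z ^ 2 + t ^ 2 / 5) ∧
      a * (Y - X) ^ 2 + b * (X - Z) ^ 2 + (-a - b) * (Z - Y) ^ 2 - (-a - b) * X ^ 2 - b * Y ^ 2
        - a * Z ^ 2 = 8 * kapF a b * (g ^ 2 - z ^ 2) + 16 * sigF a b r * g * z + 4 * z * t ∧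
      a * (Y - X) + b * (X - Z) + (-a - b) * (Z - Y) = 6 * g ∧
      a ^ 2 * (Y - X) + b ^ 2 * (X - Z) + (-a - b) ^ 2 * (Z - Y) =
        6 * (kapF a b * g + sigF a b r * z) :=
  ⟨(a * (Y - X) + b * (X - Z) + (-a - b) * (Z - Y)) / 6,
    r * ((b - (-a - b)) * (Y - X) + ((-a - b) - a) * (X - Z) + (a - b) * (Z - Y)) / 18,
    -(r * (X + Y + Z) / 3), tdec_i ha hr, tdec_ii ha hr, by ring, tdec_iii ha hr⟩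

/-- decomposition of the covariant derivative of the self-dual Weyl curvature in an eigenframe. -/
theorem fam_dec {T : Fin 4 → Fin 3 → Fin 3 → ℝ} (hT : SDFam T) (a b r : ℝ)
    (ha : a ^ 2 + a * b + b ^ 2 = 3) (hr : r ^ 2 = 3) :
    ∃ g z t : Fin 4 → ℝ,
      (∑ m, ∑ i, ∑ j, T m i j ^ 2 = 10 * ((∑ m, g m ^ 2) + (∑ m, z m ^ 2) + (∑ m, t m ^ 2) / 5)) ∧
      (∑ m, ∑ i, ∑ j, (![a, b, -a - b] : Fin 3 → ℝ) i * T m i j ^ 2 =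
        8 * kapF a b * ((∑ m, g m ^ 2) - ∑ m, z m ^ 2) + 16 * sigF a b r * (∑ m, g m * z m)
          + 4 * ∑ m, z m * t m) ∧
      (∀ m, a * T m 0 0 + b * T m 1 1 + (-a - b) * T m 2 2 = 6 * g m) ∧
      (∀ m, a ^ 2 * T m 0 0 + b ^ 2 * T m 1 1 + (-a - b) ^ 2 * T m 2 2 =
        6 * (kapF a b * g m + sigF a b r * z m)) := by
  obtain ⟨⟨a0, a1, a2, a3⟩, ⟨b0, b1, b2, b3⟩, ⟨c0, c1, c2, c3⟩⟩ := hT.entries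
  have s10 := fun m => hT.sym m 1 0
  have s20 := fun m => hT.sym m 2 0
  have s21 := fun m => hT.sym m 2 1
  obtain ⟨g0, z0, t0, p0, q0, u0, v0⟩ := block_dec a b r ha hr (T 3 0 1) (T 2 0 2) (T 1 1 2)
  obtain ⟨g1, z1, t1, p1, q1, u1, v1⟩ := block_dec a b r ha hr (T 2 0 1) (-T 3 0 2) (-T 0 1 2)
  obtain ⟨g2, z2, t2, p2, q2, u2, v2⟩ := block_dec a b r ha hr (-T 1 0 1) (-T 0 0 2) (T 3 1 2)
  obtain ⟨g3, z3, t3, p3, q3, u3, v3⟩ := block_dec a b r ha hr (-T 0 0 1) (T 1 0 2) (-T 2 1 2)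
  refine ⟨![g0, g1, g2, g3], ![z0, z1, z2, z3], ![t0, t1, t2, t3], ?_, ?_, ?_, ?_⟩
  · simp only [Fin.sum_univ_four, Fin.sum_univ_three, Matrix.cons_val, s10, s20, s21, a0, a1, a2,
      a3, b0, b1, b2, b3, c0, c1, c2, c3]
    linear_combination p0 + p1 + p2 + p3
  · simp only [Fin.sum_univ_four, Fin.sum_univ_three, Matrix.cons_val, s10, s20, s21, a0, a1, a2,
      a3, b0, b1, b2, b3, c0, c1, c2, c3]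
    linear_combination q0 + q1 + q2 + q3
  · intro m
    fin_cases m <;> simp only [Fin.zero_eta, Fin.mk_one, Fin.reduceFinMk, Matrix.cons_val]
    · linear_combination u0 + a * a0 + b * b0 + (-a - b) * c0
    · linear_combination u1 + a * a1 + b * b1 + (-a - b) * c1
    · linear_combination u2 + a * a2 + b * b2 + (-a - b) * c2
    · linear_combination u3 + a * a3 + b * b3 + (-a - b) * c3
  · intro m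
    fin_cases m <;> simp only [Fin.zero_eta, Fin.mk_one, Fin.reduceFinMk, Matrix.cons_val]
    · linear_combination v0 + a ^ 2 * a0 + b ^ 2 * b0 + (-a - b) ^ 2 * c0
    · linear_combination v1 + a ^ 2 * a1 + b ^ 2 * b1 + (-a - b) ^ 2 * c1
    · linear_combination v2 + a ^ 2 * a2 + b ^ 2 * b2 + (-a - b) ^ 2 * c2
    · linear_combination v3 + a ^ 2 * a3 + b ^ 2 * b3 + (-a - b) ^ 2 * c3

/-- normalisation of the eigenvalues -/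
theorem exists_ab (w0 w1 w2 : ℝ) (h : w0 + w1 + w2 = 0) :
    ∃ N a b : ℝ, 0 ≤ N ∧ a ^ 2 + a * b + b ^ 2 = 3 ∧ w0 = N * a ∧ w1 = N * b ∧
      w2 = N * (-a - b) := by
  set N : ℝ := Real.sqrt ((w0 ^ 2 + w0 * w1 + w1 ^ 2) / 3) with hN
  have hq : 0 ≤ (w0 ^ 2 + w0 * w1 + w1 ^ 2) / 3 := by nlinarith [sq_nonneg (w0 + w1), sq_nonneg w0, sq_nonneg w1]
  have hN2 : N ^ 2 = (w0 ^ 2 + w0 * w1 + w1 ^ 2) / 3 := Real.sq_sqrt hq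
  have hN0 : 0 ≤ N := Real.sqrt_nonneg _
  rcases hN0.eq_or_lt with h0 | h0
  · refine ⟨0, 2, -1, le_refl _, by norm_num, ?_, ?_, ?_⟩
    all_goals
      rw [← h0] at hN2
      have e0 : w0 = 0 := by nlinarith [sq_nonneg (w0 + 2 * w1), sq_nonneg w0, sq_nonneg w1]
      have e1 : w1 = 0 := by nlinarith [sq_nonneg (w1 + 2 * w0), sq_nonneg w0, sq_nonneg w1]
      linarith
  · refine ⟨N, w0 / N, w1 / N, hN0, ?_, ?_, ?_, ?_⟩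
    · field_simp
      linear_combination (-3) * hN2
    · field_simp
    · field_simp
    · field_simp
      linarith

end Vale.Agent.P211
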