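import Vale.Agent.P211.H844.J3g
import Vale.Agent.P211.H844.J3l

set_option linter.all false

/-! P211: the equations satisfied by the self-dual Weyl curvature of an Einstein metric. -/

namespace Vale.Agent.P211.S4

open Topology Filter MeasureTheory Set
open scoped ContDiff

variable {M 𝒪 V : Type*} [TopologicalSpace M] [CommRing 𝒪] [Algebra ℝ 𝒪]
    [AddCommGroup V] [Module 𝒪 V] {G : Geo2 M 𝒪 V} {om : V → V → V → V → 𝒪}

theorem ev_al (G : Geo2 M 𝒪 V) (p : M) (c : ℝ) : G.ev p (algebraMap ℝ 𝒪 c) = c := by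
  rw [AlgHom.commutes]; simp

theorem lap_al_mul (G : Geo2 M 𝒪 V) {p : M} {F : Fin 4 → V} (hS : G.Sync p F) (c : ℝ) (f : 𝒪) :
    G.ev p (G.lap (algebraMap ℝ 𝒪 c * f)) = c * G.ev p (G.lap f) := by
  rw [lap_sync _ hS, lap_sync _ hS, Finset.mul_sum]
  refine Finset.sum_congr rfl fun m _ => ?_
  have h1 : ∀ X, G.D X (algebraMap ℝ 𝒪 c * f) = algebraMap ℝ 𝒪 c * G.D X f := by
    intro X
    rw [G.D_mul, G.D_const]; ring
  rw [h1, G.D_mul, G.D_const, zero_mul, zero_add, map_mul, ev_al]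

theorem lap_sub_al (G : Geo2 M 𝒪 V) {p : M} {F : Fin 4 → V} (hS : G.Sync p F) (c : ℝ) (f : 𝒪) :
    G.ev p (G.lap (f - algebraMap ℝ 𝒪 c)) = G.ev p (G.lap f) := by
  rw [lap_sync _ hS, lap_sync _ hS]
  refine Finset.sum_congr rfl fun m _ => ?_
  rw [G.D_sub, G.D_const, sub_zero]

/-- The three basic functions: `n = |W|^2 / 6`, `dl = det W`, `b = |∇W|^2 / 10`, for the
self-dual Weyl curvature `W`. -/
structure Basic (G : Geo2 M 𝒪 V) (om : V → V → V → V → 𝒪) (n dl b : 𝒪) : Prop where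
  n_ev : ∀ p F, Pos G om p F → G.ev p n = nW (Ab (G.rr p F))
  d_ev : ∀ p F, Pos G om p F → G.ev p dl = dW (Ab (G.rr p F))
  b_ev : ∀ p F, Pos G om p F → G.ev p b = nT (G.dd p F) / 10
  lap_n : ∀ p, G.ev p (G.lap n) = 10 / 3 * G.ev p b + 12 * G.ev p n - 6 * G.ev p dl

theorem exists_sync (ho : Orient G om) (p : M) : ∃ F, G.Sync p F ∧ ∀ᶠ q in 𝓝 p, Pos G om q F := by
  obtain ⟨F₀, hF₀⟩ := exists_pos ho p
  obtain ⟨F, h1, -, h2⟩ := pos_sync ho hF₀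
  exact ⟨F, h1, h2⟩

theorem exists_basic (hE : G.Einstein 3) (ho : Orient G om) : ∃ n dl b : 𝒪, Basic G om n dl b := by
  obtain ⟨a, ha⟩ := exists_a hE ho
  obtain ⟨P, hP⟩ := exists_P hE ho
  obtain ⟨n, hn⟩ : ∃ n : 𝒪, n = algebraMap ℝ 𝒪 (1 / 6) * (a - algebraMap ℝ 𝒪 3) := ⟨_, rfl⟩
  obtain ⟨b, hb⟩ : ∃ b : 𝒪, b = algebraMap ℝ 𝒪 (1 / 10) * P := ⟨_, rfl⟩
  obtain ⟨dl, hdl⟩ : ∃ dl : 𝒪, dl = algebraMap ℝ 𝒪 (1 / 6) * (algebraMap ℝ 𝒪 (10 / 3) * b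
    + algebraMap ℝ 𝒪 12 * n - G.lap n) := ⟨_, rfl⟩
  have n_ev : ∀ p F, Pos G om p F → G.ev p n = nW (Ab (G.rr p F)) := by
    intro p F hF
    rw [hn, map_mul, map_sub, ev_al, ev_al, ha p F hF, nW, nA]
    ring
  have b_ev : ∀ p F, Pos G om p F → G.ev p b = nT (G.dd p F) / 10 := by
    intro p F hF
    rw [hb, map_mul, ev_al, hP p F hF]
    ring
  have dl_ev : ∀ p, G.ev p dl =
      1 / 6 * (10 / 3 * G.ev p b + 12 * G.ev p n - G.ev p (G.lap n)) := by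
    intro p
    rw [hdl, map_mul, map_sub, map_add, map_mul, map_mul, ev_al, ev_al, ev_al]
  have key : ∀ p F, G.Sync p F → (∀ᶠ q in 𝓝 p, Pos G om q F) →
      G.ev p (G.lap n) = 10 / 3 * G.ev p b + 12 * G.ev p n - 6 * dW (Ab (G.rr p F)) := by
    intro p F hS hF
    have hJ := sdJet (Geom.einsteinJet hE hS)
    have h1 : G.ev p (G.lap n) = 1 / 6 * G.ev p (G.lap a) := by
      rw [hn, lap_al_mul G hS, lap_sub_al G hS]
    rw [h1, lap_sync a hS, dda_sync ha hE hS hF, b_ev p F hF.self_of_nhds,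
      n_ev p F hF.self_of_nhds]
    have h2 : ∀ i j, Ab (fun k l k' l' => ∑ m, G.ss p F m m k l k' l') i j =
        lapC 3 (Ab (G.rr p F)) i j := by
      intro i j
      rw [← hJ.lap i j]
      simp only [a67_Ab, Finset.sum_add_distrib]
    have h3 := lapC_ip hJ.sym hJ.tr
    simp only [h2, h3, nT, nA]
    ring
  refine ⟨n, dl, b, n_ev, ?_, b_ev, ?_⟩
  · intro p F hF
    obtain ⟨F', hS, hEq, hP'⟩ := pos_sync ho hF
    have hrr : G.rr p F' = G.rr p F := by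
      funext i j k l
      exact G.congrAll G.isT4_Rm (hEq i) (hEq j) (hEq k) (hEq l)
    rw [dl_ev, key p F' hS hP', hrr]
    ring
  · intro p
    rw [dl_ev]
    ring

/-- the determinant as a function -/
def detx (G : Geo2 M 𝒪 V) (F : Fin 4 → V) : 𝒪 :=
  (a67_x G F 0 0 - 1) * ((a67_x G F 1 1 - 1) * (a67_x G F 2 2 - 1)
      - a67_x G F 1 2 * a67_x G F 2 1)
    - a67_x G F 0 1 * (a67_x G F 1 0 * (a67_x G F 2 2 - 1) - a67_x G F 1 2 * a67_x G F 2 0)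
    + a67_x G F 0 2 * (a67_x G F 1 0 * a67_x G F 2 1 - (a67_x G F 1 1 - 1) * a67_x G F 2 0)

theorem ev_detx (F : Fin 4 → V) (q : M) : G.ev q (detx G F) = dW (Ab (G.rr q F)) := by
  simp only [detx, dW, map_add, map_sub, map_mul, map_one, a67_ev_x]

theorem D_one (G : Geo2 M 𝒪 V) (X : V) : G.D X 1 = 0 := by
  have := G.D_const X 1
  rwa [map_one] at this

/-- first derivatives of `det W` in an eigenframe -/
theorem ddl_sync {n dl b : 𝒪} (hB : Basic G om n dl b) {p : M}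
    {F : Fin 4 → V} (hS : G.Sync p F) (hP : ∀ᶠ q in 𝓝 p, Pos G om q F)
    (hd : ∀ i j : Fin 3, i ≠ j → Ab (G.rr p F) i j = 0) (m : Fin 4) :
    G.ev p (G.D (F m) dl) =
      (Ab (G.rr p F) 1 1 - 1) * (Ab (G.rr p F) 2 2 - 1) * Ab (G.dd p F m) 0 0
      + (Ab (G.rr p F) 0 0 - 1) * (Ab (G.rr p F) 2 2 - 1) * Ab (G.dd p F m) 1 1
      + (Ab (G.rr p F) 0 0 - 1) * (Ab (G.rr p F) 1 1 - 1) * Ab (G.dd p F m) 2 2 := by
  have h1 : ∀ᶠ q in 𝓝 p, G.ev q dl = G.ev q (detx G F) := by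
    filter_upwards [hP] with q hq
    rw [hB.d_ev q F hq, ev_detx]
  rw [G.D_local p dl (detx G F) h1 (F m)]
  have h01 := hd 0 1 (by decide)
  have h02 := hd 0 2 (by decide)
  have h10 := hd 1 0 (by decide)
  have h12 := hd 1 2 (by decide)
  have h20 := hd 2 0 (by decide)
  have h21 := hd 2 1 (by decide)
  simp only [detx, G.D_add, G.D_sub, G.D_mul, D_one, map_add, map_sub, map_mul, map_one, map_zero,
    a67_ev_x, a67_ev_D_x hS, h01, h02, h10, h12, h20, h21]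
  ring

theorem rot_diag (T : Fin 4 → Fin 4 → ℝ) (hT : ∀ i j, T i j = - T j i) {r : Arr4} {c : ℝ}
    (h : IsAlgCurv r) (ht : ∀ j k, ∑ i, r i j k i = if j = k then c else 0)
    (hd : ∀ i j : Fin 3, i ≠ j → Ab r i j = 0) (i : Fin 3) :
    Ab (a67_rot T r) i i = 0 := by
  obtain ⟨h1, -⟩ := eq_einArr h ht
  have h2 := rot_ein T hT (Pm r) (Sm r) i i
  rw [← h1] at h2
  rw [h2]
  have h01 := hd 0 1 (by decide)
  have h02 := hd 0 2 (by decide)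
  have h10 := hd 1 0 (by decide)
  have h12 := hd 1 2 (by decide)
  have h20 := hd 2 0 (by decide)
  have h21 := hd 2 1 (by decide)
  fin_cases i <;> simp [Fin.sum_univ_three, rho3, h01, h02, h10, h12, h20, h21]

theorem ddx_sync {p : M} {F : Fin 4 → V} (hE : G.Einstein 3) (hS : G.Sync p F)
    (hd : ∀ i j : Fin 3, i ≠ j → Ab (G.rr p F) i j = 0) (i : Fin 3) :
    ∑ m, G.ev p (G.D (F m) (G.D (F m) (a67_x G F i i))) = lapC 3 (Ab (G.rr p F)) i i := by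
  have hE0 := Geom.einsteinJet hE hS
  have hJ := sdJet hE0
  rw [a67_ev_lap_x hS, rot_diag _ (Geom.Th_anti hS) hE0.hr hE0.hrt hd, add_zero, ← hJ.lap i i]
  simp only [a67_Ab, Finset.sum_add_distrib]

/-- the Laplacian of `det W` in an eigenframe -/
theorem lapd_sync (hE : G.Einstein 3) {n dl b : 𝒪} (hB : Basic G om n dl b) {p : M}
    {F : Fin 4 → V} (hS : G.Sync p F) (hP : ∀ᶠ q in 𝓝 p, Pos G om q F)
    (hd : ∀ i j : Fin 3, i ≠ j → Ab (G.rr p F) i j = 0) :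
    G.ev p (G.lap dl) =
      (Ab (G.rr p F) 1 1 - 1) * (Ab (G.rr p F) 2 2 - 1) * lapC 3 (Ab (G.rr p F)) 0 0
      + (Ab (G.rr p F) 0 0 - 1) * (Ab (G.rr p F) 2 2 - 1) * lapC 3 (Ab (G.rr p F)) 1 1
      + (Ab (G.rr p F) 0 0 - 1) * (Ab (G.rr p F) 1 1 - 1) * lapC 3 (Ab (G.rr p F)) 2 2
      + 2 * ∑ m, ((Ab (G.rr p F) 0 0 - 1) * (Ab (G.dd p F m) 1 1 * Ab (G.dd p F m) 2 2
          - Ab (G.dd p F m) 1 2 * Ab (G.dd p F m) 2 1)
        + (Ab (G.rr p F) 1 1 - 1) * (Ab (G.dd p F m) 0 0 * Ab (G.dd p F m) 2 2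
          - Ab (G.dd p F m) 0 2 * Ab (G.dd p F m) 2 0)
        + (Ab (G.rr p F) 2 2 - 1) * (Ab (G.dd p F m) 0 0 * Ab (G.dd p F m) 1 1
          - Ab (G.dd p F m) 0 1 * Ab (G.dd p F m) 1 0)) := by
  have h1 : ∀ᶠ q in 𝓝 p, G.ev q dl = G.ev q (detx G F) := by
    filter_upwards [hP] with q hq
    rw [hB.d_ev q F hq, ev_detx]
  have h2 : ∀ n, ∀ᶠ q in 𝓝 p, G.ev q (G.D (F n) dl) = G.ev q (G.D (F n) (detx G F)) := by
    intro n
    filter_upwards [h1.eventually_nhds] with q hq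
    exact G.D_local q _ _ hq (F n)
  have h01 := hd 0 1 (by decide)
  have h02 := hd 0 2 (by decide)
  have h10 := hd 1 0 (by decide)
  have h12 := hd 1 2 (by decide)
  have h20 := hd 2 0 (by decide)
  have h21 := hd 2 1 (by decide)
  rw [lap_sync dl hS, ← ddx_sync hE hS hd 0, ← ddx_sync hE hS hd 1, ← ddx_sync hE hS hd 2,
    Finset.mul_sum, Finset.mul_sum, Finset.mul_sum, Finset.mul_sum, ← Finset.sum_add_distrib,
    ← Finset.sum_add_distrib, ← Finset.sum_add_distrib]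
  refine Finset.sum_congr rfl fun m _ => ?_
  rw [G.D_local p _ _ (h2 m) (F m)]
  simp only [detx, G.D_add, G.D_sub, G.D_mul, D_one, G.D_zero, map_add, map_sub, map_mul, map_one,
    map_zero, a67_ev_x, a67_ev_D_x hS, h01, h02, h10, h12, h20, h21]
  ring

theorem dn_sync {n dl b : 𝒪} (hB : Basic G om n dl b) {p : M}
    {F : Fin 4 → V} (hS : G.Sync p F) (hP : ∀ᶠ q in 𝓝 p, Pos G om q F) (m : Fin 4) :
    G.ev p (G.D (F m) n) = 1 / 3 * ∑ i, ∑ j, Ab (G.rr p F) i j * Ab (G.dd p F m) i j := by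
  have h := da_sync (G := G) (om := om) (a := algebraMap ℝ 𝒪 6 * n + algebraMap ℝ 𝒪 3)
    (fun p F hF => by
      rw [map_add, map_mul, ev_al, ev_al, hB.n_ev p F hF, nW, nA]; ring) hS hP m
  rw [G.D_add, G.D_mul, G.D_const, G.D_const, zero_mul, zero_add, add_zero, map_mul, ev_al] at h
  linarith only [h]

theorem db_sync {n dl b : 𝒪} (hB : Basic G om n dl b) {p : M}
    {F : Fin 4 → V} (hS : G.Sync p F) (hP : ∀ᶠ q in 𝓝 p, Pos G om q F) (m : Fin 4) :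
    G.ev p (G.D (F m) b) =
      1 / 5 * ∑ k, ∑ i, ∑ j, Ab (G.dd p F k) i j * Ab (G.ss p F m k) i j := by
  have h := dP_sync (G := G) (om := om) (b := algebraMap ℝ 𝒪 10 * b)
    (fun p F hF => by
      rw [map_mul, ev_al, hB.b_ev p F hF]; ring) hS hP m
  rw [G.D_mul, G.D_const, zero_mul, zero_add, map_mul, ev_al] at h
  linarith only [h]

theorem lb_sync (hE : G.Einstein 3) {n dl b : 𝒪} (hB : Basic G om n dl b) {p : M}
    {F : Fin 4 → V} (hS : G.Sync p F) (hP : ∀ᶠ q in 𝓝 p, Pos G om q F) :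
    G.ev p (G.lap b) = 1 / 5 * ∑ n, ∑ m, ∑ i, ∑ j, Ab (G.ss p F n m) i j ^ 2
      + 1 / 5 * ∑ m, ∑ i, ∑ j, Ab (G.dd p F m) i j * Ab (lap3 (G.rr p F) (G.dd p F) m) i j := by
  have h := ddP_sync (G := G) (om := om) (b := algebraMap ℝ 𝒪 10 * b)
    (fun p F hF => by
      rw [map_mul, ev_al, hB.b_ev p F hF]; ring) hE hS hP
  have h2 := lap_al_mul G hS 10 b
  rw [lap_sync _ hS, h] at h2
  linarith only [h2]

/-- the pointwise data and equations of the self-dual Weyl curvature -/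
structure SidePt (G : Geo2 M 𝒪 V) (p : M) (n dl b : 𝒪) (N κ σ Q : ℝ) (g z t u : V) : Prop where
  N0 : 0 ≤ N
  ks : κ ^ 2 + σ ^ 2 = 1
  n_eq : G.ev p n = N ^ 2
  d_eq : G.ev p dl = 2 * κ * N ^ 3
  b_eq : G.ev p b = G.ev p (G.g g g) + G.ev p (G.g z z) + G.ev p (G.g t t) / 5
  dn : ∀ X, G.ev p (G.D X n) = 2 * N * G.ev p (G.g g X)
  dd : ∀ X, G.ev p (G.D X dl) = 6 * N ^ 2 * (κ * G.ev p (G.g g X) + σ * G.ev p (G.g z X))
  db : ∀ X, G.ev p (G.D X b) = G.ev p (G.g u X) + 3 * N * G.ev p (G.g g X)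
    - 3 * N ^ 2 * (κ * G.ev p (G.g g X) + σ * G.ev p (G.g z X))
  lap_n : G.ev p (G.lap n) = 10 / 3 * G.ev p b + 12 * N ^ 2 - 12 * κ * N ^ 3
  lap_b : G.ev p (G.lap b) = 2 * Q + 18 * (N ^ 2 - 2 * κ * N ^ 3 + N ^ 4) + 26 * G.ev p b
    - 4 * N * (8 * κ * (G.ev p (G.g g g) - G.ev p (G.g z z)) + 16 * σ * G.ev p (G.g g z)
      + 4 * G.ev p (G.g z t))
  lap_d : G.ev p (G.lap dl) = 36 * κ * N ^ 3 - 36 * N ^ 4
    + 2 * N * (8 * κ * (G.ev p (G.g g g) - G.ev p (G.g z z)) + 16 * σ * G.ev p (G.g g z)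
      + 4 * G.ev p (G.g z t))
  Q0 : 0 ≤ Q
  Qu : 3 * G.ev p (G.g u u) ≤ 7 * Q * G.ev p b

/-- expansion of a derivative in a frame -/
theorem D_frame (G : Geo2 M 𝒪 V) {p : M} {F : Fin 4 → V} (hF : G.ON p F) (f : 𝒪) (X : V) :
    G.ev p (G.D X f) = ∑ m, G.ev p (G.g X (F m)) * G.ev p (G.D (F m) f) :=
  G.expand hF ⟨⟨fun X => G.D X f, fun a b => G.D_add_left a b f⟩,
    fun a b => G.D_smul_left a b f⟩ X

theorem g_comb_left {p : M} {F : Fin 4 → V} (hF : G.ON p F) (a : Fin 4 → ℝ) (X : V) :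
    G.ev p (G.g (Geom.comb (𝒪 := 𝒪) F a) X) = ∑ m, a m * G.ev p (G.g X (F m)) := by
  rw [Geom.g_cf hF, Geom.cf_comb hF]
  rfl

theorem g_comb_comb {p : M} {F : Fin 4 → V} (hF : G.ON p F) (a a' : Fin 4 → ℝ) :
    G.ev p (G.g (Geom.comb (𝒪 := 𝒪) F a) (Geom.comb (𝒪 := 𝒪) F a')) = ∑ m, a m * a' m := by
  rw [Geom.g_cf hF, Geom.cf_comb hF, Geom.cf_comb hF]

/-- **The exact equations.** -/
theorem side (hE : G.Einstein 3) (ho : Orient G om) {n dl b : 𝒪} (hB : Basic G om n dl b) (p : M) :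
    ∃ (N κ σ Q : ℝ) (g z t u : V), SidePt G p n dl b N κ σ Q g z t u := by
  obtain ⟨F0, hF0, hdiag⟩ := exists_diag hE ho p
  obtain ⟨F, hS, hEq, hP⟩ := pos_sync ho hF0
  have hPp : Pos G om p F := hP.self_of_nhds
  have hrr : G.rr p F = G.rr p F0 := by
    funext i j k l
    exact G.congrAll G.isT4_Rm (hEq i) (hEq j) (hEq k) (hEq l)
  rw [← hrr] at hdiag
  have hE0 := Geom.einsteinJet hE hS
  have hJ := sdJet hE0
  have hl3 := lap3_block hE0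
  have dn := dn_sync hB hS hP
  have ddl := ddl_sync hB hS hP hdiag
  have db := db_sync hB hS hP
  have lb := lb_sync hE hB hS hP
  have ld := lapd_sync hE hB hS hP hdiag
  have n_ev := hB.n_ev p F hPp
  have d_ev := hB.d_ev p F hPp
  have b_ev : G.ev p b = (∑ m, ∑ i, ∑ j, Ab (G.dd p F m) i j ^ 2) / 10 := hB.b_ev p F hPp
  have lap_n := hB.lap_n p
  set A : Fin 3 → Fin 3 → ℝ := Ab (G.rr p F) with hA
  set T : Fin 4 → Fin 3 → Fin 3 → ℝ := fun m => Ab (G.dd p F m) with hT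
  set S : Fin 4 → Fin 4 → Fin 3 → Fin 3 → ℝ := fun n m => Ab (G.ss p F n m) with hSS
  have dn' : ∀ m, G.ev p (G.D (F m) n) = 1 / 3 * ∑ i, ∑ j, A i j * T m i j := dn
  have ddl' : ∀ m, G.ev p (G.D (F m) dl) = (A 1 1 - 1) * (A 2 2 - 1) * T m 0 0
      + (A 0 0 - 1) * (A 2 2 - 1) * T m 1 1 + (A 0 0 - 1) * (A 1 1 - 1) * T m 2 2 := ddl
  have db' : ∀ m, G.ev p (G.D (F m) b) = 1 / 5 * ∑ k, ∑ i, ∑ j, T k i j * S m k i j := db
  have lb' : G.ev p (G.lap b) = 1 / 5 * ∑ n, ∑ m, ∑ i, ∑ j, S n m i j ^ 2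
      + 1 / 5 * ∑ m, ∑ i, ∑ j, T m i j * lap3C A T m i j := by
    rw [lb]
    simp only [hl3]
    rfl
  have ld' : G.ev p (G.lap dl) =
      (A 1 1 - 1) * (A 2 2 - 1) * lapC 3 A 0 0
      + (A 0 0 - 1) * (A 2 2 - 1) * lapC 3 A 1 1
      + (A 0 0 - 1) * (A 1 1 - 1) * lapC 3 A 2 2
      + 2 * ∑ m, ((A 0 0 - 1) * (T m 1 1 * T m 2 2 - T m 1 2 * T m 2 1)
        + (A 1 1 - 1) * (T m 0 0 * T m 2 2 - T m 0 2 * T m 2 0)
        + (A 2 2 - 1) * (T m 0 0 * T m 1 1 - T m 0 1 * T m 1 0)) := ld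
  have b_ev' : G.ev p b = (∑ m, ∑ i, ∑ j, T m i j ^ 2) / 10 := b_ev
  have h01 : A 0 1 = 0 := hdiag 0 1 (by decide)
  have h02 : A 0 2 = 0 := hdiag 0 2 (by decide)
  have h10 : A 1 0 = 0 := hdiag 1 0 (by decide)
  have h12 : A 1 2 = 0 := hdiag 1 2 (by decide)
  have h20 : A 2 0 = 0 := hdiag 2 0 (by decide)
  have h21 : A 2 1 = 0 := hdiag 2 1 (by decide)
  clear_value A T S
  clear dn ddl db lb b_ev hl3 ld
  obtain ⟨N, a, c, hN0, hac, e0, e1, e2⟩ := exists_ab (A 0 0 - 1) (A 1 1 - 1) (A 2 2 - 1)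
    (by linarith only [hJ.tr])
  obtain ⟨r, hr⟩ : ∃ r : ℝ, r ^ 2 = 3 := ⟨Real.sqrt 3, Real.sq_sqrt (by norm_num)⟩
  obtain ⟨g, z, t, k1, k2, k3, k4⟩ := fam_dec hJ.hT a c r hac hr
  have k5 := kapF_sigF hac hr
  set κ : ℝ := kapF a c with hκ
  set σ : ℝ := sigF a c r with hσ
  have hκ' : κ = a * c * (-a - c) / 2 := rfl
  clear_value κ σ
  have a0 : A 0 0 = 1 + N * a := by linarith only [e0]
  have a1 : A 1 1 = 1 + N * c := by linarith only [e1]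
  have a2 : A 2 2 = 1 + N * (-a - c) := by linarith only [e2]
  have nN : nW A = N ^ 2 := by
    simp only [nW, Fin.sum_univ_three, h01, h02, h10, h12, h20, h21, a0, a1, a2]
    linear_combination (1 / 3 * N ^ 2) * hac
  have dN : dW A = 2 * κ * N ^ 3 := by
    simp only [dW, h01, h02, h10, h12, h20, h21, a0, a1, a2, hκ']
    ring
  have trT := hJ.hT.tr
  set u : Fin 4 → ℝ := fun n => 1 / 5 * ∑ m, ∑ i, ∑ j, T m i j * S0 A S n m i j with hu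
  set Q : ℝ := (∑ n, ∑ m, ∑ i, ∑ j, S0 A S n m i j ^ 2) / 10 with hQ
  have hF := hS.at
  refine ⟨N, κ, σ, Q, Geom.comb (𝒪 := 𝒪) F g, Geom.comb (𝒪 := 𝒪) F z, Geom.comb (𝒪 := 𝒪) F t,
    Geom.comb (𝒪 := 𝒪) F u, ?_⟩
  have gn : ∀ m, G.ev p (G.D (F m) n) = 2 * N * g m := by
    intro m
    rw [dn' m]
    simp only [Fin.sum_univ_three, h01, h02, h10, h12, h20, h21, a0, a1, a2]
    linear_combination (1 / 3 * N) * k3 m + 1 / 3 * trT m
  have gd : ∀ m, G.ev p (G.D (F m) dl) = 6 * N ^ 2 * (κ * g m + σ * z m) := by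
    intro m
    rw [ddl' m, e0, e1, e2]
    linear_combination N ^ 2 * k4 m - (N ^ 2 * (T m 0 0 + T m 1 1 + T m 2 2)) * hac
      - 3 * N ^ 2 * trT m
  have gb : ∀ m, G.ev p (G.D (F m) b) = u m + 3 * N * g m - 3 * N ^ 2 * (κ * g m + σ * z m) := by
    intro m
    rw [db' m, hJ.grad_dec m]
    have hz : ∑ i, ∑ j, T m i j * lapC 3 A i j = 6 * N * (6 * g m)
        - 6 * N ^ 2 * (6 * (κ * g m + σ * z m)) := by
      rw [← k3 m, ← k4 m]
      simp only [lapC, Fin.sum_univ_three, h01, h02, h10, h12, h20, h21, a0, a1, a2,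
        Fin.isValue, Fin.reduceEq, if_true, if_false]
      linear_combination (4 * N ^ 2 * (a ^ 2 + a * c + c ^ 2)) * trT m
    rw [hz, hu]
    ring
  have q1 : G.ev p (G.lap b) = 2 * Q + 18 * (N ^ 2 - 2 * κ * N ^ 3 + N ^ 4) + 26 * G.ev p b
      - 4 * N * (8 * κ * ((∑ m, g m ^ 2) - ∑ m, z m ^ 2) + 16 * σ * (∑ m, g m * z m)
      + 4 * ∑ m, z m * t m) := by
    rw [lb', hJ.norm_dec, boch_alg hJ.sym hJ.tr hJ.hT, lapC_norm hJ.sym hJ.tr, nN, dN, b_ev',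
      hQ, ← k2]
    have hq : ∑ m, ∑ i, ∑ j, ∑ k, A i j * T m j k * T m k i = (∑ m, ∑ i, ∑ j, T m i j ^ 2)
        + N * ∑ m, ∑ i, ∑ j, (![a, c, -a - c] : Fin 3 → ℝ) i * T m i j ^ 2 := by
      simp only [Fin.sum_univ_four, Fin.sum_univ_three, h01, h02, h10, h12, h20, h21, a0, a1, a2,
        Matrix.cons_val]
      rw [hJ.hT.sym 0 1 0, hJ.hT.sym 0 2 0, hJ.hT.sym 0 2 1, hJ.hT.sym 1 1 0, hJ.hT.sym 1 2 0,
        hJ.hT.sym 1 2 1, hJ.hT.sym 2 1 0, hJ.hT.sym 2 2 0, hJ.hT.sym 2 2 1, hJ.hT.sym 3 1 0,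
        hJ.hT.sym 3 2 0, hJ.hT.sym 3 2 1]
      ring
    rw [hq]
    ring
  have q2 : G.ev p (G.lap dl) = 36 * κ * N ^ 3 - 36 * N ^ 4
      + 2 * N * (8 * κ * ((∑ m, g m ^ 2) - ∑ m, z m ^ 2) + 16 * σ * (∑ m, g m * z m)
      + 4 * ∑ m, z m * t m) := by
    rw [ld', ← k2]
    have hq : ∑ m, ((A 0 0 - 1) * (T m 1 1 * T m 2 2 - T m 1 2 * T m 2 1)
        + (A 1 1 - 1) * (T m 0 0 * T m 2 2 - T m 0 2 * T m 2 0)
        + (A 2 2 - 1) * (T m 0 0 * T m 1 1 - T m 0 1 * T m 1 0)) =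
        N * ∑ m, ∑ i, ∑ j, (![a, c, -a - c] : Fin 3 → ℝ) i * T m i j ^ 2 := by
      rw [Finset.mul_sum]
      refine Finset.sum_congr rfl fun m _ => ?_
      have t2 : T m 2 2 = - T m 0 0 - T m 1 1 := by linarith only [trT m]
      rw [e0, e1, e2]
      simp only [Fin.sum_univ_three, Matrix.cons_val]
      rw [hJ.hT.sym m 1 0, hJ.hT.sym m 2 0, hJ.hT.sym m 2 1, t2]
      ring
    rw [hq, e0, e1, e2]
    simp only [lapC, Fin.sum_univ_three, h01, h02, h10, h12, h20, h21, a0, a1, a2,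
      Fin.isValue, Fin.reduceEq, if_true, if_false, hκ']
    linear_combination (-4 * N ^ 4 * (a ^ 2 + a * c + c ^ 2 + 3)) * hac
  refine ⟨hN0, k5, n_ev.trans nN, d_ev.trans dN, ?_, ?_, ?_, ?_, ?_, ?_, ?_, ?_, ?_⟩
  · rw [g_comb_comb hF, g_comb_comb hF, g_comb_comb hF, b_ev', k1]
    simp only [← sq]
    ring
  · intro X
    rw [D_frame G hF, g_comb_left hF, Finset.mul_sum]
    refine Finset.sum_congr rfl fun m _ => ?_
    rw [gn m]; ring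
  · intro X
    rw [D_frame G hF, g_comb_left hF, g_comb_left hF]
    simp only [gd, Finset.mul_sum, ← Finset.sum_add_distrib]
    refine Finset.sum_congr rfl fun m _ => ?_
    ring
  · intro X
    rw [D_frame G hF, g_comb_left hF, g_comb_left hF, g_comb_left hF]
    simp only [gb, Finset.mul_sum, ← Finset.sum_add_distrib, ← Finset.sum_sub_distrib]
    refine Finset.sum_congr rfl fun m _ => ?_
    ring
  · rw [lap_n, n_ev, d_ev, nN, dN]
    ring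
  · rw [q1, g_comb_comb hF, g_comb_comb hF, g_comb_comb hF, g_comb_comb hF]
    simp only [← sq]
  · rw [q2, g_comb_comb hF, g_comb_comb hF, g_comb_comb hF, g_comb_comb hF]
    simp only [← sq]
  · exact div_nonneg (Finset.sum_nonneg fun _ _ => Finset.sum_nonneg fun _ _ =>
      Finset.sum_nonneg fun _ _ => Finset.sum_nonneg fun _ _ => sq_nonneg _) (by norm_num)
  · rw [g_comb_comb hF, b_ev']
    have hk := kato3 (T := T) hJ.S0_fam hJ.S0_symm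
    have e : ∑ m, u m * u m =
        1 / 25 * ∑ n, (∑ m, ∑ i, ∑ j, T m i j * S0 A S n m i j) ^ 2 := by
      rw [Finset.mul_sum]
      refine Finset.sum_congr rfl fun m _ => ?_
      rw [hu]; ring
    rw [e, hQ]
    linarith only [hk]

end Vale.Agent.P211.S4
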