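import Vale.Agent.P211.Bdl.S1
import Vale.Agent.P211.Bdl.S2

set_option linter.all false

/-! P211: Bochner's formula for functions and the Poincaré inequality with the Lichnerowicz
constant, from the solvability of `l h - Δ h = F`. -/

namespace Vale.Agent.P211.S4

open Topology Filter MeasureTheory Set
open scoped ContDiff

variable {M 𝒪 V : Type*} [TopologicalSpace M] [CommRing 𝒪] [Algebra ℝ 𝒪]
    [AddCommGroup V] [Module 𝒪 V] {G : Geo2 M 𝒪 V}

theorem grad_symm (f : 𝒪) (X Y : V) :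
    G.g (G.nab X (G.grad f)) Y = G.g (G.nab Y (G.grad f)) X :=
  Geom.hess_symm (G := G.toGeom) (fun X => G.grad_spec f X) X Y

theorem D_grad_comm (f h : 𝒪) : G.D (G.grad f) h = G.D (G.grad h) f := by
  rw [← G.grad_spec, G.g_symm, G.grad_spec]

/-- **Bochner's formula** for functions. -/
theorem bochner (hE : G.Einstein 3) (f : 𝒪) {p : M} {F : Fin 4 → V} (hS : G.Sync p F) :
    G.ev p (G.lap (G.g (G.grad f) (G.grad f))) =
      2 * (G.ev p (G.D (G.grad f) (G.lap f)) +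
        ∑ i, G.ev p (G.g (G.nab (F i) (G.grad f)) (G.nab (F i) (G.grad f))) +
        3 * G.ev p (G.g (G.grad f) (G.grad f))) := by
  set N := G.grad f with hN
  have hsy : ∀ X Y : V, G.g (G.nab X N) Y = G.g (G.nab Y N) X := fun X Y => grad_symm f X Y
  have h1 : ∀ m, G.D (F m) (G.g N N) = G.g (G.nab N N) (F m) + G.g (G.nab N N) (F m) := by
    intro m
    rw [G.metric, G.g_symm N (G.nab (F m) N), hsy (F m) N]
  have hz : ∀ (m : Fin 4) (X Y : V), G.ev p (G.g (G.nab X (F m)) Y) = 0 := fun m X Y =>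
    G.sync_coeff hS X Y m
  have hz' : ∀ (m : Fin 4) (X Y : V), G.ev p (G.g Y (G.nab X (F m))) = 0 := fun m X Y => by
    rw [G.g_symm]; exact hz m X Y
  have h2 : ∀ m, G.ev p (G.D (F m) (G.D (F m) (G.g N N))) =
      2 * G.ev p (G.g (G.nab (F m) (G.nab N N)) (F m)) := by
    intro m
    rw [h1, G.D_add, G.metric, map_add, map_add, hz']
    ring
  have h3 : ∀ m, G.ev p (G.g (G.nab (F m) (G.nab N N)) (F m)) =
      G.ev p (G.Rm (F m) N N (F m)) + G.ev p (G.D N (G.g (G.nab (F m) N) (F m))) +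
        G.ev p (G.g (G.nab (F m) N) (G.nab (F m) N)) := by
    intro m
    have e1 : G.nab (F m) (G.nab N N) = G.R (F m) N N + G.nab N (G.nab (F m) N) +
        (G.nab (G.nab (F m) N) N - G.nab (G.nab N (F m)) N) := by
      have : G.nab (G.brk (F m) N) N = G.nab (G.nab (F m) N) N - G.nab (G.nab N (F m)) N := by
        show G.nab (G.nab (F m) N - G.nab N (F m)) N = _
        rw [sub_eq_add_neg, G.nab_add_left, G.nab_neg_left]; abel
      rw [← this]
      unfold LC.R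
      abel
    have e2 : G.g (G.nab N (G.nab (F m) N)) (F m) =
        G.D N (G.g (G.nab (F m) N) (F m)) - G.g (G.nab (F m) N) (G.nab N (F m)) := by
      rw [G.metric]; ring
    rw [e1, G.g_add_left, G.g_add_left, G.g_sub_left, e2, hsy (G.nab (F m) N) (F m),
      hsy (G.nab N (F m)) (F m), map_add, map_add, map_sub, map_sub, hz', sub_zero, sub_zero]
    rfl
  have h4 : ∑ m, G.ev p (G.D N (G.g (G.nab (F m) N) (F m))) = G.ev p (G.D N (G.lap f)) := by
    rw [G.D_local p (G.lap f) (∑ m, G.g (G.nab (F m) N) (F m)) (by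
      filter_upwards [hS.on] with q hq
      unfold Geo2.lap
      rw [G.dv_spec _ q F hq, map_sum]) N, Geom.D_fsum, map_sum]
  have h5 := hE p F hS.at N N
  rw [lap_sync _ hS]
  simp only [h2, h3]
  rw [← Finset.mul_sum, Finset.sum_add_distrib, Finset.sum_add_distrib, h4, h5]
  ring

/-- Cauchy-Schwarz for the trace of the Hessian -/
theorem hess_trace (f : 𝒪) {p : M} {F : Fin 4 → V} (hF : G.ON p F) :
    G.ev p (G.lap f) ^ 2 ≤
      4 * ∑ i, G.ev p (G.g (G.nab (F i) (G.grad f)) (G.nab (F i) (G.grad f))) := by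
  have h1 : ∀ i, G.ev p (G.g (G.nab (F i) (G.grad f)) (F i)) ^ 2 ≤
      G.ev p (G.g (G.nab (F i) (G.grad f)) (G.nab (F i) (G.grad f))) := fun i =>
    Geom.cs_unit (by rw [hF i i, if_pos rfl])
  have h2 : G.ev p (G.lap f) = ∑ i, G.ev p (G.g (G.nab (F i) (G.grad f)) (F i)) := by
    unfold Geo2.lap
    exact G.dv_spec _ p F hF
  rw [h2]
  have h3 := Finset.sum_le_sum fun i (_ : i ∈ Finset.univ) => h1 i
  have h4 : (∑ i, G.ev p (G.g (G.nab (F i) (G.grad f)) (F i))) ^ 2 ≤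
      4 * ∑ i, G.ev p (G.g (G.nab (F i) (G.grad f)) (F i)) ^ 2 := by
    simp only [Fin.sum_univ_four]
    nlinarith only [sq_nonneg (G.ev p (G.g (G.nab (F 0) (G.grad f)) (F 0)) - G.ev p (G.g (G.nab (F 1) (G.grad f)) (F 1))),
      sq_nonneg (G.ev p (G.g (G.nab (F 0) (G.grad f)) (F 0)) - G.ev p (G.g (G.nab (F 2) (G.grad f)) (F 2))),
      sq_nonneg (G.ev p (G.g (G.nab (F 0) (G.grad f)) (F 0)) - G.ev p (G.g (G.nab (F 3) (G.grad f)) (F 3))),
      sq_nonneg (G.ev p (G.g (G.nab (F 1) (G.grad f)) (F 1)) - G.ev p (G.g (G.nab (F 2) (G.grad f)) (F 2))),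
      sq_nonneg (G.ev p (G.g (G.nab (F 1) (G.grad f)) (F 1)) - G.ev p (G.g (G.nab (F 3) (G.grad f)) (F 3))),
      sq_nonneg (G.ev p (G.g (G.nab (F 2) (G.grad f)) (F 2)) - G.ev p (G.g (G.nab (F 3) (G.grad f)) (F 3)))]
  linarith only [h3, h4]

theorem exists_sync0 (p : M) : ∃ F : Fin 4 → V, G.Sync p F := by
  obtain ⟨F₀, h₀⟩ := G.frame p
  obtain ⟨F, h1, h2, h3⟩ := G.sync p F₀ h₀
  exact ⟨F, ⟨h1, h3⟩⟩

/-- Cauchy-Schwarz for the metric -/
theorem g_cs (p : M) (X Y : V) :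
    G.ev p (G.g X Y) ^ 2 ≤ G.ev p (G.g X X) * G.ev p (G.g Y Y) := by
  obtain ⟨F, hF⟩ := G.frame p
  have e : G.ev p (G.g X Y) = ∑ i, G.ev p (G.g X (F i)) * G.ev p (G.g Y (F i)) := by
    have := G.toGeom.expand (p := p) (F := F) hF
      ⟨⟨fun X => G.g X Y, fun a b => G.g_add_left a b _⟩, fun a b => G.g_smul_left a b _⟩ X
    refine this.trans (Finset.sum_congr rfl fun i _ => ?_)
    show _ * G.ev p (G.g (F i) Y) = _
    rw [G.g_symm (F i) Y]
  rw [e, G.parseval p F hF X, G.parseval p F hF Y]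
  exact Finset.sum_mul_sq_le_sq_mul_sq _ _ _

theorem lap_max' {f : 𝒪} {p : M} (h : ∀ q, G.ev q f ≤ G.ev p f) : G.ev p (G.lap f) ≤ 0 := by
  obtain ⟨F, hS⟩ := exists_sync0 (G := G) p
  rw [lap_sync f hS]
  refine Finset.sum_nonpos fun m _ => ?_
  have h1 := (G.min_test p (-f) (Filter.Eventually.of_forall fun q => by
    show G.ev p (-f) ≤ G.ev q (-f)
    rw [map_neg, map_neg]; exact neg_le_neg (h q)) (F m)).2
  rw [G.D_neg, G.D_neg, map_neg] at h1
  linarith only [h1]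

theorem lap_add (f h : 𝒪) : G.lap (f + h) = G.lap f + G.lap h := by
  apply G.ev_ext
  intro p
  obtain ⟨F, hS⟩ := exists_sync0 (G := G) p
  rw [map_add, lap_sync _ hS, lap_sync _ hS, lap_sync _ hS, ← Finset.sum_add_distrib]
  refine Finset.sum_congr rfl fun i _ => ?_
  rw [G.D_add, G.D_add, map_add]

theorem lap_smul (c : ℝ) (f : 𝒪) : G.lap (algebraMap ℝ 𝒪 c * f) = algebraMap ℝ 𝒪 c * G.lap f := by
  apply G.ev_ext
  intro p
  obtain ⟨F, hS⟩ := exists_sync0 (G := G) p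
  rw [map_mul, lap_sync _ hS, lap_sync _ hS, Finset.mul_sum]
  refine Finset.sum_congr rfl fun i _ => ?_
  have h : ∀ (f : 𝒪) (X : V), G.D X (algebraMap ℝ 𝒪 c * f) = algebraMap ℝ 𝒪 c * G.D X f := by
    intro f X
    rw [G.D_mul, G.D_const]; ring
  rw [h, h, map_mul]

/-- gradient bound for solutions of `l h - Δ h = F` -/
theorem grad_bound [CompactSpace M] (hE : G.Einstein 3) {l K : ℝ} (hl : 0 < l) (hK : 0 ≤ K)
    {F h : 𝒪} (hF : ∀ q, G.ev q (G.g (G.grad F) (G.grad F)) ≤ K ^ 2)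
    (hh : ∀ q, l * G.ev q h - G.ev q (G.lap h) = G.ev q F) (q : M) :
    G.ev q (G.g (G.grad h) (G.grad h)) ≤ K ^ 2 := by
  obtain ⟨φ, hφ⟩ : ∃ φ : 𝒪, φ = G.g (G.grad h) (G.grad h) := ⟨_, rfl⟩
  haveI : Nonempty M := ⟨q⟩
  obtain ⟨p, -, hp⟩ := isCompact_univ.exists_isMaxOn univ_nonempty (G.ev_cont φ).continuousOn
  have hmax : ∀ x, G.ev x φ ≤ G.ev p φ := fun x => hp (mem_univ x)
  rw [← hφ]
  refine (hmax q).trans ?_
  obtain ⟨E, hS⟩ := exists_sync0 (G := G) p
  have h1 := lap_max' hmax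
  rw [hφ, bochner hE h hS] at h1
  have h2 : G.lap h = algebraMap ℝ 𝒪 l * h + algebraMap ℝ 𝒪 (-1) * F := by
    apply G.ev_ext
    intro x
    have := hh x
    rw [map_add, map_mul, map_mul, Geom.ev_alg, Geom.ev_alg]
    linarith
  have h3 : G.ev p (G.D (G.grad h) (G.lap h)) = l * G.ev p φ - G.ev p (G.g (G.grad h) (G.grad F)) := by
    rw [h2, G.D_add, G.D_mul, G.D_mul, G.D_const, G.D_const, zero_mul, zero_mul, zero_add, zero_add,
      map_add, map_mul, map_mul, Geom.ev_alg, Geom.ev_alg, ← G.grad_spec, ← G.grad_spec, hφ,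
      G.g_symm (G.grad F)]
    ring
  have h4 : 0 ≤ ∑ i, G.ev p (G.g (G.nab (E i) (G.grad h)) (G.nab (E i) (G.grad h))) :=
    Finset.sum_nonneg fun i _ => G.g_nonneg _ _
  have h5 := g_cs (G := G) p (G.grad h) (G.grad F)
  have h6 := hF p
  have h7 : 0 ≤ G.ev p φ := hφ ▸ G.g_nonneg _ _
  have h8 : 0 ≤ G.ev p (G.g (G.grad F) (G.grad F)) := G.g_nonneg _ _
  rw [h3] at h1
  rw [← hφ] at h1 h5
  -- (3 + l) φ ≤ g(∇h, ∇F)
  have h9 : 3 * G.ev p φ ≤ G.ev p (G.g (G.grad h) (G.grad F)) := by nlinarith only [h1, h4, h7, hl]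
  by_contra hcon
  push Not at hcon
  have h10 : (3 * G.ev p φ) ^ 2 ≤ G.ev p φ * K ^ 2 := by
    calc (3 * G.ev p φ) ^ 2 ≤ G.ev p (G.g (G.grad h) (G.grad F)) ^ 2 :=
          pow_le_pow_left₀ (by linarith only [h7]) h9 2
      _ ≤ _ := h5
      _ ≤ _ := mul_le_mul_of_nonneg_left h6 h7
  have h11 : 0 < G.ev p φ := lt_of_le_of_lt (sq_nonneg K) hcon
  have h12 : 9 * G.ev p φ ≤ K ^ 2 := by
    have : G.ev p φ * (9 * G.ev p φ) ≤ G.ev p φ * K ^ 2 := by linarith only [h10]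
    exact le_of_mul_le_mul_left this h11
  linarith only [h12, hcon, h11]

section meas

variable [MeasurableSpace M] [BorelSpace M] {μ : Measure M} [IsFiniteMeasure μ] [CompactSpace M]

theorem int_ev (f : 𝒪) : Integrable (fun q => G.ev q f) μ := M56_int (G.ev_cont f)

theorem int3 (a b c : ℝ) (f g h : 𝒪) :
    ∫ q, (a * G.ev q f + b * G.ev q g + c * G.ev q h) ∂μ =
      a * ∫ q, G.ev q f ∂μ + b * ∫ q, G.ev q g ∂μ + c * ∫ q, G.ev q h ∂μ := by
  rw [integral_add (f := fun q => a * G.ev q f + b * G.ev q g)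
    (((int_ev _).const_mul a).add ((int_ev _).const_mul b)) ((int_ev _).const_mul c),
    integral_add ((int_ev _).const_mul a) ((int_ev _).const_mul b),
    integral_const_mul, integral_const_mul, integral_const_mul]

theorem int_lap (hdiv : DivThm G μ) (f : 𝒪) : ∫ q, G.ev q (G.lap f) ∂μ = 0 := hdiv _

/-- integration by parts -/
theorem ibp (hdiv : DivThm G μ) (f h : 𝒪) :
    ∫ q, G.ev q (f * G.lap h) ∂μ = - ∫ q, G.ev q (G.g (G.grad f) (G.grad h)) ∂μ := by
  have h1 := hdiv (f • G.grad h)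
  have h2 : ∀ q, G.ev q (G.dv (f • G.grad h)) =
      G.ev q (G.g (G.grad f) (G.grad h)) + G.ev q (f * G.lap h) := by
    intro q
    rw [dv_smul, map_add, G.grad_spec]
    rfl
  simp only [h2] at h1
  rw [integral_add (int_ev _) (int_ev _)] at h1
  linarith only [h1]

/-- integrated Bochner formula -/
theorem int_bochner (hE : G.Einstein 3) (hdiv : DivThm G μ) (f : 𝒪) :
    4 * ∫ q, G.ev q (G.g (G.grad f) (G.grad f)) ∂μ ≤ ∫ q, G.ev q (G.lap f * G.lap f) ∂μ := by
  have h1 := int_lap hdiv (G.g (G.grad f) (G.grad f))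
  have h2 : ∀ q, 2 * G.ev q (G.g (G.grad f) (G.grad (G.lap f))) + 1 / 2 * G.ev q (G.lap f * G.lap f)
      + 6 * G.ev q (G.g (G.grad f) (G.grad f)) ≤ G.ev q (G.lap (G.g (G.grad f) (G.grad f))) := by
    intro q
    obtain ⟨F, hS⟩ := exists_sync0 (G := G) q
    have h3 := hess_trace f hS.at
    rw [bochner hE f hS, map_mul, G.g_symm, G.grad_spec]
    nlinarith only [h3]
  have h4 : ∫ q, (2 * G.ev q (G.g (G.grad f) (G.grad (G.lap f))) +
      1 / 2 * G.ev q (G.lap f * G.lap f) + 6 * G.ev q (G.g (G.grad f) (G.grad f))) ∂μ ≤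
      ∫ q, G.ev q (G.lap (G.g (G.grad f) (G.grad f))) ∂μ := by
    refine integral_mono ?_ (int_ev _) h2
    exact (((int_ev _).const_mul 2).add ((int_ev _).const_mul (1 / 2))).add ((int_ev _).const_mul 6)
  rw [int3, h1] at h4
  have h5 := ibp hdiv (G.lap f) f
  have h6 : ∫ q, G.ev q (G.g (G.grad f) (G.grad (G.lap f))) ∂μ =
      ∫ q, G.ev q (G.g (G.grad (G.lap f)) (G.grad f)) ∂μ := by
    simp only [G.g_symm (G.grad f)]
  rw [h6] at h4
  linarith only [h4, h5]

/-- **Poincaré inequality** with the Lichnerowicz constant (for Ricci curvature `3`), from the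
solvability of `l h - Δ h = F` and from a bound of the oscillation by the gradient. -/
theorem poincare_of (hE : G.Einstein 3) (hdiv : DivThm G μ)
    (hsol : ∀ l : ℝ, 0 < l → ∀ F : 𝒪, ∃ h : 𝒪, ∀ q, l * G.ev q h - G.ev q (G.lap h) = G.ev q F)
    (hosc : ∃ C : ℝ, ∀ (f : 𝒪) (K : ℝ), 0 ≤ K →
      (∀ q, G.ev q (G.g (G.grad f) (G.grad f)) ≤ K ^ 2) → ∀ p q, |G.ev p f - G.ev q f| ≤ C * K)
    (F : 𝒪) (hF : ∫ q, G.ev q F ∂μ = 0) :
    4 * ∫ q, G.ev q (F * F) ∂μ ≤ ∫ q, G.ev q (G.g (G.grad F) (G.grad F)) ∂μ := by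
  rcases isEmpty_or_nonempty M with hM | hM
  · have : μ = 0 := by
      ext s _
      rw [Set.eq_empty_of_isEmpty s]; simp
    simp [this]
  obtain ⟨C, hC⟩ := hosc
  -- bounds of `F`
  obtain ⟨p1, -, hp1⟩ := isCompact_univ.exists_isMaxOn univ_nonempty
    (G.ev_cont (G.g (G.grad F) (G.grad F))).continuousOn
  obtain ⟨p2, -, hp2⟩ := isCompact_univ.exists_isMaxOn univ_nonempty
    ((G.ev_cont F).abs).continuousOn
  obtain ⟨K, hK0, hK⟩ : ∃ K : ℝ, 0 ≤ K ∧ ∀ q, G.ev q (G.g (G.grad F) (G.grad F)) ≤ K ^ 2 := by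
    refine ⟨Real.sqrt (G.ev p1 (G.g (G.grad F) (G.grad F))), Real.sqrt_nonneg _, fun q => ?_⟩
    rw [Real.sq_sqrt (G.g_nonneg _ _)]
    exact hp1 (mem_univ q)
  obtain ⟨A, hA0, hA⟩ : ∃ A : ℝ, 0 ≤ A ∧ ∀ q, |G.ev q F| ≤ A :=
    ⟨_, abs_nonneg _, fun q => hp2 (mem_univ q)⟩
  obtain ⟨B, hB⟩ : ∃ B : ℝ, B = |C * K| := ⟨_, rfl⟩
  have hB0 : 0 ≤ B := hB ▸ abs_nonneg _
  obtain ⟨m, hm⟩ : ∃ m : ℝ, m = μ.real univ := ⟨_, rfl⟩
  have hm0 : 0 ≤ m := hm ▸ measureReal_nonneg
  obtain ⟨a, ha⟩ : ∃ a : ℝ, a = ∫ q, G.ev q (F * F) ∂μ := ⟨_, rfl⟩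
  obtain ⟨b, hb⟩ : ∃ b : ℝ, b = ∫ q, G.ev q (G.g (G.grad F) (G.grad F)) ∂μ := ⟨_, rfl⟩
  rw [← ha, ← hb]
  -- the main estimate
  have key : ∀ l : ℝ, 0 < l → 4 * a ≤ b + l * (12 * (A * B * m) + 4 * l * (B ^ 2 * m)) := by
    intro l hl
    obtain ⟨h, hh⟩ := hsol l hl F
    have hg := grad_bound hE hl hK0 hK hh
    have hosc := hC h K hK0 hg
    have hmean : ∫ q, G.ev q h ∂μ = 0 := by
      have e1 : ∫ q, (l * G.ev q h - G.ev q (G.lap h)) ∂μ = 0 := by
        rw [← hF]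
        exact integral_congr_ae (Filter.Eventually.of_forall hh)
      rw [integral_sub ((int_ev h).const_mul l) (int_ev _), int_lap hdiv, integral_const_mul,
        sub_zero] at e1
      exact (mul_eq_zero.1 e1).resolve_left hl.ne'
    have hbd : ∀ p, m * |G.ev p h| ≤ B * m := by
      intro p
      have e1 : ∫ q, (G.ev p h - G.ev q h) ∂μ = m * G.ev p h := by
        rw [integral_sub (integrable_const _) (int_ev h), hmean, integral_const, ← hm, smul_eq_mul,
          sub_zero]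
      have e2 : |∫ q, (G.ev p h - G.ev q h) ∂μ| ≤ ∫ q, |G.ev p h - G.ev q h| ∂μ :=
        abs_integral_le_integral_abs
      have e3 : ∫ q, |G.ev p h - G.ev q h| ∂μ ≤ ∫ q, B ∂μ := by
        refine integral_mono_of_nonneg (Filter.Eventually.of_forall fun q => abs_nonneg _)
          (integrable_const _) (Filter.Eventually.of_forall fun q => ?_)
        exact (hosc p q).trans (hB ▸ le_abs_self _)
      rw [integral_const, ← hm, smul_eq_mul] at e3
      rw [e1, abs_mul, abs_of_nonneg hm0] at e2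
      linarith only [e2, e3]
    rcases hm0.eq_or_lt with hm1 | hm1
    · -- measure zero
      have hμ : μ = 0 := by
        have : μ.real univ = 0 := by rw [← hm, ← hm1]
        rw [measureReal_eq_zero_iff] at this
        exact Measure.measure_univ_eq_zero.1 this
      have ea : a = 0 := by rw [ha, hμ]; simp
      have eb : b = 0 := by rw [hb, hμ]; simp
      rw [ea, eb, ← hm1]
      simp
    have hbd' : ∀ p, |G.ev p h| ≤ B := fun p => by
      have := hbd p
      rw [mul_comm B] at this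
      exact le_of_mul_le_mul_left this hm1
    -- the quantities
    have i1 : |∫ q, G.ev q (F * h) ∂μ| ≤ A * B * m := by
      have e2 : |∫ q, G.ev q (F * h) ∂μ| ≤ ∫ q, |G.ev q (F * h)| ∂μ := abs_integral_le_integral_abs
      have e3 : ∫ q, |G.ev q (F * h)| ∂μ ≤ ∫ q, A * B ∂μ := by
        refine integral_mono_of_nonneg (Filter.Eventually.of_forall fun q => abs_nonneg _)
          (integrable_const _) (Filter.Eventually.of_forall fun q => ?_)
        show |G.ev q (F * h)| ≤ A * B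
        rw [map_mul, abs_mul]
        exact mul_le_mul (hA q) (hbd' q) (abs_nonneg _) hA0
      rw [integral_const, ← hm, smul_eq_mul] at e3
      linarith only [e2, e3]
    have i2 : ∫ q, G.ev q (h * h) ∂μ ≤ B ^ 2 * m := by
      have e3 : ∫ q, G.ev q (h * h) ∂μ ≤ ∫ q, B ^ 2 ∂μ := by
        refine integral_mono (int_ev _) (integrable_const _) fun q => ?_
        show G.ev q (h * h) ≤ B ^ 2
        rw [map_mul, ← sq, ← sq_abs]
        exact pow_le_pow_left₀ (abs_nonneg _) (hbd' q) 2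
      rw [integral_const, ← hm, smul_eq_mul] at e3
      linarith only [e3]
    have i3 : a = l * ∫ q, G.ev q (F * h) ∂μ + ∫ q, G.ev q (G.g (G.grad F) (G.grad h)) ∂μ := by
      have e1 : a = ∫ q, (l * G.ev q (F * h) - G.ev q (F * G.lap h)) ∂μ := by
        rw [ha]
        refine integral_congr_ae (Filter.Eventually.of_forall fun q => ?_)
        show G.ev q (F * F) = l * G.ev q (F * h) - G.ev q (F * G.lap h)
        have := hh q
        rw [map_mul, map_mul, map_mul]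
        linear_combination (-(G.ev q F)) * this
      rw [e1, integral_sub ((int_ev _).const_mul l) (int_ev _), integral_const_mul, ibp hdiv]
      ring
    have i4 : 4 * ∫ q, G.ev q (G.g (G.grad h) (G.grad h)) ∂μ ≤
        a - 2 * l * ∫ q, G.ev q (F * h) ∂μ + l ^ 2 * ∫ q, G.ev q (h * h) ∂μ := by
      refine (int_bochner hE hdiv h).trans (le_of_eq ?_)
      have e1 : ∫ q, G.ev q (G.lap h * G.lap h) ∂μ =
          ∫ q, (1 * G.ev q (F * F) + (-(2 * l)) * G.ev q (F * h) + l ^ 2 * G.ev q (h * h)) ∂μ := by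
        refine integral_congr_ae (Filter.Eventually.of_forall fun q => ?_)
        show G.ev q (G.lap h * G.lap h) = 1 * G.ev q (F * F) + (-(2 * l)) * G.ev q (F * h) +
          l ^ 2 * G.ev q (h * h)
        have e2 : G.ev q (G.lap h) = l * G.ev q h - G.ev q F := by linarith [hh q]
        rw [map_mul, map_mul, map_mul, map_mul, e2]
        ring
      rw [e1, int3, ← ha]
      ring
    have i5 : ∫ q, G.ev q (G.g (G.grad F) (G.grad h)) ∂μ ≤
        1 / 8 * b + 2 * ∫ q, G.ev q (G.g (G.grad h) (G.grad h)) ∂μ := by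
      rw [hb, ← integral_const_mul, ← integral_const_mul,
        ← integral_add ((int_ev _).const_mul _) ((int_ev _).const_mul _)]
      refine integral_mono (int_ev _) (((int_ev _).const_mul _).add ((int_ev _).const_mul _))
        fun q => ?_
      show G.ev q (G.g (G.grad F) (G.grad h)) ≤ 1 / 8 * G.ev q (G.g (G.grad F) (G.grad F)) +
        2 * G.ev q (G.g (G.grad h) (G.grad h))
      have e1 := g_cs (G := G) q (G.grad F) (G.grad h)
      have e2 := G.g_nonneg q (G.grad F)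
      have e3 := G.g_nonneg q (G.grad h)
      refine abs_le_of_sq_le_sq' ?_ (by linarith only [e2, e3]) |>.2
      nlinarith only [e1, e2, e3, sq_nonneg (1 / 8 * G.ev q (G.g (G.grad F) (G.grad F)) -
        2 * G.ev q (G.g (G.grad h) (G.grad h)))]
    obtain ⟨i1a, i1b⟩ := abs_le.1 i1
    have hl2 : l ^ 2 * ∫ q, G.ev q (h * h) ∂μ ≤ l ^ 2 * (B ^ 2 * m) :=
      mul_le_mul_of_nonneg_left i2 (sq_nonneg l)
    have hl3 : l * ∫ q, G.ev q (F * h) ∂μ ≤ l * (A * B * m) := mul_le_mul_of_nonneg_left i1b hl.le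
    have hl4 : l * (-(A * B * m)) ≤ l * ∫ q, G.ev q (F * h) ∂μ := mul_le_mul_of_nonneg_left i1a hl.le
    have hABm : 0 ≤ l * (A * B * m) := by positivity
    nlinarith only [i3, i4, i5, hl2, hl3, hl4, hABm]
  -- limit
  obtain ⟨c1, hc1⟩ : ∃ c1 : ℝ, c1 = 12 * (A * B * m) + 4 * (B ^ 2 * m) := ⟨_, rfl⟩
  have hc10 : 0 ≤ c1 := by rw [hc1]; positivity
  refine le_of_forall_pos_le_add fun ε hε => ?_
  have hl0 : 0 < min 1 (ε / (c1 + 1)) := lt_min one_pos (by positivity)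
  have h1 := key _ hl0
  have hl1 : min 1 (ε / (c1 + 1)) ≤ 1 := min_le_left _ _
  have hl2 : min 1 (ε / (c1 + 1)) ≤ ε / (c1 + 1) := min_le_right _ _
  set l := min 1 (ε / (c1 + 1)) with hldef
  have h2 : 12 * (A * B * m) + 4 * l * (B ^ 2 * m) ≤ c1 := by
    rw [hc1]
    have : 0 ≤ B ^ 2 * m := by positivity
    nlinarith only [hl1, this]
  have h3 : l * (12 * (A * B * m) + 4 * l * (B ^ 2 * m)) ≤ l * c1 :=
    mul_le_mul_of_nonneg_left h2 hl0.le
  have h4 : l * c1 ≤ ε := by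
    calc l * c1 ≤ ε / (c1 + 1) * c1 := mul_le_mul_of_nonneg_right hl2 hc10
      _ ≤ ε / (c1 + 1) * (c1 + 1) := mul_le_mul_of_nonneg_left (by linarith) (by positivity)
      _ = ε := by field_simp
  linarith only [h1, h3, h4]

end meas

end Vale.Agent.P211.S4
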