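import Vale.Agent.P211.Bdl.S3
import Vale.Agent.P211.H844.PA
import Vale.Agent.P272.K.LIN.Patch
import Vale.Agent.P272.K.LIN.DescIn
import Vale.Agent.P272.K.R.Reg

/-! P211: vector fields and the Laplacian in charts. -/

set_option maxSynthPendingDepth 3
set_option linter.all false

open scoped Manifold ContDiff Topology
open Bundle Filter Set MeasureTheory

noncomputable section

namespace Vale.Agent.P211.S4

open Vale.Agent.P272.K.LIN

section chart

variable {E : Type*} [NormedAddCommGroup E] [NormedSpace ℝ E] [FiniteDimensional ℝ E]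
  {M : Type*} [TopologicalSpace M] [ChartedSpace E M] [IsManifold 𝓘(ℝ, E) ∞ M] [T2Space M]

instance rsm_of : RSm E M where
  trans e he e' he' x hx hx' := by
    have h1 : ContMDiffAt 𝓘(ℝ, E) 𝓘(ℝ, E) ∞ e' x :=
      contMDiffAt_of_mem_maximalAtlas (IsManifold.subset_maximalAtlas he') hx'
    have h2 : ContMDiffAt 𝓘(ℝ, E) 𝓘(ℝ, E) ∞ e.symm (e x) :=
      (contMDiffOn_symm_of_mem_maximalAtlas (I := 𝓘(ℝ, E)) (n := ∞)
        (IsManifold.subset_maximalAtlas he)).contMDiffAt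
          (e.open_target.mem_nhds (e.map_source hx))
    have h3 : ContMDiffAt 𝓘(ℝ, E) 𝓘(ℝ, E) ∞ (fun y => e' (e.symm y)) (e x) := by
      refine ContMDiffAt.comp (e x) (g := e') (f := e.symm) ?_ h2
      rwa [e.left_inv hx]
    exact contMDiffAt_iff_contDiffAt.1 h3

/-- smooth functions in charts -/
theorem sf_ck (f : SF E M) : CkFn E ∞ (f : M → ℝ) := by
  intro e he x hx
  have h2 : ContMDiffAt 𝓘(ℝ, E) 𝓘(ℝ, E) ∞ e.symm (e x) :=
    (contMDiffOn_symm_of_mem_maximalAtlas (I := 𝓘(ℝ, E)) (n := ∞)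
      (IsManifold.subset_maximalAtlas he)).contMDiffAt
        (e.open_target.mem_nhds (e.map_source hx))
  have h3 : ContMDiffAt 𝓘(ℝ, E) 𝓘(ℝ) ∞ (fun y => f (e.symm y)) (e x) :=
    ContMDiffAt.comp (e x) (g := f) (f := e.symm) (f.contMDiff _) h2
  exact contMDiffAt_iff_contDiffAt.1 h3

theorem sf_of_ck {f : M → ℝ} (hf : CkFn E ∞ f) : ContMDiff 𝓘(ℝ, E) 𝓘(ℝ) ∞ f := by
  intro x
  have h1 := hf (chartAt E x) (chart_mem_atlas E x) x (mem_chart_source E x)
  have h2 : ContMDiffAt 𝓘(ℝ, E) 𝓘(ℝ, E) ∞ (chartAt E x) x :=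
    contMDiffAt_of_mem_maximalAtlas (IsManifold.subset_maximalAtlas (chart_mem_atlas E x))
      (mem_chart_source E x)
  have h3 := ContMDiffAt.comp x (contMDiffAt_iff_contDiffAt.2 h1) h2
  refine h3.congr_of_eventuallyEq ?_
  filter_upwards [(chartAt E x).open_source.mem_nhds (mem_chart_source E x)] with y hy
  simp only [Function.comp]
  rw [(chartAt E x).left_inv hy]

/-- the expression of a vector field in a chart -/
def vch (e : OpenPartialHomeomorph M E) (X : VF E M) (y : E) : E :=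
  (mfderiv 𝓘(ℝ, E) 𝓘(ℝ, E) e (e.symm y) : E →L[ℝ] E) (X (e.symm y))

theorem mdiff_chart {e : OpenPartialHomeomorph M E} (he : e ∈ atlas E M) {x : M}
    (hx : x ∈ e.source) : MDifferentiableAt 𝓘(ℝ, E) 𝓘(ℝ, E) e x :=
  (contMDiffAt_of_mem_maximalAtlas (n := ∞) (IsManifold.subset_maximalAtlas he) hx).mdifferentiableAt
    (by simp)

/-- the derivative along a vector field in a chart -/
theorem dvf_chart {e : OpenPartialHomeomorph M E} (he : e ∈ atlas E M) {x : M}
    (hx : x ∈ e.source) (X : VF E M) (f : SF E M) :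
    DVF X f x = fderiv ℝ (fun y => f (e.symm y)) (e x) (vch e X (e x)) := by
  have h1 : (f : M → ℝ) =ᶠ[𝓝 x] fun z => (fun y => f (e.symm y)) (e z) := by
    filter_upwards [e.open_source.mem_nhds hx] with y hy
    rw [e.left_inv hy]
  have h2 : HasMFDerivAt 𝓘(ℝ, E) 𝓘(ℝ, E) e x (mfderiv 𝓘(ℝ, E) 𝓘(ℝ, E) e x) :=
    (mdiff_chart he hx).hasMFDerivAt
  have h3 : HasFDerivAt (fun y => f (e.symm y)) (fderiv ℝ (fun y => f (e.symm y)) (e x)) (e x) :=
    ((sf_ck f e he x hx).differentiableAt (by simp)).hasFDerivAt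
  have h4 := h3.hasMFDerivAt.comp x h2
  rw [DVF_apply, mvfderiv, h1.mfderiv_eq]
  have h5 : mfderiv 𝓘(ℝ, E) 𝓘(ℝ) (fun z => (fun y => f (e.symm y)) (e z)) x = _ := h4.mfderiv
  rw [h5]
  unfold vch
  rw [e.left_inv hx]
  rfl

/-- vector fields are smooth in charts -/
theorem vch_smooth {e : OpenPartialHomeomorph M E} (he : e ∈ atlas E M) (X : VF E M) :
    ContDiffOn ℝ ∞ (vch e X) e.target := by
  intro y0 hy0
  refine ContDiffAt.contDiffWithinAt ?_
  set x0 := e.symm y0 with hx0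
  have hx : x0 ∈ e.source := e.map_target hy0
  have hy : e x0 = y0 := e.right_inv hy0
  -- each component
  have key : ∀ ℓ : E →L[ℝ] ℝ, ContDiffAt ℝ ∞ (fun y => ℓ (vch e X y)) y0 := by
    intro ℓ
    have hsm : ContMDiffOn 𝓘(ℝ, E) 𝓘(ℝ) ∞ (fun q => ℓ (e q)) e.source := by
      have h1 : ContMDiffOn 𝓘(ℝ, E) 𝓘(ℝ, E) ∞ e e.source :=
        contMDiffOn_of_mem_maximalAtlas (IsManifold.subset_maximalAtlas he)
      exact ℓ.contDiff.contMDiff.comp_contMDiffOn h1
    obtain ⟨c, hc⟩ := cut_fun (E := E) (e.open_source.mem_nhds hx) hsm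
    have h1 : ContDiffAt ℝ ∞ (fun y => DVF X c (e.symm y)) y0 := by
      have := sf_ck (DVF X c) e he x0 hx
      rwa [hy] at this
    refine h1.congr_of_eventuallyEq ?_
    have ht : Tendsto e.symm (𝓝 y0) (𝓝 x0) := (e.continuousAt_symm hy0)
    have hc' : ∀ᶠ y in 𝓝 y0, ∀ᶠ z in 𝓝 (e.symm y), c z = ℓ (e z) :=
      ht.eventually (eventually_eventually_nhds.2 hc)
    filter_upwards [hc', e.open_target.mem_nhds hy0] with y hcy hyt
    have hys : e.symm y ∈ e.source := e.map_target hyt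
    rw [dvf_chart he hys X c, e.right_inv hyt]
    have h2 : (fun y => c (e.symm y)) =ᶠ[𝓝 y] fun y => ℓ y := by
      have ht' : Tendsto e.symm (𝓝 y) (𝓝 (e.symm y)) := (e.continuousAt_symm hyt)
      filter_upwards [ht'.eventually hcy, e.open_target.mem_nhds hyt] with z hz hzt
      rw [hz, e.right_inv hzt]
    rw [h2.fderiv_eq, ℓ.fderiv]
  have h1 : vch e X = fun y => ∑ i, (LinearMap.toContinuousLinearMap
      ((Module.finBasis ℝ E).coord i)) (vch e X y) • Module.finBasis ℝ E i := by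
    funext y
    exact ((Module.finBasis ℝ E).sum_repr (vch e X y)).symm
  rw [h1]
  exact ContDiffAt.sum fun i _ => (key _).smul contDiffAt_const

end chart

section lap

/-- the Laplacian in a frame which is orthonormal at the point -/
theorem lap_frame {M 𝒪 V : Type*} [TopologicalSpace M] [CommRing 𝒪] [Algebra ℝ 𝒪]
    [AddCommGroup V] [Module 𝒪 V] {G : Geo2 M 𝒪 V} (f : 𝒪) {p : M} {F : Fin 4 → V}
    (hF : G.ON p F) : G.ev p (G.lap f) =
      ∑ m, G.ev p (G.D (F m) (G.D (F m) f)) - G.ev p (G.D (∑ m, G.nab (F m) (F m)) f) := by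
  have h2 : G.ev p (G.lap f) = ∑ i, G.ev p (G.g (G.nab (F i) (G.grad f)) (F i)) := by
    unfold Geo2.lap
    exact G.dv_spec _ p F hF
  have h3 : ∀ i, G.g (G.nab (F i) (G.grad f)) (F i) =
      G.D (F i) (G.D (F i) f) - G.D (G.nab (F i) (F i)) f := by
    intro i
    rw [← G.grad_spec f (F i), G.metric, G.grad_spec]
    ring
  have h4 : G.D (∑ m, G.nab (F m) (F m)) f = ∑ m, G.D (G.nab (F m) (F m)) f := by
    simp only [Fin.sum_univ_four, G.D_add_left]
  rw [h2, h4, map_sum, ← Finset.sum_sub_distrib]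
  refine Finset.sum_congr rfl fun i _ => ?_
  rw [h3, map_sub]

/-- second order part of an operator -/
def aop {E : Type*} [NormedAddCommGroup E] [NormedSpace ℝ E] (w : Fin 4 → E → E) (y : E) :
    (E →L[ℝ] E →L[ℝ] ℝ) →L[ℝ] ℝ :=
  ∑ m, (ContinuousLinearMap.apply ℝ ℝ (w m y)).comp
    (ContinuousLinearMap.apply ℝ (E →L[ℝ] ℝ) (w m y))

/-- first order part of an operator -/
def bop {E : Type*} [NormedAddCommGroup E] [NormedSpace ℝ E] (w : Fin 4 → E → E) (z : E → E)
    (y : E) : (E →L[ℝ] ℝ) →L[ℝ] ℝ :=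
  ContinuousLinearMap.apply ℝ ℝ ((∑ m, fderiv ℝ (w m) y (w m y)) - z y)

theorem aop_apply {E : Type*} [NormedAddCommGroup E] [NormedSpace ℝ E] (w : Fin 4 → E → E)
    (y : E) (B : E →L[ℝ] E →L[ℝ] ℝ) : aop w y B = ∑ m, B (w m y) (w m y) := by
  simp only [aop, Fin.sum_univ_four]
  rfl

theorem bop_apply {E : Type*} [NormedAddCommGroup E] [NormedSpace ℝ E] (w : Fin 4 → E → E)
    (z : E → E) (y : E) (ξ : E →L[ℝ] ℝ) :
    bop w z y ξ = ξ ((∑ m, fderiv ℝ (w m) y (w m y)) - z y) := rfl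

theorem aop_smooth {E : Type*} [NormedAddCommGroup E] [NormedSpace ℝ E] {w : Fin 4 → E → E}
    {U : Set E} (hw : ∀ m, ContDiffOn ℝ ∞ (w m) U) : ContDiffOn ℝ ∞ (aop w) U := by
  unfold aop
  refine ContDiffOn.sum fun m _ => ?_
  refine ContDiffOn.clm_comp ?_ ?_
  · exact (ContinuousLinearMap.apply ℝ (E := E) ℝ).contDiff.comp_contDiffOn (hw m)
  · exact (ContinuousLinearMap.apply ℝ (E := E) (E →L[ℝ] ℝ)).contDiff.comp_contDiffOn (hw m)

theorem bop_smooth {E : Type*} [NormedAddCommGroup E] [NormedSpace ℝ E] {w : Fin 4 → E → E}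
    {z : E → E} {U : Set E} (hU : IsOpen U) (hw : ∀ m, ContDiffOn ℝ ∞ (w m) U)
    (hz : ContDiffOn ℝ ∞ z U) : ContDiffOn ℝ ∞ (bop w z) U := by
  unfold bop
  refine (ContinuousLinearMap.apply ℝ (E := E) ℝ).contDiff.comp_contDiffOn ?_
  refine ContDiffOn.sub (ContDiffOn.sum fun m _ => ?_) hz
  exact ((hw m).fderiv_of_isOpen hU (by simp)).clm_apply (hw m)

variable {E : Type*} [NormedAddCommGroup E] [NormedSpace ℝ E] [FiniteDimensional ℝ E]
  {M : Type*} [TopologicalSpace M] [ChartedSpace E M] [IsManifold 𝓘(ℝ, E) ∞ M] [T2Space M]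

theorem dvf2_chart {e : OpenPartialHomeomorph M E} (he : e ∈ atlas E M) {x : M}
    (hx : x ∈ e.source) (X : VF E M) (f : SF E M) :
    DVF X (DVF X f) x =
      fderiv ℝ (fderiv ℝ (fun y => f (e.symm y))) (e x) (vch e X (e x)) (vch e X (e x)) +
      fderiv ℝ (fun y => f (e.symm y)) (e x) (fderiv ℝ (vch e X) (e x) (vch e X (e x))) := by
  have hx' := e.map_source hx
  rw [dvf_chart he hx]
  have h1 : (fun y => DVF X f (e.symm y)) =ᶠ[𝓝 (e x)]
      fun y => fderiv ℝ (fun y => f (e.symm y)) y (vch e X y) := by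
    filter_upwards [e.open_target.mem_nhds hx'] with y hy
    rw [dvf_chart he (e.map_target hy), e.right_inv hy]
  rw [h1.fderiv_eq]
  have h2 : ContDiffAt ℝ ∞ (fun y => f (e.symm y)) (e x) := sf_ck f e he x hx
  have h3 : HasFDerivAt (fderiv ℝ (fun y => f (e.symm y)))
      (fderiv ℝ (fderiv ℝ (fun y => f (e.symm y))) (e x)) (e x) :=
    ((h2.fderiv_right (m := 1) (by norm_cast)).differentiableAt (by simp)).hasFDerivAt
  have h4 : HasFDerivAt (vch e X) (fderiv ℝ (vch e X) (e x)) (e x) :=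
    (((vch_smooth he X).contDiffAt (e.open_target.mem_nhds hx')).differentiableAt
      (by simp)).hasFDerivAt
  rw [(h3.clm_apply h4).fderiv]
  simp [add_comm]

variable [RiemannianBundle (fun x : M => TangentSpace 𝓘(ℝ, E) x)]
  [IsContMDiffRiemannianBundle 𝓘(ℝ, E) ∞ E (fun x : M => TangentSpace 𝓘(ℝ, E) x)]
  {cov : CovariantDerivative 𝓘(ℝ, E) E (TangentSpace 𝓘(ℝ, E) : M → Type _)}

/-- **the Laplacian in a chart** -/
theorem lap_chart [PreconnectedSpace M] (hcov : IsLC cov) (hE : Module.finrank ℝ E = 4)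
    {e : OpenPartialHomeomorph M E} (he : e ∈ atlas E M) {x : M} (hx : x ∈ e.source)
    {F : Fin 4 → VF E M} (hF : (geo2Of hcov hE).ON x F) (f : SF E M) :
    (geo2Of hcov hE).lap f x =
      aop (fun m => vch e (F m)) (e x) (fderiv ℝ (fderiv ℝ (fun y => f (e.symm y))) (e x)) +
      bop (fun m => vch e (F m)) (vch e (∑ m, nabVF cov hcov.smooth (F m) (F m))) (e x)
        (fderiv ℝ (fun y => f (e.symm y)) (e x)) := by
  have h1 : (geo2Of hcov hE).lap f x = ∑ m, DVF (F m) (DVF (F m) f) x -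
    DVF (∑ m, nabVF cov hcov.smooth (F m) (F m)) f x := lap_frame (G := geo2Of hcov hE) f hF
  rw [h1, aop_apply, bop_apply, dvf_chart he hx]
  simp only [dvf2_chart he hx]
  rw [Finset.sum_add_distrib, map_sub, map_sum]
  ring

/-- the frame spans: ellipticity -/
theorem frame_pos (hE : Module.finrank ℝ E = 4) {e : OpenPartialHomeomorph M E}
    (he : e ∈ atlas E M) {x : M} (hx : x ∈ e.source) {F : Fin 4 → VF E M}
    (hF : ∀ i j, gVF (F i) (F j) x = if i = j then 1 else 0) {ξ : E →L[ℝ] ℝ} (hξ : ξ ≠ 0) :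
    0 < aop (fun m => vch e (F m)) (e x) (ξ.smulRight ξ) := by
  rw [aop_apply]
  have h1 : ∀ m, (ξ.smulRight ξ) (vch e (F m) (e x)) (vch e (F m) (e x)) =
      ξ (vch e (F m) (e x)) ^ 2 := by
    intro m
    simp [sq]
  simp only [h1]
  by_contra hcon
  push Not at hcon
  have h2 : ∀ m, ξ (vch e (F m) (e x)) = 0 := by
    intro m
    have h3 := (Finset.sum_eq_zero_iff_of_nonneg (fun m _ => sq_nonneg (ξ (vch e (F m) (e x))))).1
      (le_antisymm hcon (Finset.sum_nonneg fun m _ => sq_nonneg _)) m (Finset.mem_univ m)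
    exact pow_eq_zero_iff (two_ne_zero) |>.1 h3
  apply hξ
  have hbij : Function.Surjective (mfderiv 𝓘(ℝ, E) 𝓘(ℝ, E) e x) := by
    have hmd : OpenPartialHomeomorph.MDifferentiable 𝓘(ℝ, E) 𝓘(ℝ, E) e :=
      mdifferentiable_of_mem_atlas (I := 𝓘(ℝ, E)) he
    exact (hmd.mfderiv_bijective hx).2
  ext v
  obtain ⟨u, hu⟩ := hbij v
  obtain ⟨Z, hZ⟩ := exists_ext (E := E) x u
  have h4 := expandVF hE x F hF Z
  have h5 : v = ∑ i, gVF Z (F i) x • vch e (F i) (e x) := by
    rw [← hu, ← hZ, h4, map_sum]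
    refine Finset.sum_congr rfl fun i _ => ?_
    rw [map_smul]
    unfold vch
    rw [e.left_inv hx]
    rfl
  rw [h5, map_sum]
  simp only [map_smul, h2, smul_zero, Finset.sum_const_zero]
  simp

end lap

end Vale.Agent.P211.S4
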